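import Vale.Agent.P102.MathlibUsed
import Vale.Agent.P102.Defs

set_option linter.all false

section

section

namespace Vale.Agent.P102

open MeasureTheory Filter Topology

/-- tuples of naturals with gaps tending to infinity -/
def gapSet (k N : ℕ) : Set (Fin k → ℕ) := {t | ∀ i j, i < j → t i + N ≤ t j}

def gapF (k : ℕ) : Filter (Fin k → ℕ) := ⨅ N : ℕ, 𝓟 (gapSet k N)

lemma gapSet_anti (k : ℕ) : Antitone (gapSet k) := by
  intro N M h t ht i j hij
  have := ht i j hij
  omega

lemma gapF_hasBasis (k : ℕ) : (gapF k).HasBasis (fun _ : ℕ => True) (gapSet k) := by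
  unfold gapF
  refine hasBasis_iInf_principal ?_
  exact (gapSet_anti k).directed_ge

lemma eventually_gap {k : ℕ} {p : (Fin k → ℕ) → Prop} :
    (∀ᶠ t in gapF k, p t) ↔ ∃ N : ℕ, ∀ t ∈ gapSet k N, p t := by
  rw [(gapF_hasBasis k).eventually_iff]
  simp only [true_and]

lemma tendsto_succ (k : ℕ) :
    Tendsto (fun t : Fin (k+1) → ℕ => fun i : Fin k => t i.succ) (gapF (k+1)) (gapF k) := by
  rw [(gapF_hasBasis (k+1)).tendsto_iff (gapF_hasBasis k)]
  intro N _
  refine ⟨N, trivial, ?_⟩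
  intro t ht i j hij
  exact ht i.succ j.succ (by simpa using hij)

lemma tendsto_castSucc (k : ℕ) :
    Tendsto (fun t : Fin (k+1) → ℕ => fun i : Fin k => t i.castSucc) (gapF (k+1)) (gapF k) := by
  rw [(gapF_hasBasis (k+1)).tendsto_iff (gapF_hasBasis k)]
  intro N _
  refine ⟨N, trivial, ?_⟩
  intro t ht i j hij
  exact ht i.castSucc j.castSucc (by simpa using hij)

lemma tendsto_diff (k : ℕ) {i j : Fin k} (hij : i < j) :
    Tendsto (fun t : Fin k → ℕ => t j - t i) (gapF k) atTop := by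
  rw [(gapF_hasBasis k).tendsto_iff atTop_basis]
  intro N _
  refine ⟨N, trivial, ?_⟩
  intro t ht
  have := ht i j hij
  simp only [Set.mem_Ici]
  omega

lemma gap_le (k : ℕ) : ∀ᶠ t in gapF k, ∀ i j, i < j → t i ≤ t j := by
  rw [eventually_gap]
  refine ⟨0, ?_⟩
  intro t ht i j hij
  have := ht i j hij
  omega

section
variable {α : Type*} [MeasurableSpace α] (μ : Measure α)

/-- filter version of mixing of order `k`, natural times -/
def ConvFor (T : α → α) {k : ℕ} (A : Fin k → Set α) : Prop :=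
  Tendsto (fun t : Fin k → ℕ => μ.real (⋂ i, (T^[t i]) ⁻¹' A i)) (gapF k)
    (𝓝 (∏ i, μ.real (A i)))

def NatMixing (T : α → α) (k : ℕ) : Prop :=
  ∀ A : Fin k → Set α, (∀ i, MeasurableSet (A i)) → ConvFor μ T A

lemma perm_pow_eq (T : Equiv.Perm α) (n : ℕ) : ((T ^ n : Equiv.Perm α) : α → α) = T^[n] := by
  exact Equiv.Perm.coe_pow T n

variable {μ}

lemma mp_zpow (T : Equiv.Perm α) (hT : MeasurePreserving T μ μ)
    (hT' : Measurable T.symm) (z : ℤ) : MeasurePreserving (T ^ z : Equiv.Perm α) μ μ := by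
  have hsymm : MeasurePreserving (T.symm : α → α) μ μ :=
    MeasurePreserving.symm (⟨T, hT.measurable, hT'⟩ : α ≃ᵐ α) hT
  cases z with
  | ofNat n =>
    have : ((T ^ (Int.ofNat n) : Equiv.Perm α) : α → α) = T^[n] := by
      rw [Int.ofNat_eq_natCast, zpow_natCast]; exact perm_pow_eq T n
    rw [this]
    exact hT.iterate n
  | negSucc n =>
    have : ((T ^ (Int.negSucc n) : Equiv.Perm α) : α → α) = (T.symm)^[n+1] := by
      rw [zpow_negSucc]
      have h1 : (T ^ (n+1))⁻¹ = (T⁻¹) ^ (n+1) := by simp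
      rw [h1, perm_pow_eq]
      rfl
    rw [this]
    exact hsymm.iterate (n+1)

lemma mixing_iff_nat [IsProbabilityMeasure μ] (T : Equiv.Perm α) (hT : MeasurePreserving T μ μ)
    (hT' : Measurable T.symm) (k : ℕ) : MixingOfOrder μ T k ↔ NatMixing μ T k := by
  constructor
  · intro h A hA
    unfold ConvFor
    rw [Metric.tendsto_nhds]
    intro ε hε
    obtain ⟨N, hN⟩ := h A hA ε hε
    rw [eventually_gap]
    refine ⟨N.toNat, ?_⟩
    intro t ht
    have := hN (fun i => (t i : ℤ)) (by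
      intro i j hij
      have h1 := ht i j hij
      have h2 : N ≤ (N.toNat : ℤ) := Int.self_le_toNat N
      have h3 : ((t i + N.toNat : ℕ) : ℤ) ≤ (t j : ℤ) := by exact_mod_cast h1
      push_cast at h3
      linarith only [h1, h2])
    simp only [zpow_natCast, perm_pow_eq] at this
    rw [Real.dist_eq]
    exact this
  · intro h A hA ε hε
    have h1 := h A hA
    unfold ConvFor at h1
    rw [Metric.tendsto_nhds] at h1
    have h2 := h1 ε hε
    rw [eventually_gap] at h2
    obtain ⟨N, hN⟩ := h2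
    refine ⟨N, ?_⟩
    intro t ht
    rcases Nat.eq_zero_or_pos k with hk | hk
    · subst hk
      simp [hε]
    · have hle : ∀ i, t ⟨0, hk⟩ ≤ t i := by
        intro i
        rcases eq_or_ne i ⟨0, hk⟩ with hi | hi
        · rw [hi]
        · have : (⟨0, hk⟩ : Fin k) < i := by
            rw [Fin.lt_def]
            have : i.val ≠ 0 := fun h0 => hi (Fin.ext h0)
            simp only
            omega
          have := ht _ _ this
          have : (0:ℤ) ≤ N := Int.natCast_nonneg N
          (clear T hT hT' h A hA ε hε h1 hN this; linarith)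
      set t0 := t ⟨0, hk⟩ with ht0
      have key : (⋂ i, (T ^ t i : Equiv.Perm α) ⁻¹' A i)
          = (T ^ t0 : Equiv.Perm α) ⁻¹' (⋂ i, (T^[(t i - t0).toNat]) ⁻¹' A i) := by
        rw [Set.preimage_iInter]
        refine Set.iInter_congr fun i => ?_
        rw [← Set.preimage_comp]
        congr 1
        rw [← perm_pow_eq, ← Equiv.Perm.coe_mul]
        congr 1
        rw [← zpow_natCast, Int.toNat_of_nonneg (by linarith only [hle i]), ← zpow_add]
        congr 1
        ring
      have hm : MeasurableSet (⋂ i, (T^[(t i - t0).toNat]) ⁻¹' A i) :=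
        MeasurableSet.iInter fun i => (hT.measurable.iterate _) (hA i)
      have h3 := hN (fun i => (t i - t0).toNat) (by
        intro i j hij
        have h4 := ht i j hij
        have h5 := hle i
        have h6 := hle j
        zify
        rw [Int.toNat_of_nonneg (by linarith only [h5]), Int.toNat_of_nonneg (by linarith only [h4, h5])]
        linarith only [h4])
      rw [Real.dist_eq] at h3
      rw [key, measureReal_def, (mp_zpow T hT hT' t0).measure_preimage hm.nullMeasurableSet,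
        ← measureReal_def]
      exact h3

end

end Vale.Agent.P102
end
end

section

section

namespace Vale.Agent.P102

open MeasureTheory Filter Topology

section
variable {α : Type*} [MeasurableSpace α] {μ : Measure α}

lemma iInter_update (T : α → α) {k : ℕ} (A : Fin k → Set α) (i0 : Fin k) (B : Set α)
    (t : Fin k → ℕ) :
    (⋂ i, (T^[t i]) ⁻¹' (Function.update A i0 B i))
      = (⋂ i, (T^[t i]) ⁻¹' (Function.update A i0 Set.univ i)) ∩ (T^[t i0]) ⁻¹' B := by
  ext x
  simp only [Set.mem_iInter, Set.mem_preimage, Set.mem_inter_iff]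
  constructor
  · intro h
    refine ⟨?_, ?_⟩
    · intro i
      by_cases hi : i = i0
      · subst hi; simp
      · have := h i
        rw [Function.update_of_ne hi] at this
        rw [Function.update_of_ne hi]
        exact this
    · have := h i0
      simpa using this
  · rintro ⟨h1, h2⟩ i
    by_cases hi : i = i0
    · subst hi; simpa using h2
    · have := h1 i
      rw [Function.update_of_ne hi] at this
      rw [Function.update_of_ne hi]
      exact this

lemma prod_update [IsProbabilityMeasure μ] {k : ℕ} (A : Fin k → Set α) (i0 : Fin k)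
    (B : Set α) :
    (∏ i, μ.real (Function.update A i0 B i))
      = (∏ i, μ.real (Function.update A i0 Set.univ i)) * μ.real B := by
  have h1 : ∀ B : Set α, (∏ i, μ.real (Function.update A i0 B i))
      = μ.real B * ∏ i ∈ Finset.univ.erase i0, μ.real (A i) := by
    intro B
    rw [← Finset.mul_prod_erase Finset.univ _ (Finset.mem_univ i0)]
    congr 1
    · simp
    · refine Finset.prod_congr rfl fun i hi => ?_
      rw [Function.update_of_ne (Finset.ne_of_mem_erase hi)]
  rw [h1 B, h1 Set.univ]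
  simp only [probReal_univ, one_mul, mul_comm]

theorem extend_mixing [IsProbabilityMeasure μ] (T : α → α) (hT : MeasurePreserving T μ μ)
    (C : Set (Set α)) (hC : ‹MeasurableSpace α› = MeasurableSpace.generateFrom C)
    (hpi : IsPiSystem C) (huniv : Set.univ ∈ C) {k : ℕ}
    (h : ∀ A : Fin k → Set α, (∀ i, A i ∈ C) → ConvFor μ T A) : NatMixing μ T k := by
  have hmeasC : ∀ s ∈ C, MeasurableSet s := by
    intro s hs
    rw [hC]
    exact MeasurableSpace.measurableSet_generateFrom hs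
  have key : ∀ m : ℕ, ∀ A : Fin k → Set α, (∀ i, MeasurableSet (A i)) →
      (∀ i : Fin k, m ≤ i.val → A i ∈ C) → ConvFor μ T A := by
    intro m
    induction m with
    | zero => intro A _ hA; exact h A fun i => hA i (Nat.zero_le _)
    | succ m ih =>
      intro A hAm hA
      by_cases hm : m < k
      · set i0 : Fin k := ⟨m, hm⟩ with hi0
        have hbase : ∀ B : Set α, B ∈ C → ConvFor μ T (Function.update A i0 B) := by
          intro B hB
          refine ih _ ?_ ?_
          · intro i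
            by_cases hi : i = i0
            · subst hi; simpa using hmeasC B hB
            · rw [Function.update_of_ne hi]; exact hAm i
          · intro i hmi
            by_cases hi : i = i0
            · subst hi; simpa using hB
            · rw [Function.update_of_ne hi]
              refine hA i ?_
              have : i.val ≠ m := fun h0 => hi (Fin.ext h0)
              omega
        have huc := hbase Set.univ huniv
        set E : (Fin k → ℕ) → Set α :=
          fun t => ⋂ i, (T^[t i]) ⁻¹' (Function.update A i0 Set.univ i) with hE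
        have hEm : ∀ t, MeasurableSet (E t) := by
          intro t
          refine MeasurableSet.iInter fun i => (hT.measurable.iterate _) ?_
          by_cases hi : i = i0
          · subst hi; simp
          · rw [Function.update_of_ne hi]; exact hAm i
        set c : ℝ := ∏ i, μ.real (Function.update A i0 Set.univ i) with hc
        have huc' : Tendsto (fun t => μ.real (E t)) (gapF k) (𝓝 c) := huc
        have hconv : ∀ B : Set α, ConvFor μ T (Function.update A i0 B) ↔
            Tendsto (fun t : Fin k → ℕ => μ.real (E t ∩ (T^[t i0]) ⁻¹' B)) (gapF k)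
              (𝓝 (c * μ.real B)) := by
          intro B
          unfold ConvFor
          rw [prod_update A i0 B]
          simp only [iInter_update T A i0 B]
          rfl
        have hgoal : ∀ B : Set α, MeasurableSet B →
            Tendsto (fun t : Fin k → ℕ => μ.real (E t ∩ (T^[t i0]) ⁻¹' B)) (gapF k)
              (𝓝 (c * μ.real B)) := by
          intro B hB
          induction B, hB using MeasurableSpace.induction_on_inter hC hpi with
          | empty => simpa only [Set.preimage_empty, Set.inter_empty, measureReal_empty, mul_zero] using tendsto_const_nhds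
          | basic B hB => exact (hconv B).1 (hbase B hB)
          | compl B hB ihB =>
            have h1 : ∀ t : Fin k → ℕ, μ.real (E t ∩ (T^[t i0]) ⁻¹' Bᶜ)
                = μ.real (E t) - μ.real (E t ∩ (T^[t i0]) ⁻¹' B) := by
              intro t
              have h2 : E t ∩ (T^[t i0]) ⁻¹' Bᶜ = E t \ (E t ∩ (T^[t i0]) ⁻¹' B) := by
                ext x; simp
              rw [h2, measureReal_sdiff Set.inter_subset_left
                ((hEm t).inter ((hT.measurable.iterate _) hB))]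
            simp only [h1]
            have h3 : c * μ.real Bᶜ = c - c * μ.real B := by
              rw [probReal_compl_eq_one_sub hB]; ring
            rw [h3]
            exact huc'.sub ihB
          | iUnion f hd hf ihf =>
            have h1 : ∀ t : Fin k → ℕ, μ.real (E t ∩ (T^[t i0]) ⁻¹' (⋃ n, f n))
                = ∑' n, μ.real (E t ∩ (T^[t i0]) ⁻¹' (f n)) := by
              intro t
              rw [Set.preimage_iUnion, Set.inter_iUnion]
              rw [measureReal_def, measure_iUnion]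
              · rw [ENNReal.tsum_toReal_eq]
                · rfl
                · intro n; exact measure_ne_top _ _
              · intro m n hmn
                refine Disjoint.mono Set.inter_subset_right Set.inter_subset_right ?_
                exact Disjoint.preimage _ (hd hmn)
              · intro n
                exact (hEm t).inter ((hT.measurable.iterate _) (hf n))
            simp only [h1]
            have h2 : c * μ.real (⋃ n, f n) = ∑' n, c * μ.real (f n) := by
              rw [tsum_mul_left]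
              congr 1
              rw [measureReal_def, measure_iUnion hd hf, ENNReal.tsum_toReal_eq]
              · rfl
              · intro n; exact measure_ne_top _ _
            rw [h2]
            have hsum : Summable (fun n => μ.real (f n)) := by
              have : (∑' n, μ (f n)) ≠ ⊤ := by
                rw [← measure_iUnion hd hf]; exact measure_ne_top _ _
              exact ENNReal.summable_toReal this
            refine tendsto_tsum_of_dominated_convergence hsum ihf ?_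
            refine Eventually.of_forall fun t n => ?_
            rw [Real.norm_of_nonneg measureReal_nonneg]
            calc μ.real (E t ∩ (T^[t i0]) ⁻¹' (f n)) ≤ μ.real ((T^[t i0]) ⁻¹' (f n)) :=
                  measureReal_mono Set.inter_subset_right
              _ = μ.real (f n) := by
                  rw [measureReal_def, (hT.iterate _).measure_preimage (hf n).nullMeasurableSet]
                  rfl
        have := (hconv (A i0)).2 (hgoal (A i0) (hAm i0))
        rwa [Function.update_eq_self] at this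
      · exact ih A hAm fun i _ => absurd (lt_of_le_of_lt (by omega) i.isLt : m < k) hm
  intro A hA
  exact key k A hA fun i hi => absurd i.isLt (by omega)

end

end Vale.Agent.P102
end
end

section

section

namespace Vale.Agent.P102

open MeasureTheory Filter Topology

section
variable {X : Type*} [MeasurableSpace X]

/-- measurable and bounded by one -/
def Bd (f : X → ℝ) : Prop := Measurable f ∧ ∀ x, |f x| ≤ 1

lemma Bd.mul {f g : X → ℝ} (hf : Bd f) (hg : Bd g) : Bd (fun x => f x * g x) := by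
  refine ⟨hf.1.mul hg.1, fun x => ?_⟩
  rw [abs_mul]
  exact mul_le_one₀ (hf.2 x) (abs_nonneg _) (hg.2 x)

lemma Bd.prod {ι : Type*} (s : Finset ι) {f : ι → X → ℝ} (hf : ∀ i, Bd (f i)) :
    Bd (fun x => ∏ i ∈ s, f i x) := by
  refine ⟨Finset.measurable_prod s fun i _ => (hf i).1, fun x => ?_⟩
  rw [Finset.abs_prod]
  exact Finset.prod_le_one (fun i _ => abs_nonneg _) fun i _ => (hf i).2 x

lemma Bd.comp {Y : Type*} [MeasurableSpace Y] {f : X → ℝ} (hf : Bd f) {g : Y → X}
    (hg : Measurable g) : Bd (fun y => f (g y)) :=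
  ⟨hf.1.comp hg, fun y => hf.2 (g y)⟩

lemma integrable_of_bdd {μ : Measure X} [IsFiniteMeasure μ] {f : X → ℝ} (hf : Measurable f)
    (C : ℝ) (h : ∀ x, |f x| ≤ C) : Integrable f μ :=
  Integrable.of_bound hf.aestronglyMeasurable C (ae_of_all _ fun x => by
    rw [Real.norm_eq_abs]; exact h x)

lemma Bd.integrable {μ : Measure X} [IsFiniteMeasure μ] {f : X → ℝ} (hf : Bd f) :
    Integrable f μ := integrable_of_bdd hf.1 1 hf.2

lemma abs_integral_le_of_bdd {μ : Measure X} [IsProbabilityMeasure μ] {f : X → ℝ} {C : ℝ}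
    (h : ∀ x, |f x| ≤ C) : |∫ x, f x ∂μ| ≤ C := by
  have := norm_integral_le_of_norm_le_const (μ := μ) (f := f) (C := C)
    (ae_of_all _ fun x => by rw [Real.norm_eq_abs]; exact h x)
  rw [Real.norm_eq_abs] at this
  simpa only [ge_iff_le, probReal_univ, mul_one] using this

lemma Bd.abs_integral_le {μ : Measure X} [IsProbabilityMeasure μ] {f : X → ℝ} (hf : Bd f) :
    |∫ x, f x ∂μ| ≤ 1 := abs_integral_le_of_bdd hf.2

lemma sq_integral_le {μ : Measure X} [IsProbabilityMeasure μ] {f : X → ℝ} (hf : Measurable f)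
    (C : ℝ) (h : ∀ x, |f x| ≤ C) : (∫ x, f x ∂μ) ^ 2 ≤ ∫ x, (f x) ^ 2 ∂μ := by
  set m := ∫ x, f x ∂μ with hm
  have hi : Integrable f μ := integrable_of_bdd hf C h
  have hi2 : Integrable (fun x => (f x) ^ 2) μ := by
    refine integrable_of_bdd (hf.pow_const 2) (C ^ 2) fun x => ?_
    rw [abs_pow]
    exact pow_le_pow_left₀ (abs_nonneg _) (h x) 2
  have h0 : 0 ≤ ∫ x, (f x - m) ^ 2 ∂μ := integral_nonneg fun x => sq_nonneg _
  have h1 : ∫ x, (f x - m) ^ 2 ∂μ = ∫ x, (f x) ^ 2 ∂μ - m ^ 2 := by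
    have : ∀ x, (f x - m) ^ 2 = (f x) ^ 2 - 2 * m * f x + m ^ 2 := fun x => by ring
    simp only [this]
    have e1 : ∫ x, ((f x) ^ 2 - 2 * m * f x + m ^ 2) ∂μ
        = ∫ x, ((f x) ^ 2 - 2 * m * f x) ∂μ + ∫ _x, m ^ 2 ∂μ :=
      integral_add (hi2.sub (hi.const_mul (2 * m))) (integrable_const _)
    have e2 : ∫ x, ((f x) ^ 2 - 2 * m * f x) ∂μ
        = ∫ x, (f x) ^ 2 ∂μ - ∫ x, 2 * m * f x ∂μ :=
      integral_sub hi2 (hi.const_mul (2 * m))
    rw [e1, e2, integral_const_mul, ← hm]
    simp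
    ring
  linarith

/-- Bessel-type inequality -/
lemma bessel {μ : Measure X} [IsProbabilityMeasure μ] {J : ℕ} {h : X → ℝ} (hh : Bd h)
    {g : ℕ → X → ℝ} (hg : ∀ j, Bd (g j)) :
    (∑ j ∈ Finset.range J, (∫ x, h x * g j x ∂μ) ^ 2) ^ 2
      ≤ ∑ j ∈ Finset.range J, ∑ j' ∈ Finset.range J, |∫ x, g j x * g j' x ∂μ| := by
  set c : ℕ → ℝ := fun j => ∫ x, h x * g j x ∂μ with hc
  have hcle : ∀ j, |c j| ≤ 1 := fun j => (hh.mul (hg j)).abs_integral_le
  set F : X → ℝ := fun x => ∑ j ∈ Finset.range J, c j * g j x with hF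
  have hFm : Measurable F :=
    Finset.measurable_sum _ fun j _ => (hg j).1.const_mul _
  have hFb : ∀ x, |F x| ≤ J := by
    intro x
    calc |F x| ≤ ∑ j ∈ Finset.range J, |c j * g j x| := Finset.abs_sum_le_sum_abs _ _
      _ ≤ ∑ j ∈ Finset.range J, (1 : ℝ) := by
        refine Finset.sum_le_sum fun j _ => ?_
        rw [abs_mul]
        exact mul_le_one₀ (hcle j) (abs_nonneg _) ((hg j).2 x)
      _ = J := by simp
  have h1 : ∑ j ∈ Finset.range J, (c j) ^ 2 = ∫ x, h x * F x ∂μ := by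
    have : ∀ x, h x * F x = ∑ j ∈ Finset.range J, c j * (h x * g j x) := by
      intro x
      simp only [hF, Finset.mul_sum]
      refine Finset.sum_congr rfl fun j _ => by ring
    simp only [this]
    rw [integral_finsetSum _ fun j _ => ((hh.mul (hg j)).integrable.const_mul _)]
    refine Finset.sum_congr rfl fun j _ => ?_
    rw [integral_const_mul, sq]
  have h2 : (∫ x, h x * F x ∂μ) ^ 2 ≤ ∫ x, (F x) ^ 2 ∂μ := by
    have hb : ∀ x, |h x * F x| ≤ J := by
      intro x
      rw [abs_mul]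
      calc |h x| * |F x| ≤ 1 * |F x| := mul_le_mul_of_nonneg_right (hh.2 x) (abs_nonneg _)
        _ ≤ J := by rw [one_mul]; exact hFb x
    refine (sq_integral_le (hh.1.mul hFm) J hb).trans ?_
    refine integral_mono ?_ ?_ ?_
    · refine integrable_of_bdd ((hh.1.mul hFm).pow_const 2) ((J:ℝ) ^ 2) fun x => ?_
      rw [abs_pow]
      exact pow_le_pow_left₀ (abs_nonneg _) (hb x) 2
    · refine integrable_of_bdd (hFm.pow_const 2) ((J:ℝ) ^ 2) fun x => ?_
      rw [abs_pow]
      exact pow_le_pow_left₀ (abs_nonneg _) (hFb x) 2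
    · intro x
      have h5 : (h x) ^ 2 ≤ 1 := by
        have := hh.2 x
        rw [← sq_abs]
        exact pow_le_one₀ (abs_nonneg _) this
      show (h x * F x) ^ 2 ≤ (F x) ^ 2
      rw [mul_pow]
      nlinarith only [h5]
  have h3 : ∫ x, (F x) ^ 2 ∂μ
      = ∑ j ∈ Finset.range J, ∑ j' ∈ Finset.range J, c j * c j' * ∫ x, g j x * g j' x ∂μ := by
    have : ∀ x, (F x) ^ 2
        = ∑ j ∈ Finset.range J, ∑ j' ∈ Finset.range J, c j * c j' * (g j x * g j' x) := by
      intro x
      rw [sq, hF]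
      simp only
      rw [Finset.sum_mul_sum]
      refine Finset.sum_congr rfl fun j _ => Finset.sum_congr rfl fun j' _ => by ring
    simp only [this]
    rw [integral_finsetSum _ fun j _ => integrable_finsetSum _ fun j' _ =>
      (((hg j).mul (hg j')).integrable.const_mul _)]
    refine Finset.sum_congr rfl fun j _ => ?_
    rw [integral_finsetSum _ fun j' _ => (((hg j).mul (hg j')).integrable.const_mul _)]
    refine Finset.sum_congr rfl fun j' _ => ?_
    rw [integral_const_mul]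
  rw [h1]
  refine h2.trans ?_
  rw [h3]
  refine Finset.sum_le_sum fun j _ => Finset.sum_le_sum fun j' _ => ?_
  calc c j * c j' * ∫ x, g j x * g j' x ∂μ ≤ |c j * c j' * ∫ x, g j x * g j' x ∂μ| := le_abs_self _
    _ = |c j| * |c j'| * |∫ x, g j x * g j' x ∂μ| := by rw [abs_mul, abs_mul]
    _ ≤ 1 * |∫ x, g j x * g j' x ∂μ| := by
      refine mul_le_mul_of_nonneg_right ?_ (abs_nonneg _)
      exact mul_le_one₀ (hcle j) (abs_nonneg _) (hcle j')
    _ = _ := one_mul _

end

section
variable {X G : Type*} [MeasurableSpace X] [AddCommGroup G] [AddAction G X]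

/-- fibre correlation -/
noncomputable def corr (μ : Measure X) {k : ℕ} (f : Fin k → X → ℝ) (w : Fin k → G) : ℝ :=
  ∫ x, ∏ i, f i (w i +ᵥ x) ∂μ

variable {μ : Measure X}

lemma integral_vadd (hR : ∀ v : G, MeasurePreserving (fun x : X => v +ᵥ x) μ μ) (v : G)
    {F : X → ℝ} (hF : Measurable F) : ∫ x, F (v +ᵥ x) ∂μ = ∫ x, F x ∂μ := by
  have h := (hR v).map_eq
  have h2 := integral_map (μ := μ) (φ := fun x : X => v +ᵥ x) (hR v).measurable.aemeasurable
    (f := F) hF.aestronglyMeasurable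
  rw [h] at h2
  exact h2.symm

lemma corr_bd (hR : ∀ v : G, MeasurePreserving (fun x : X => v +ᵥ x) μ μ) {k : ℕ}
    {f : Fin k → X → ℝ} (hf : ∀ i, Bd (f i)) (w : Fin k → G) :
    Bd (fun x => ∏ i, f i (w i +ᵥ x)) :=
  Bd.prod _ fun i => (hf i).comp (hR (w i)).measurable

lemma abs_corr_le [IsProbabilityMeasure μ]
    (hR : ∀ v : G, MeasurePreserving (fun x : X => v +ᵥ x) μ μ) {k : ℕ}
    {f : Fin k → X → ℝ} (hf : ∀ i, Bd (f i)) (w : Fin k → G) : |corr μ f w| ≤ 1 :=
  (corr_bd hR hf w).abs_integral_le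

lemma corr_add_const (hR : ∀ v : G, MeasurePreserving (fun x : X => v +ᵥ x) μ μ) {k : ℕ}
    {f : Fin k → X → ℝ} (hf : ∀ i, Bd (f i)) (w : Fin k → G) (v : G) :
    corr μ f (fun i => w i + v) = corr μ f w := by
  unfold corr
  rw [← integral_vadd hR v (F := fun x => ∏ i, f i (w i +ᵥ x)) (corr_bd hR hf w).1]
  simp only [add_vadd]

lemma corr_congr_add {k : ℕ} (hR : ∀ v : G, MeasurePreserving (fun x : X => v +ᵥ x) μ μ)
    {f : Fin k → X → ℝ} (hf : ∀ i, Bd (f i)) (w w' : Fin k → G) (v : G)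
    (h : ∀ i, w' i = w i + v) : corr μ f w' = corr μ f w := by
  have : w' = fun i => w i + v := funext h
  rw [this, corr_add_const hR hf]

end

end Vale.Agent.P102
end
end

section

section

namespace Vale.Agent.P102

open MeasureTheory Filter Topology

section basic
variable {Ω : Type*} [MeasurableSpace Ω] {P : Measure Ω}

lemma integral_iter {θ : Ω → Ω} (hθ : MeasurePreserving θ P P) (n : ℕ) {F : Ω → ℝ}
    (hF : Measurable F) : ∫ ω, F (θ^[n] ω) ∂P = ∫ ω, F ω ∂P := by
  have h := (hθ.iterate n).map_eq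
  have h2 := integral_map (μ := P) (φ := θ^[n]) (hθ.iterate n).measurable.aemeasurable
    (f := F) hF.aestronglyMeasurable
  rw [h] at h2
  exact h2.symm

lemma exists_finset_small {G : Type*} [Countable G] [MeasurableSpace G]
    [MeasurableSingletonClass G] [IsProbabilityMeasure P] {Y : Ω → G} (hY : Measurable Y)
    {δ : ℝ} (hδ : 0 < δ) : ∃ V : Finset G, P.real (Y ⁻¹' (V : Set G)ᶜ) < δ := by
  have h1 : (⋃ V : Finset G, Y ⁻¹' (V : Set G)) = Set.univ := by
    ext ω
    simp only [Set.mem_iUnion, Set.mem_preimage, Finset.mem_coe, Set.mem_univ, iff_true]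
    exact ⟨{Y ω}, by simp⟩
  have hd : Directed (· ⊆ ·) (fun V : Finset G => Y ⁻¹' (V : Set G)) := by
    classical
    intro V W
    refine ⟨V ∪ W, ?_, ?_⟩
    · exact Set.preimage_mono (by simp)
    · exact Set.preimage_mono (by simp)
  have h2 := hd.measure_iUnion (μ := P)
  rw [h1, measure_univ] at h2
  have h3 : (1 : ENNReal) - ENNReal.ofReal (min δ 1) < 1 := by
    refine ENNReal.sub_lt_self ENNReal.one_ne_top one_ne_zero ?_
    simp only [ENNReal.ofReal_min, ENNReal.ofReal_one, ne_eq, min_eq_zero, ENNReal.ofReal_eq_zero, one_ne_zero, or_false, not_le, hδ]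
  rw [h2] at h3
  rw [← h2] at h3
  have h4 : (1 : ENNReal) - ENNReal.ofReal (min δ 1) < ⨆ V : Finset G, P (Y ⁻¹' (V : Set G)) := by
    rw [← h2]; exact h3
  obtain ⟨V, hV⟩ := lt_iSup_iff.1 h4
  refine ⟨V, ?_⟩
  have hVm : MeasurableSet (Y ⁻¹' (V : Set G)) := hY V.measurableSet
  have h5 : P.real (Y ⁻¹' (V : Set G)ᶜ) = 1 - P.real (Y ⁻¹' (V : Set G)) := by
    rw [Set.preimage_compl, probReal_compl_eq_one_sub hVm]
  rw [h5]
  have h6 : 1 - min δ 1 < P.real (Y ⁻¹' (V : Set G)) := by
    have h7 : (1 : ENNReal) - ENNReal.ofReal (min δ 1) = ENNReal.ofReal (1 - min δ 1) := by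
      rw [ENNReal.ofReal_sub _ (by positivity)]
      simp only [ENNReal.ofReal_min, ENNReal.ofReal_one]
    rw [h7] at hV
    rw [measureReal_def]
    exact (ENNReal.ofReal_lt_iff_lt_toReal (by simp only [sub_nonneg, inf_le_right]) (measure_ne_top _ _)).1 hV
  have := min_le_left δ 1
  linarith only [h6, this]

end basic

section
variable {Ω X G : Type*} [MeasurableSpace Ω] [MeasurableSpace X] [AddCommGroup G] [Countable G]
  [MeasurableSpace G] [MeasurableSingletonClass G] [AddAction G X]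
  {P : Measure Ω} {μ : Measure X} {θ : Ω → Ω} {φ : Ω → G}

/-- the cocycle -/
def cs (θ : Ω → Ω) (φ : Ω → G) (n : ℕ) (ω : Ω) : G := birkhoffSum θ φ n ω

omit [MeasurableSpace Ω] [Countable G] [MeasurableSpace G] [MeasurableSingletonClass G] in
lemma cs_add (m n : ℕ) (ω : Ω) : cs θ φ (m + n) ω = cs θ φ m ω + cs θ φ n (θ^[m] ω) :=
  birkhoffSum_add θ φ m n ω

lemma measurable_add_G {α : Type*} [MeasurableSpace α] {a b : α → G} (ha : Measurable a)
    (hb : Measurable b) : Measurable (fun x => a x + b x) := by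
  have : Measurable (fun p : G × G => p.1 + p.2) := Measurable.of_discrete
  exact this.comp (ha.prodMk hb)

lemma measurable_cs (hθ : Measurable θ) (hφ : Measurable φ) (n : ℕ) :
    Measurable (cs θ φ n) := by
  induction n with
  | zero =>
    have : cs θ φ 0 = fun _ => 0 := by
      funext ω; simp [cs]
    rw [this]; exact measurable_const
  | succ n ih =>
    have : cs θ φ (n + 1) = fun ω => cs θ φ n ω + cs θ φ 1 (θ^[n] ω) := by
      funext ω; exact cs_add n 1 ω
    rw [this]
    have h1 : cs θ φ 1 = φ := by funext ω; simp [cs]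
    rw [h1]
    exact measurable_add_G ih (hφ.comp (hθ.iterate n))

/-- relative mixing of order `k` of the fibres -/
def HK (P : Measure Ω) (μ : Measure X) (θ : Ω → Ω) (φ : Ω → G) (k : ℕ) : Prop :=
  ∀ f : Fin k → X → ℝ, (∀ i, Bd (f i)) →
    Tendsto (fun t : Fin k → ℕ =>
      ∫ ω, |corr μ f (fun i => cs θ φ (t i) ω) - ∏ i, ∫ x, f i x ∂μ| ∂P) (gapF k) (𝓝 0)

def Star (P : Measure Ω) (μ : Measure X) (θ : Ω → Ω) (φ : Ω → G) : Prop :=
  ∀ f : X → ℝ, Bd f → ∫ x, f x ∂μ = 0 → ∀ η : ℝ, 0 < η → ∃ L : ℕ, ∀ l ≥ L, ∀ᶠ n in atTop,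
    ∫ ω, |∫ x, f x * f ((cs θ φ l ω - cs θ φ l (θ^[n] ω)) +ᵥ x) ∂μ| ∂P ≤ η

/-- the functions `f_i(x) f_i((s_i - s_last) + x)` -/
def FF {k : ℕ} (f : Fin (k + 1) → X → ℝ) (s : Fin (k + 1) → G) (i : Fin k) (x : X) : ℝ :=
  f i.castSucc x * f i.castSucc ((s i.castSucc - s (Fin.last k)) +ᵥ x)

omit [Countable G] [MeasurableSpace G] [MeasurableSingletonClass G] in
lemma FF_bd (hR : ∀ v : G, MeasurePreserving (fun x : X => v +ᵥ x) μ μ) {k : ℕ}
    {f : Fin (k + 1) → X → ℝ} (hf : ∀ i, Bd (f i)) (s : Fin (k + 1) → G) (i : Fin k) :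
    Bd (FF f s i) :=
  (hf _).mul ((hf _).comp (hR _).measurable)

/-- Gram entries -/
noncomputable def Gam (μ : Measure X) (θ : Ω → Ω) (φ : Ω → G) {k : ℕ}
    (f : Fin (k + 1) → X → ℝ) (l : ℕ) (t : Fin (k + 1) → ℕ) (ω : Ω) : ℝ :=
  corr μ (FF f (fun i => cs θ φ l (θ^[t i] ω))) (fun i : Fin k => cs θ φ (t i.castSucc) ω)

lemma measurable_tuple {k : ℕ} (hθ : Measurable θ) (hφ : Measurable φ) (t : Fin k → ℕ) :
    Measurable (fun ω => fun i : Fin k => cs θ φ (t i) ω) :=
  measurable_pi_lambda _ fun i => measurable_cs hθ hφ (t i)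

lemma measurable_corr {k : ℕ} (hθ : Measurable θ) (hφ : Measurable φ) (f : Fin k → X → ℝ)
    (t : Fin k → ℕ) : Measurable (fun ω => corr μ f (fun i => cs θ φ (t i) ω)) := by
  have h1 : Measurable (fun w : Fin k → G => corr μ f w) := Measurable.of_discrete
  exact h1.comp (measurable_tuple hθ hφ t)

lemma measurable_Gam {k : ℕ} (hθ : Measurable θ) (hφ : Measurable φ)
    (f : Fin (k + 1) → X → ℝ) (l : ℕ) (t : Fin (k + 1) → ℕ) :
    Measurable (Gam μ θ φ f l t) := by
  have h1 : Measurable (fun p : (Fin (k + 1) → G) × (Fin k → G) => corr μ (FF f p.1) p.2) :=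
    Measurable.of_discrete
  have h2 : Measurable (fun ω => ((fun i : Fin (k + 1) => cs θ φ l (θ^[t i] ω)),
      (fun i : Fin k => cs θ φ (t i.castSucc) ω))) := by
    refine Measurable.prodMk ?_ ?_
    · exact measurable_pi_lambda _ fun i => (measurable_cs hθ hφ l).comp (hθ.iterate _)
    · exact measurable_pi_lambda _ fun i => measurable_cs hθ hφ _
  exact (h1.comp h2 :)

omit [Countable G] [MeasurableSpace G] [MeasurableSingletonClass G] in
lemma abs_Gam_le [IsProbabilityMeasure μ]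
    (hR : ∀ v : G, MeasurePreserving (fun x : X => v +ᵥ x) μ μ) {k : ℕ}
    {f : Fin (k + 1) → X → ℝ} (hf : ∀ i, Bd (f i)) (l : ℕ) (t : Fin (k + 1) → ℕ) (ω : Ω) :
    |Gam μ θ φ f l t ω| ≤ 1 :=
  abs_corr_le hR (FF_bd hR hf _) _

end

end Vale.Agent.P102
end
end

section

section

namespace Vale.Agent.P102

open MeasureTheory Filter Topology

section
variable {Ω X G : Type*} [MeasurableSpace Ω] [MeasurableSpace X] [AddCommGroup G] [Countable G]
  [MeasurableSpace G] [MeasurableSingletonClass G] [AddAction G X]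
  {P : Measure Ω} {μ : Measure X} {θ : Ω → Ω} {φ : Ω → G}
  [IsProbabilityMeasure P] [IsProbabilityMeasure μ]

theorem gamma_small (hθ : MeasurePreserving θ P P) (hφ : Measurable φ)
    (hR : ∀ v : G, MeasurePreserving (fun x : X => v +ᵥ x) μ μ)
    (hstar : Star P μ θ φ) {k : ℕ} (hk : 0 < k) (IH : HK P μ θ φ k)
    {f : Fin (k + 1) → X → ℝ} (hf : ∀ i, Bd (f i)) (hf0 : ∫ x, f 0 x ∂μ = 0)
    {η : ℝ} (hη : 0 < η) :
    ∃ L : ℕ, ∀ l ≥ L, ∀ᶠ t in gapF (k + 1), ∫ ω, |Gam μ θ φ f l t ω| ∂P ≤ η := by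
  classical
  obtain ⟨L, hL⟩ := hstar (f 0) (hf 0) hf0 (η / 3) (by positivity)
  refine ⟨L, fun l hl => ?_⟩
  obtain ⟨V, hV⟩ := exists_finset_small (P := P) (measurable_cs hθ.measurable hφ l)
    (δ := η / (3 * (k + 1))) (by (clear * - hη hk; positivity))
  -- the finite set of parameters
  set Pi : Finset (Fin (k + 1) → G) := Fintype.piFinset (fun _ : Fin (k + 1) => V) with hPi
  set Err : (Fin (k + 1) → ℕ) → Ω → ℝ := fun t ω =>
    ∑ s ∈ Pi, |corr μ (FF f s) (fun i : Fin k => cs θ φ (t i.castSucc) ω)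
      - ∏ i, ∫ x, FF f s i x ∂μ| with hErr
  have hErrm : ∀ (t : Fin (k + 1) → ℕ) (s : Fin (k + 1) → G), Measurable (fun ω =>
      |corr μ (FF f s) (fun i : Fin k => cs θ φ (t i.castSucc) ω)
      - ∏ i, ∫ x, FF f s i x ∂μ|) := by
    intro t s
    have := measurable_corr (μ := μ) hθ.measurable hφ (FF f s) (fun i : Fin k => t i.castSucc)
    exact (this.sub_const _).abs
  have hprodle : ∀ s : Fin (k + 1) → G, |∏ i, ∫ x, FF f s i x ∂μ| ≤ 1 := by
    intro s
    rw [Finset.abs_prod]
    exact Finset.prod_le_one (fun i _ => abs_nonneg _)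
      fun i _ => (FF_bd hR hf s i).abs_integral_le
  have hErrb : ∀ (t : Fin (k + 1) → ℕ) (s : Fin (k + 1) → G) (ω : Ω),
      |(|corr μ (FF f s) (fun i : Fin k => cs θ φ (t i.castSucc) ω)
      - ∏ i, ∫ x, FF f s i x ∂μ|)| ≤ 2 := by
    intro t s ω
    rw [abs_abs]
    refine (abs_sub _ _).trans ?_
    have h1 := abs_corr_le (μ := μ) hR (FF_bd hR hf s) (fun i : Fin k => cs θ φ (t i.castSucc) ω)
    have h2 := hprodle s
    linarith only [h1, h2]
  have hErrint : Tendsto (fun t : Fin (k + 1) → ℕ => ∫ ω, Err t ω ∂P) (gapF (k + 1)) (𝓝 0) := by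
    have h1 : ∀ t : Fin (k + 1) → ℕ, ∫ ω, Err t ω ∂P = ∑ s ∈ Pi, ∫ ω,
        |corr μ (FF f s) (fun i : Fin k => cs θ φ (t i.castSucc) ω)
          - ∏ i, ∫ x, FF f s i x ∂μ| ∂P := by
      intro t
      simp only [hErr]
      rw [integral_finsetSum]
      intro s _
      exact integrable_of_bdd (hErrm t s) 2 (hErrb t s)
    simp only [h1]
    have h2 : (0 : ℝ) = ∑ s ∈ Pi, (0 : ℝ) := by simp
    rw [h2]
    refine tendsto_finsetSum _ fun s _ => ?_
    exact (IH (FF f s) (FF_bd hR hf s)).comp (tendsto_castSucc k)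
  -- psi
  set ψ : G → ℝ := fun g => |∫ x, f 0 x * f 0 (g +ᵥ x) ∂μ| with hψ
  have hψ1 : ∀ g, ψ g ≤ 1 := fun g =>
    ((hf 0).mul ((hf 0).comp (hR g).measurable)).abs_integral_le
  have hψ0 : ∀ g, 0 ≤ ψ g := fun g => abs_nonneg _
  have hlast : (0 : Fin (k + 1)) < Fin.last k := by
    rw [Fin.lt_def]; simpa using hk
  set Ps : (Fin (k + 1) → ℕ) → Ω → ℝ := fun t ω =>
    ψ (cs θ φ l (θ^[t 0] ω) - cs θ φ l (θ^[t (Fin.last k)] ω)) with hPs
  have hsub : Measurable (fun p : G × G => ψ (p.1 - p.2)) := Measurable.of_discrete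
  have hPsm : ∀ t, Measurable (Ps t) := by
    intro t
    exact (hsub.comp (((measurable_cs hθ.measurable hφ l).comp (hθ.measurable.iterate _)).prodMk
      ((measurable_cs hθ.measurable hφ l).comp (hθ.measurable.iterate _))) :)
  have hPsev : ∀ᶠ t in gapF (k + 1), ∫ ω, Ps t ω ∂P ≤ η / 3 := by
    have h1 := (tendsto_diff (k + 1) hlast).eventually (hL l hl)
    filter_upwards [h1, gap_le (k + 1)] with t ht hle
    have hle' := hle 0 (Fin.last k) hlast
    have h2 : ∫ ω, Ps t ω ∂P = ∫ ω, ψ (cs θ φ l ω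
        - cs θ φ l (θ^[t (Fin.last k) - t 0] ω)) ∂P := by
      have hm : Measurable (fun ω => ψ (cs θ φ l ω
        - cs θ φ l (θ^[t (Fin.last k) - t 0] ω))) :=
        (hsub.comp ((measurable_cs hθ.measurable hφ l).prodMk
          ((measurable_cs hθ.measurable hφ l).comp (hθ.measurable.iterate _))) :)
      rw [← integral_iter hθ (t 0) hm]
      refine integral_congr_ae (ae_of_all _ fun ω => ?_)
      simp only [hPs]
      rw [← Function.iterate_add_apply]
      congr 5
      omega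
    rw [h2]
    exact ht
  -- indicator part
  set Ind : (Fin (k + 1) → ℕ) → Ω → ℝ := fun t ω =>
    ∑ i : Fin (k + 1), ((θ^[t i]) ⁻¹' (cs θ φ l ⁻¹' (V : Set G)ᶜ)).indicator (fun _ => (1 : ℝ)) ω
    with hInd
  have hVm : MeasurableSet (cs θ φ l ⁻¹' (V : Set G)ᶜ) :=
    (measurable_cs hθ.measurable hφ l) V.measurableSet.compl
  have hIndint : ∀ t, ∫ ω, Ind t ω ∂P ≤ η / 3 := by
    intro t
    simp only [hInd]
    rw [integral_finsetSum]
    · have h1 : ∀ i : Fin (k + 1), ∫ ω, ((θ^[t i]) ⁻¹' (cs θ φ l ⁻¹' (V : Set G)ᶜ)).indicator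
          (fun _ => (1 : ℝ)) ω ∂P ≤ η / (3 * (k + 1)) := by
        intro i
        rw [integral_indicator_const _ ((hθ.measurable.iterate _) hVm)]
        rw [measureReal_def, (hθ.iterate _).measure_preimage hVm.nullMeasurableSet]
        simp only [smul_eq_mul, mul_one]
        exact hV.le
      calc _ ≤ ∑ i : Fin (k + 1), η / (3 * (k + 1)) := Finset.sum_le_sum fun i _ => h1 i
        _ = η / 3 := by
          simp only [Finset.sum_const, Finset.card_univ, Fintype.card_fin, nsmul_eq_mul, Nat.cast_add, Nat.cast_one]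
          (clear * - hk hη; field_simp)
    · intro i _
      exact (integrable_const _).indicator ((hθ.measurable.iterate _) hVm)
  -- pointwise bound
  have hpt : ∀ t ω, |Gam μ θ φ f l t ω| ≤ Ind t ω + Err t ω + Ps t ω := by
    intro t ω
    have hErr0 : 0 ≤ Err t ω := Finset.sum_nonneg fun s _ => abs_nonneg _
    have hPs0 : 0 ≤ Ps t ω := hψ0 _
    have hInd0 : 0 ≤ Ind t ω := Finset.sum_nonneg fun i _ =>
      Set.indicator_nonneg (fun _ _ => zero_le_one) _
    by_cases hgood : ∀ i, cs θ φ l (θ^[t i] ω) ∈ V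
    · have hs : (fun i => cs θ φ l (θ^[t i] ω)) ∈ Pi := by
        rw [hPi, Fintype.mem_piFinset]; exact hgood
      set s : Fin (k + 1) → G := fun i => cs θ φ l (θ^[t i] ω) with hsdef
      have h1 : |Gam μ θ φ f l t ω| ≤ |corr μ (FF f s) (fun i : Fin k => cs θ φ (t i.castSucc) ω)
          - ∏ i, ∫ x, FF f s i x ∂μ| + |∏ i, ∫ x, FF f s i x ∂μ| := by
        unfold Gam
        have := abs_add_le (corr μ (FF f s) (fun i : Fin k => cs θ φ (t i.castSucc) ω)
          - ∏ i, ∫ x, FF f s i x ∂μ) (∏ i, ∫ x, FF f s i x ∂μ)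
        rwa [sub_add_cancel] at this
      have h2 : |corr μ (FF f s) (fun i : Fin k => cs θ φ (t i.castSucc) ω)
          - ∏ i, ∫ x, FF f s i x ∂μ| ≤ Err t ω := by
        simp only [hErr]
        exact Finset.single_le_sum (f := fun s => |corr μ (FF f s)
          (fun i : Fin k => cs θ φ (t i.castSucc) ω) - ∏ i, ∫ x, FF f s i x ∂μ|)
          (fun s _ => abs_nonneg _) hs
      have h3 : |∏ i, ∫ x, FF f s i x ∂μ| ≤ Ps t ω := by
        rw [Finset.abs_prod]
        rw [← Finset.mul_prod_erase Finset.univ _ (Finset.mem_univ (⟨0, hk⟩ : Fin k))]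
        have h4 : |∫ x, FF f s (⟨0, hk⟩ : Fin k) x ∂μ| = Ps t ω := by
          simp only [hPs, hψ, FF, hsdef]
          rfl
        rw [h4]
        refine mul_le_of_le_one_right hPs0 ?_
        exact Finset.prod_le_one (fun i _ => abs_nonneg _)
          fun i _ => (FF_bd hR hf s i).abs_integral_le
      linarith only [hInd0, h1, h2, h3]
    · push Not at hgood
      obtain ⟨i, hi⟩ := hgood
      have h1 : 1 ≤ Ind t ω := by
        have h2 : ((θ^[t i]) ⁻¹' (cs θ φ l ⁻¹' (V : Set G)ᶜ)).indicator (fun _ => (1 : ℝ)) ω = 1 := by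
          rw [Set.indicator_of_mem]
          simpa using hi
        rw [← h2]
        simp only [hInd]
        exact Finset.single_le_sum
          (f := fun i => ((θ^[t i]) ⁻¹' (cs θ φ l ⁻¹' (V : Set G)ᶜ)).indicator (fun _ => (1 : ℝ)) ω)
          (fun i _ => Set.indicator_nonneg (fun _ _ => zero_le_one) _) (Finset.mem_univ i)
      have h2 := abs_Gam_le (μ := μ) (θ := θ) (φ := φ) hR hf l t ω
      linarith only [hErr0, hPs0, h1, h2]
  have hIndi : ∀ t, Integrable (Ind t) P := by
    intro t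
    exact integrable_finsetSum _ fun i _ =>
      (integrable_const _).indicator ((hθ.measurable.iterate _) hVm)
  have hErri : ∀ t, Integrable (Err t) P := by
    intro t
    exact integrable_finsetSum _ fun s _ => integrable_of_bdd (hErrm t s) 2 (hErrb t s)
  have hPsi : ∀ t, Integrable (Ps t) P := by
    intro t
    refine integrable_of_bdd (hPsm t) 1 fun ω => ?_
    rw [abs_of_nonneg (hψ0 _)]
    exact hψ1 _
  have hErrev : ∀ᶠ t in gapF (k + 1), ∫ ω, Err t ω ∂P ≤ η / 3 :=
    (hErrint.eventually (gt_mem_nhds (by (clear * - hη; positivity) : (0:ℝ) < η / 3))).mono fun t ht => ht.le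
  filter_upwards [hPsev, hErrev] with t h1 h2
  calc ∫ ω, |Gam μ θ φ f l t ω| ∂P ≤ ∫ ω, (Ind t ω + Err t ω + Ps t ω) ∂P := by
        refine integral_mono ?_ ((hIndi t |>.add (hErri t)).add (hPsi t)) (hpt t)
        refine integrable_of_bdd (measurable_Gam hθ.measurable hφ f l t).abs 1 fun ω => ?_
        rw [abs_abs]
        exact abs_Gam_le hR hf l t ω
    _ = ∫ ω, Ind t ω ∂P + ∫ ω, Err t ω ∂P + ∫ ω, Ps t ω ∂P := by
        have e1 : ∫ ω, (Ind t ω + Err t ω + Ps t ω) ∂P
            = ∫ ω, (Ind t ω + Err t ω) ∂P + ∫ ω, Ps t ω ∂P :=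
          integral_add ((hIndi t).add (hErri t)) (hPsi t)
        have e2 : ∫ ω, (Ind t ω + Err t ω) ∂P = ∫ ω, Ind t ω ∂P + ∫ ω, Err t ω ∂P :=
          integral_add (hIndi t) (hErri t)
        rw [e1, e2]
    _ ≤ η / 3 + η / 3 + η / 3 := add_le_add (add_le_add (hIndint t) h2) h1
    _ = η := by ring

end

end Vale.Agent.P102
end
end

section

section

namespace Vale.Agent.P102

open MeasureTheory Filter Topology

section
variable {Ω X G : Type*} [MeasurableSpace Ω] [MeasurableSpace X] [AddCommGroup G] [Countable G]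
  [MeasurableSpace G] [MeasurableSingletonClass G] [AddAction G X]
  {P : Measure Ω} {μ : Measure X} {θ : Ω → Ω} {φ : Ω → G}
  [IsProbabilityMeasure P] [IsProbabilityMeasure μ]

/-- the correlation along the shifted base point, written with a common factor -/
lemma corr_shift (hR : ∀ v : G, MeasurePreserving (fun x : X => v +ᵥ x) μ μ)
    {k : ℕ} {f : Fin (k + 1) → X → ℝ} (hf : ∀ i, Bd (f i)) (t : Fin (k + 1) → ℕ) (m : ℕ)
    (ω : Ω) :
    corr μ f (fun i => cs θ φ (t i) (θ^[m] ω))
      = ∫ x, f (Fin.last k) (cs θ φ (t (Fin.last k)) ω +ᵥ x) *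
        ∏ i : Fin k, f i.castSucc ((cs θ φ (t i.castSucc + m) ω
          - cs θ φ m (θ^[t (Fin.last k)] ω)) +ᵥ x) ∂μ := by
  set w' : Fin (k + 1) → G := fun i => cs θ φ (t i + m) ω - cs θ φ m (θ^[t (Fin.last k)] ω)
    with hw'
  have h1 : corr μ f w' = corr μ f (fun i => cs θ φ (t i) (θ^[m] ω)) := by
    refine corr_congr_add hR hf _ _ (cs θ φ m ω - cs θ φ m (θ^[t (Fin.last k)] ω)) ?_
    intro i
    simp only [hw']
    rw [add_comm (t i) m, cs_add m (t i) ω]
    abel
  rw [← h1]
  unfold corr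
  refine integral_congr_ae (ae_of_all _ fun x => ?_)
  simp only
  rw [Fin.prod_univ_castSucc, mul_comm]
  congr 1
  congr 1
  have : w' (Fin.last k) = cs θ φ (t (Fin.last k)) ω := by
    simp only [hw']
    rw [cs_add (t (Fin.last k)) m ω]
    abel
  rw [this]

/-- Gram entries along shifted base points -/
lemma gram_shift (hR : ∀ v : G, MeasurePreserving (fun x : X => v +ᵥ x) μ μ)
    {k : ℕ} {f : Fin (k + 1) → X → ℝ} (hf : ∀ i, Bd (f i)) (t : Fin (k + 1) → ℕ) (m l : ℕ)
    (ω : Ω) :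
    ∫ x, (∏ i : Fin k, f i.castSucc ((cs θ φ (t i.castSucc + m) ω
          - cs θ φ m (θ^[t (Fin.last k)] ω)) +ᵥ x)) *
        (∏ i : Fin k, f i.castSucc ((cs θ φ (t i.castSucc + (m + l)) ω
          - cs θ φ (m + l) (θ^[t (Fin.last k)] ω)) +ᵥ x)) ∂μ
      = Gam μ θ φ f l t (θ^[m] ω) := by
  set v : G := cs θ φ m ω - cs θ φ m (θ^[t (Fin.last k)] ω) with hv
  set s : Fin (k + 1) → G := fun i => cs θ φ l (θ^[t i] (θ^[m] ω)) with hs
  set w : Fin k → G := fun i => cs θ φ (t i.castSucc) (θ^[m] ω) with hw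
  have h0 : Gam μ θ φ f l t (θ^[m] ω) = corr μ (FF f s) w := rfl
  rw [h0]
  unfold corr
  rw [← integral_vadd hR v (F := fun x => ∏ i, FF f s i (w i +ᵥ x))
    (corr_bd hR (FF_bd hR hf s) w).1]
  refine integral_congr_ae (ae_of_all _ fun x => ?_)
  simp only
  rw [← Finset.prod_mul_distrib]
  refine Finset.prod_congr rfl fun i _ => ?_
  unfold FF
  have e1 : cs θ φ (t i.castSucc + m) ω - cs θ φ m (θ^[t (Fin.last k)] ω) = w i + v := by
    simp only [hw, hv]
    rw [add_comm (t i.castSucc) m, cs_add m (t i.castSucc) ω]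
    abel
  have e2 : cs θ φ (t i.castSucc + (m + l)) ω - cs θ φ (m + l) (θ^[t (Fin.last k)] ω)
      = (s i.castSucc - s (Fin.last k)) + (w i + v) := by
    have e3 : cs θ φ (t i.castSucc + (m + l)) ω
        = cs θ φ m ω + cs θ φ (t i.castSucc) (θ^[m] ω)
          + cs θ φ l (θ^[t i.castSucc] (θ^[m] ω)) := by
      have : t i.castSucc + (m + l) = (m + t i.castSucc) + l := by ring
      rw [this, cs_add (m + t i.castSucc) l ω, cs_add m (t i.castSucc) ω]
      congr 2
      rw [← Function.iterate_add_apply]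
      congr 1
      rw [add_comm]
    have e4 : cs θ φ (m + l) (θ^[t (Fin.last k)] ω)
        = cs θ φ m (θ^[t (Fin.last k)] ω) + cs θ φ l (θ^[t (Fin.last k)] (θ^[m] ω)) := by
      rw [cs_add m l]
      congr 2
      rw [← Function.iterate_add_apply, ← Function.iterate_add_apply]
      congr 1
      rw [add_comm]
    rw [e3, e4]
    simp only [hs, hw, hv]
    abel
  rw [e1, e2]
  simp only [add_vadd]

theorem step_meanzero (hθ : MeasurePreserving θ P P) (hφ : Measurable φ)
    (hR : ∀ v : G, MeasurePreserving (fun x : X => v +ᵥ x) μ μ)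
    (hstar : Star P μ θ φ) {k : ℕ} (hk : 0 < k) (IH : HK P μ θ φ k)
    {f : Fin (k + 1) → X → ℝ} (hf : ∀ i, Bd (f i)) (hf0 : ∫ x, f 0 x ∂μ = 0) :
    Tendsto (fun t : Fin (k + 1) → ℕ => ∫ ω, |corr μ f (fun i => cs θ φ (t i) ω)| ∂P)
      (gapF (k + 1)) (𝓝 0) := by
  rw [Metric.tendsto_nhds]
  intro ε hε
  -- choose J and η
  obtain ⟨J, hJ⟩ := exists_nat_gt (2 / ε ^ 4)
  have hJ0 : (0 : ℝ) < J := lt_trans (by (clear * - hε; positivity)) hJ
  have hJ1 : 0 < J := by exact_mod_cast hJ0
  set η : ℝ := ε ^ 4 / 4 with hη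
  have hη0 : 0 < η := by positivity
  obtain ⟨L, hL⟩ := gamma_small hθ hφ hR hstar hk IH hf hf0 hη0
  -- times m_j = j * (L+1)
  set τ : ℕ → ℕ := fun j => j * (L + 1) with hτ
  have hall : ∀ᶠ t in gapF (k + 1), ∀ l ∈ Finset.range J,
      ∫ ω, |Gam μ θ φ f ((l + 1) * (L + 1)) t ω| ∂P ≤ η := by
    rw [Filter.eventually_all_finset]
    intro l _
    refine hL _ ?_
    nlinarith only []
  filter_upwards [hall] with t ht
  set C : Ω → ℝ := fun ω => corr μ f (fun i => cs θ φ (t i) ω) with hC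
  have hCm : Measurable C := measurable_corr hθ.measurable hφ f t
  have hCb : ∀ ω, |C ω| ≤ 1 := fun ω => abs_corr_le hR hf _
  set a : ℝ := ∫ ω, (C ω) ^ 2 ∂P with ha
  have ha0 : 0 ≤ a := integral_nonneg fun ω => sq_nonneg _
  set h : Ω → X → ℝ := fun ω x => f (Fin.last k) (cs θ φ (t (Fin.last k)) ω +ᵥ x) with hh
  set g : ℕ → Ω → X → ℝ := fun m ω x => ∏ i : Fin k, f i.castSucc ((cs θ φ (t i.castSucc + m) ω
          - cs θ φ m (θ^[t (Fin.last k)] ω)) +ᵥ x) with hg
  have hhb : ∀ ω, Bd (h ω) := fun ω => (hf _).comp (hR _).measurable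
  have hgb : ∀ m ω, Bd (g m ω) := fun m ω => Bd.prod _ fun i => (hf _).comp (hR _).measurable
  have hCh : ∀ m ω, C (θ^[m] ω) = ∫ x, h ω x * g m ω x ∂μ := fun m ω =>
    corr_shift hR hf t m ω
  have hGr : ∀ m l ω, ∫ x, g m ω x * g (m + l) ω x ∂μ = Gam μ θ φ f l t (θ^[m] ω) :=
    fun m l ω => gram_shift hR hf t m l ω
  -- pointwise Bessel
  have hB : ∀ ω, (∑ j ∈ Finset.range J, (C (θ^[τ j] ω)) ^ 2) ^ 2
      ≤ ∑ j ∈ Finset.range J, ∑ j' ∈ Finset.range J,
        |∫ x, g (τ j) ω x * g (τ j') ω x ∂μ| := by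
    intro ω
    have := bessel (μ := μ) (J := J) (hhb ω) (g := fun j => g (τ j) ω) fun j => hgb (τ j) ω
    simp only [hCh]
    exact this
  -- measurability of the gram entries
  have hGrlt : ∀ j l, ∀ ω, ∫ x, g (τ j) ω x * g (τ (j + l)) ω x ∂μ
      = Gam μ θ φ f (l * (L + 1)) t (θ^[τ j] ω) := by
    intro j l ω
    have : τ (j + l) = τ j + l * (L + 1) := by simp only [hτ]; ring
    rw [this]
    exact hGr _ _ _
  have hGm : ∀ j l, Measurable (fun ω => |∫ x, g (τ j) ω x * g (τ (j + l)) ω x ∂μ|) := by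
    intro j l
    simp only [hGrlt]
    exact ((measurable_Gam hθ.measurable hφ f _ t).comp (hθ.measurable.iterate _)).abs
  have hGmall : ∀ j j', Measurable (fun ω => |∫ x, g (τ j) ω x * g (τ j') ω x ∂μ|) := by
    intro j j'
    rcases le_total j j' with hjj | hjj
    · obtain ⟨l, rfl⟩ := Nat.exists_eq_add_of_le hjj
      exact hGm j l
    · obtain ⟨l, rfl⟩ := Nat.exists_eq_add_of_le hjj
      have := hGm j' l
      simp only [mul_comm] at this ⊢
      convert this using 6
  have hGb : ∀ j j' ω, |(|∫ x, g (τ j) ω x * g (τ j') ω x ∂μ|)| ≤ 1 := by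
    intro j j' ω
    rw [abs_abs]
    exact ((hgb _ ω).mul (hgb _ ω)).abs_integral_le
  have hGi : ∀ j j', Integrable (fun ω => |∫ x, g (τ j) ω x * g (τ j') ω x ∂μ|) P :=
    fun j j' => integrable_of_bdd (hGmall j j') 1 (hGb j j')
  have hoff : ∀ j l, l ∈ Finset.range J →
      ∫ ω, |∫ x, g (τ j) ω x * g (τ (j + (l + 1))) ω x ∂μ| ∂P ≤ η := by
    intro j l hl
    simp only [hGrlt]
    rw [integral_iter hθ (τ j) (F := fun ω => |Gam μ θ φ f ((l + 1) * (L + 1)) t ω|)
      (measurable_Gam hθ.measurable hφ f _ t).abs]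
    exact ht l hl
  have hbound : ∀ j ∈ Finset.range J, ∀ j' ∈ Finset.range J,
      ∫ ω, |∫ x, g (τ j) ω x * g (τ j') ω x ∂μ| ∂P ≤ (if j = j' then 1 else 0) + η := by
    intro j hj j' hj'
    rw [Finset.mem_range] at hj hj'
    rcases lt_trichotomy j j' with hlt | heq | hgt
    · rw [if_neg hlt.ne, zero_add]
      have h1 := hoff j (j' - j - 1) (Finset.mem_range.2 (by omega))
      have h2 : j + (j' - j - 1 + 1) = j' := by omega
      rwa [h2] at h1
    · rw [if_pos heq]
      have h1 := abs_integral_le_of_bdd (μ := P) (hGb j j')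
      have h2 := le_abs_self (∫ ω, |∫ x, g (τ j) ω x * g (τ j') ω x ∂μ| ∂P)
      linarith only [hη0, h1, h2]
    · rw [if_neg hgt.ne', zero_add]
      have h1 := hoff j' (j - j' - 1) (Finset.mem_range.2 (by omega))
      have h2 : j' + (j - j' - 1 + 1) = j := by omega
      rw [h2] at h1
      simp only [mul_comm] at h1 ⊢
      convert h1 using 8
  -- expectation
  set Sq : Ω → ℝ := fun ω => ∑ j ∈ Finset.range J, (C (θ^[τ j] ω)) ^ 2 with hSq
  have hSqm : Measurable Sq := Finset.measurable_sum _ fun j _ =>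
    (hCm.comp (hθ.measurable.iterate _)).pow_const 2
  have hC2b : ∀ ω, |(C ω) ^ 2| ≤ 1 := by
    intro ω
    rw [abs_pow]
    exact pow_le_one₀ (abs_nonneg _) (hCb ω)
  have hSqb : ∀ ω, |Sq ω| ≤ J := by
    intro ω
    calc |Sq ω| ≤ ∑ j ∈ Finset.range J, |(C (θ^[τ j] ω)) ^ 2| := Finset.abs_sum_le_sum_abs _ _
      _ ≤ ∑ j ∈ Finset.range J, (1 : ℝ) := Finset.sum_le_sum fun j _ => hC2b _
      _ = J := by simp
  have hSqint : ∫ ω, Sq ω ∂P = J * a := by
    simp only [hSq]
    rw [integral_finsetSum]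
    · have : ∀ j, ∫ ω, (C (θ^[τ j] ω)) ^ 2 ∂P = a := fun j =>
        integral_iter hθ (τ j) (F := fun ω => (C ω) ^ 2) (hCm.pow_const 2)
      simp [this]
    · intro j _
      exact integrable_of_bdd ((hCm.comp (hθ.measurable.iterate _)).pow_const 2) 1
        fun ω => hC2b _
  have h1 : (J * a) ^ 2 ≤ ∫ ω, (Sq ω) ^ 2 ∂P := by
    rw [← hSqint]
    exact sq_integral_le hSqm J hSqb
  have h2 : ∫ ω, (Sq ω) ^ 2 ∂P ≤ ∑ j ∈ Finset.range J, ∑ j' ∈ Finset.range J,
      ∫ ω, |∫ x, g (τ j) ω x * g (τ j') ω x ∂μ| ∂P := by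
    calc ∫ ω, (Sq ω) ^ 2 ∂P ≤ ∫ ω, ∑ j ∈ Finset.range J, ∑ j' ∈ Finset.range J,
          |∫ x, g (τ j) ω x * g (τ j') ω x ∂μ| ∂P := by
          refine integral_mono ?_ ?_ hB
          · refine integrable_of_bdd (hSqm.pow_const 2) ((J:ℝ) ^ 2) fun ω => ?_
            rw [abs_pow]
            exact pow_le_pow_left₀ (abs_nonneg _) (hSqb ω) 2
          · exact integrable_finsetSum _ fun j _ => integrable_finsetSum _ fun j' _ => hGi j j'
      _ = _ := by
          rw [integral_finsetSum _ fun j _ => integrable_finsetSum _ fun j' _ => hGi j j']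
          refine Finset.sum_congr rfl fun j _ => ?_
          rw [integral_finsetSum _ fun j' _ => hGi j j']
  have h3 : ∑ j ∈ Finset.range J, ∑ j' ∈ Finset.range J,
      ∫ ω, |∫ x, g (τ j) ω x * g (τ j') ω x ∂μ| ∂P ≤ J + J ^ 2 * η := by
    calc _ ≤ ∑ j ∈ Finset.range J, ∑ j' ∈ Finset.range J, ((if j = j' then (1:ℝ) else 0) + η) :=
          Finset.sum_le_sum fun j hj => Finset.sum_le_sum fun j' hj' => hbound j hj j' hj'
      _ = J + J ^ 2 * η := by
          simp only [Finset.sum_add_distrib, Finset.sum_ite_eq, Finset.sum_const,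
            Finset.card_range, nsmul_eq_mul]
          rw [Finset.sum_congr rfl (g := fun _ => (1:ℝ))
            (fun j hj => by rw [if_pos hj])]
          simp only [Finset.sum_const, Finset.card_range, nsmul_eq_mul, mul_one, add_right_inj]
          ring
  have h4 : a ^ 2 ≤ 1 / J + η := by
    have h5 : (J * a) ^ 2 ≤ J + J ^ 2 * η := h1.trans (h2.trans h3)
    have h6 : a ^ 2 = (J * a) ^ 2 / J ^ 2 := by (clear * - hJ1; field_simp)
    rw [h6, div_le_iff₀ (by positivity)]
    calc (J * a) ^ 2 ≤ J + J ^ 2 * η := h5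
      _ = (1 / J + η) * J ^ 2 := by (clear * - hJ1 hη0; field_simp)
  have h5 : (∫ ω, |C ω| ∂P) ^ 2 ≤ a := by
    have := sq_integral_le (μ := P) (f := fun ω => |C ω|) hCm.abs 1
      (fun ω => by rw [abs_abs]; exact hCb ω)
    simpa only [sq_abs] using this
  have h6 : 0 ≤ ∫ ω, |C ω| ∂P := integral_nonneg fun ω => abs_nonneg _
  have h7 : 1 / (J : ℝ) < ε ^ 4 / 2 := by
    rw [div_lt_iff₀ hJ0]
    have : 2 / ε ^ 4 * (ε ^ 4 / 2) < J * (ε ^ 4 / 2) :=
      mul_lt_mul_of_pos_right hJ (by positivity)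
    have h8 : 2 / ε ^ 4 * (ε ^ 4 / 2) = 1 := by field_simp
    linarith only [this, h8]
  rw [Real.dist_eq, sub_zero, abs_of_nonneg h6]
  by_contra hcon
  push Not at hcon
  have h8 : ε ^ 2 ≤ a := (pow_le_pow_left₀ hε.le hcon 2).trans h5
  have h9 : ε ^ 4 ≤ a ^ 2 := by
    calc ε ^ 4 = (ε ^ 2) ^ 2 := by ring
      _ ≤ a ^ 2 := pow_le_pow_left₀ (by positivity) h8 2
  have h10 : 0 < ε ^ 4 := by positivity
  rw [hη] at h4
  linarith only [hη, hη0, h4, h7, h9]

end

end Vale.Agent.P102
end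
end

section

section

namespace Vale.Agent.P102

open MeasureTheory Filter Topology

section
variable {Ω X G : Type*} [MeasurableSpace Ω] [MeasurableSpace X] [AddCommGroup G] [Countable G]
  [MeasurableSpace G] [MeasurableSingletonClass G] [AddAction G X]
  {P : Measure Ω} {μ : Measure X} {θ : Ω → Ω} {φ : Ω → G}
  [IsProbabilityMeasure P] [IsProbabilityMeasure μ]

omit [Countable G] [MeasurableSpace G] [MeasurableSingletonClass G] in
lemma corr_split (hR : ∀ v : G, MeasurePreserving (fun x : X => v +ᵥ x) μ μ)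
    {k : ℕ} {f : Fin (k + 1) → X → ℝ} (hf : ∀ i, Bd (f i)) (w : Fin (k + 1) → G) :
    corr μ f w = 2 * corr μ (Function.update f 0 (fun x => (f 0 x - ∫ y, f 0 y ∂μ) / 2)) w
      + (∫ y, f 0 y ∂μ) * corr μ (fun i : Fin k => f i.succ) (fun i => w i.succ) := by
  unfold corr
  set m := ∫ y, f 0 y ∂μ with hm
  have hm1 : |m| ≤ 1 := (hf 0).abs_integral_le
  have hb1 : Bd (fun x => (f 0 x - m) / 2) := by
    refine ⟨((hf 0).1.sub_const _).div_const _, fun x => ?_⟩
    rw [abs_div, abs_two, div_le_one (by norm_num)]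
    have := (hf 0).2 x
    have h2 := abs_sub (f 0 x) m
    linarith
  have hb : ∀ i, Bd (Function.update f 0 (fun x => (f 0 x - m) / 2) i) := by
    intro i
    by_cases hi : i = 0
    · subst hi; simpa using hb1
    · rw [Function.update_of_ne hi]; exact hf i
  have hi1 : Integrable (fun x => ∏ i, Function.update f 0 (fun x => (f 0 x - m) / 2) i
      (w i +ᵥ x)) μ := (corr_bd hR hb w).integrable
  have hi2 : Integrable (fun x => ∏ i : Fin k, f i.succ (w i.succ +ᵥ x)) μ :=
    (corr_bd hR (f := fun i : Fin k => f i.succ) (fun i => hf i.succ)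
      (fun i => w i.succ)).integrable
  rw [← integral_const_mul, ← integral_const_mul, ← integral_add (hi1.const_mul 2)
    (hi2.const_mul m)]
  refine integral_congr_ae (ae_of_all _ fun x => ?_)
  simp only [Fin.prod_univ_succ, Function.update_self, ne_eq, Fin.succ_ne_zero,
    not_false_eq_true, Function.update_of_ne]
  ring

theorem HK_all (hθ : MeasurePreserving θ P P) (hφ : Measurable φ)
    (hR : ∀ v : G, MeasurePreserving (fun x : X => v +ᵥ x) μ μ)
    (hstar : Star P μ θ φ) (k : ℕ) : HK P μ θ φ k := by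
  have h1 : HK P μ θ φ 1 := by
    intro f hf
    have : ∀ t : Fin 1 → ℕ,
        ∫ ω, |corr μ f (fun i => cs θ φ (t i) ω) - ∏ i, ∫ x, f i x ∂μ| ∂P = 0 := by
      intro t
      have h2 : ∀ ω, corr μ f (fun i => cs θ φ (t i) ω) - ∏ i, ∫ x, f i x ∂μ = 0 := by
        intro ω
        unfold corr
        simp only [Finset.univ_unique, Fin.default_eq_zero, Finset.prod_singleton]
        rw [integral_vadd hR _ (hf 0).1, sub_self]
      simp only [h2, abs_zero, integral_zero]
    simp only [this]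
    exact tendsto_const_nhds
  rcases Nat.eq_zero_or_pos k with h0 | h0
  · subst h0
    intro f hf
    have : ∀ t : Fin 0 → ℕ,
        ∫ ω, |corr μ f (fun i => cs θ φ (t i) ω) - ∏ i, ∫ x, f i x ∂μ| ∂P = 0 := by
      intro t
      simp [corr]
    simp only [this]
    exact tendsto_const_nhds
  · induction k, h0 using Nat.le_induction with
    | base => exact h1
    | succ k hk ih =>
      intro f hf
      set m := ∫ y, f 0 y ∂μ with hm
      have hm1 : |m| ≤ 1 := (hf 0).abs_integral_le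
      set f' : Fin (k + 1) → X → ℝ := Function.update f 0 (fun x => (f 0 x - m) / 2) with hf'
      have hb1 : Bd (fun x => (f 0 x - m) / 2) := by
        refine ⟨((hf 0).1.sub_const _).div_const _, fun x => ?_⟩
        rw [abs_div, abs_two, div_le_one (by norm_num)]
        have := (hf 0).2 x
        have h2 := abs_sub (f 0 x) m
        linarith only [hm1, this, h2]
      have hb : ∀ i, Bd (f' i) := by
        intro i
        by_cases hi : i = 0
        · subst hi; simpa [hf'] using hb1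
        · rw [hf', Function.update_of_ne hi]; exact hf i
      have hz : ∫ x, f' 0 x ∂μ = 0 := by
        simp only [hf', Function.update_self]
        rw [integral_div, integral_sub (hf 0).integrable (integrable_const _)]
        simp [hm]
      have hA := step_meanzero hθ hφ hR hstar (by omega) ih hb hz
      have hB := (ih (fun i => f i.succ) (fun i => hf i.succ)).comp (tendsto_succ k)
      have hS : Tendsto (fun t : Fin (k + 1) → ℕ =>
          2 * ∫ ω, |corr μ f' (fun i => cs θ φ (t i) ω)| ∂P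
          + ∫ ω, |corr μ (fun i : Fin k => f i.succ) (fun i => cs θ φ (t i.succ) ω)
            - ∏ i : Fin k, ∫ x, f i.succ x ∂μ| ∂P) (gapF (k + 1)) (𝓝 0) := by
        have := (hA.const_mul 2).add hB
        simpa only [Function.comp_apply, mul_zero, add_zero] using this
      refine squeeze_zero (fun t => integral_nonneg fun ω => abs_nonneg _) (fun t => ?_) hS
      have hmA : Measurable (fun ω => |corr μ f' (fun i => cs θ φ (t i) ω)|) :=
        (measurable_corr hθ.measurable hφ f' t).abs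
      have hiA : Integrable (fun ω => |corr μ f' (fun i => cs θ φ (t i) ω)|) P :=
        integrable_of_bdd hmA 1 fun ω => by rw [abs_abs]; exact abs_corr_le hR hb _
      have hPr : |∏ i : Fin k, ∫ x, f i.succ x ∂μ| ≤ 1 := by
        rw [Finset.abs_prod]
        exact Finset.prod_le_one (fun i _ => abs_nonneg _)
          fun i _ => (hf i.succ).abs_integral_le
      have hmB : Measurable (fun ω => |corr μ (fun i : Fin k => f i.succ)
            (fun i => cs θ φ (t i.succ) ω) - ∏ i : Fin k, ∫ x, f i.succ x ∂μ|) :=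
        ((measurable_corr hθ.measurable hφ (fun i : Fin k => f i.succ)
          (fun i => t i.succ)).sub_const _).abs
      have hiB : Integrable (fun ω => |corr μ (fun i : Fin k => f i.succ)
            (fun i => cs θ φ (t i.succ) ω) - ∏ i : Fin k, ∫ x, f i.succ x ∂μ|) P := by
        refine integrable_of_bdd hmB 2 fun ω => ?_
        rw [abs_abs]
        refine (abs_sub _ _).trans ?_
        have := abs_corr_le (μ := μ) hR (f := fun i : Fin k => f i.succ) (fun i => hf i.succ)
          (fun i => cs θ φ (t i.succ) ω)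
        linarith only [hPr, this]
      have hpt : ∀ ω, |corr μ f (fun i => cs θ φ (t i) ω) - ∏ i, ∫ x, f i x ∂μ|
          ≤ 2 * |corr μ f' (fun i => cs θ φ (t i) ω)|
            + |corr μ (fun i : Fin k => f i.succ)
            (fun i => cs θ φ (t i.succ) ω) - ∏ i : Fin k, ∫ x, f i.succ x ∂μ| := by
        intro ω
        rw [corr_split hR hf, Fin.prod_univ_succ]
        have e1 : 2 * corr μ f' (fun i => cs θ φ (t i) ω)
            + m * corr μ (fun i : Fin k => f i.succ) (fun i => cs θ φ (t i.succ) ω)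
            - m * ∏ i : Fin k, ∫ x, f i.succ x ∂μ
            = 2 * corr μ f' (fun i => cs θ φ (t i) ω)
              + m * (corr μ (fun i : Fin k => f i.succ) (fun i => cs θ φ (t i.succ) ω)
                - ∏ i : Fin k, ∫ x, f i.succ x ∂μ) := by ring
        rw [← hm, ← hf', e1]
        refine (abs_add_le _ _).trans ?_
        rw [abs_mul, abs_mul, abs_two]
        have := mul_le_mul_of_nonneg_right hm1
          (abs_nonneg (corr μ (fun i : Fin k => f i.succ) (fun i => cs θ φ (t i.succ) ω)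
                - ∏ i : Fin k, ∫ x, f i.succ x ∂μ))
        linarith only [this]
      calc _ ≤ ∫ ω, (2 * |corr μ f' (fun i => cs θ φ (t i) ω)|
            + |corr μ (fun i : Fin k => f i.succ)
            (fun i => cs θ φ (t i.succ) ω) - ∏ i : Fin k, ∫ x, f i.succ x ∂μ|) ∂P := by
            refine integral_mono ?_ ((hiA.const_mul 2).add hiB) hpt
            refine integrable_of_bdd
              ((measurable_corr hθ.measurable hφ f t).sub_const _).abs 2 fun ω => ?_
            rw [abs_abs]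
            refine (abs_sub _ _).trans ?_
            have h3 := abs_corr_le (μ := μ) hR hf (fun i => cs θ φ (t i) ω)
            have h4 : |∏ i, ∫ x, f i x ∂μ| ≤ 1 := by
              rw [Finset.abs_prod]
              exact Finset.prod_le_one (fun i _ => abs_nonneg _)
                fun i _ => (hf i).abs_integral_le
            linarith only [h3, h4]
        _ = _ := by
            rw [← integral_const_mul]
            exact integral_add (hiA.const_mul 2) hiB

end

end Vale.Agent.P102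
end
end

section

section

namespace Vale.Agent.P102

open MeasureTheory Filter Topology

section approx
variable {X : Type*} [MeasurableSpace X] {μ : Measure X} [IsProbabilityMeasure μ]

/-- a bounded measurable function is uniformly close to a finite combination of indicators -/
lemma exists_simple_approx {f : X → ℝ} (hf : Bd f) {δ : ℝ} (hδ : 0 < δ) :
    ∃ (s : Finset ℤ) (c : ℤ → ℝ) (A : ℤ → Set X), (∀ j, MeasurableSet (A j)) ∧
      ∀ x, |f x - ∑ j ∈ s, c j * (A j).indicator (fun _ => (1:ℝ)) x| ≤ δ := by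
  obtain ⟨N, hN⟩ := exists_nat_gt (1 / δ)
  have hN0 : (0 : ℝ) < N := lt_trans (by positivity) hN
  refine ⟨Finset.Icc (-(N:ℤ)) N, fun j => (j : ℝ) / N, fun j => {x | ⌊(N:ℝ) * f x⌋ = j},
    ?_, ?_⟩
  · intro j
    have hm : Measurable (fun x => ⌊(N:ℝ) * f x⌋) := Int.measurable_floor.comp (hf.1.const_mul _)
    exact hm (measurableSet_singleton j)
  · intro x
    set j0 := ⌊(N:ℝ) * f x⌋ with hj0
    have hfx := abs_le.1 (hf.2 x)
    have hmem : j0 ∈ Finset.Icc (-(N:ℤ)) N := by
      rw [Finset.mem_Icc]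
      constructor
      · rw [hj0, Int.le_floor]
        push_cast
        nlinarith only [hfx]
      · have : (j0 : ℝ) ≤ N := by
          have h1 := Int.floor_le ((N:ℝ) * f x)
          rw [← hj0] at h1
          nlinarith only [h1, hfx]
        exact_mod_cast this
    have hsum : ∑ j ∈ Finset.Icc (-(N:ℤ)) N, ((j : ℝ) / N) *
        ({x | ⌊(N:ℝ) * f x⌋ = j} : Set X).indicator (fun _ => (1:ℝ)) x = (j0 : ℝ) / N := by
      rw [Finset.sum_eq_single j0]
      · simp [hj0]
      · intro j _ hj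
        rw [Set.indicator_of_notMem]
        · simp
        · simp only [Set.mem_setOf_eq]
          exact fun h => hj (by rw [← h])
      · intro h; exact absurd hmem h
    simp only at hsum ⊢
    rw [hsum]
    have h1 := Int.floor_le ((N:ℝ) * f x)
    have h2 := Int.lt_floor_add_one ((N:ℝ) * f x)
    rw [← hj0] at h1 h2
    have h3 : f x - (j0:ℝ) / N = ((N:ℝ) * f x - j0) / N := by (clear * - hN0; field_simp)
    rw [h3, abs_of_nonneg (div_nonneg (by linarith only [h1]) hN0.le), div_le_iff₀ hN0]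
    have h4 : 1 < δ * N := by
      rw [div_lt_iff₀ hδ] at hN
      linarith only [hN]
    linarith only [h2, h4]

lemma tendsto_corr_of_sets {ι : Type*} {l : Filter ι} {τ : ι → X → X}
    (hτ : ∀ i, MeasurePreserving (τ i) μ μ)
    (hmix : ∀ A B, MeasurableSet A → MeasurableSet B →
      Tendsto (fun i => μ.real (A ∩ (τ i) ⁻¹' B)) l (𝓝 (μ.real A * μ.real B)))
    {f g : X → ℝ} (hf : Bd f) (hg : Bd g) :
    Tendsto (fun i => ∫ x, f x * g (τ i x) ∂μ) l (𝓝 ((∫ x, f x ∂μ) * ∫ x, g x ∂μ)) := by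
  rw [Metric.tendsto_nhds]
  intro ε hε
  set δ : ℝ := min 1 (ε / 8) with hδd
  have hδ : 0 < δ := by positivity
  have hδ1 : δ ≤ 1 := min_le_left _ _
  have hδ2 : δ ≤ ε / 8 := min_le_right _ _
  obtain ⟨s, c, A, hA, hfs⟩ := exists_simple_approx hf hδ
  obtain ⟨s', c', A', hA', hgs⟩ := exists_simple_approx hg hδ
  set S : X → ℝ := fun x => ∑ j ∈ s, c j * (A j).indicator (fun _ => (1:ℝ)) x with hS
  set S' : X → ℝ := fun x => ∑ j ∈ s', c' j * (A' j).indicator (fun _ => (1:ℝ)) x with hS'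
  have hSm : Measurable S := Finset.measurable_sum _ fun j _ =>
    (measurable_const.indicator (hA j)).const_mul _
  have hSm' : Measurable S' := Finset.measurable_sum _ fun j _ =>
    (measurable_const.indicator (hA' j)).const_mul _
  have hSb : ∀ x, |S x| ≤ 2 := by
    intro x
    have h1 := hfs x
    have h2 := hf.2 x
    have h3 : |S x| ≤ |f x| + |f x - S x| := by
      have := abs_sub (f x) (f x - S x)
      simpa only [ge_iff_le, sub_sub_cancel] using this
    linarith only [hδ1, h1, h2, h3]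
  have hSb' : ∀ x, |S' x| ≤ 2 := by
    intro x
    have h1 := hgs x
    have h2 := hg.2 x
    have h3 : |S' x| ≤ |g x| + |g x - S' x| := by
      have := abs_sub (g x) (g x - S' x)
      simpa only [ge_iff_le, sub_sub_cancel] using this
    linarith only [hδ1, h1, h2, h3]
  have hlimS : Tendsto (fun i => ∫ x, S x * S' (τ i x) ∂μ) l
      (𝓝 ((∫ x, S x ∂μ) * ∫ x, S' x ∂μ)) := by
    have e1 : ∀ i, ∫ x, S x * S' (τ i x) ∂μ
        = ∑ j ∈ s, ∑ j' ∈ s', c j * c' j' * μ.real (A j ∩ (τ i) ⁻¹' (A' j')) := by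
      intro i
      have : ∀ x, S x * S' (τ i x) = ∑ j ∈ s, ∑ j' ∈ s', c j * c' j' *
          (A j ∩ (τ i) ⁻¹' (A' j')).indicator (fun _ => (1:ℝ)) x := by
        intro x
        simp only [hS, hS']
        rw [Finset.sum_mul_sum]
        refine Finset.sum_congr rfl fun j _ => Finset.sum_congr rfl fun j' _ => ?_
        have h1 : (A j ∩ (τ i) ⁻¹' (A' j')).indicator (fun _ => (1:ℝ)) x
            = (A j).indicator (fun _ => (1:ℝ)) x * (A' j').indicator (fun _ => (1:ℝ)) (τ i x) := by
          by_cases h2 : x ∈ A j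
          · by_cases h3 : τ i x ∈ A' j'
            · rw [Set.indicator_of_mem h2, Set.indicator_of_mem h3,
                Set.indicator_of_mem (show x ∈ A j ∩ (τ i) ⁻¹' (A' j') from ⟨h2, h3⟩), one_mul]
            · rw [Set.indicator_of_notMem h3,
                Set.indicator_of_notMem (fun h : x ∈ A j ∩ (τ i) ⁻¹' (A' j') => h3 h.2), mul_zero]
          · rw [Set.indicator_of_notMem h2,
              Set.indicator_of_notMem (fun h : x ∈ A j ∩ (τ i) ⁻¹' (A' j') => h2 h.1), zero_mul]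
        rw [h1]
        ring
      simp only [this]
      have hmm : ∀ j j', MeasurableSet (A j ∩ (τ i) ⁻¹' (A' j')) := fun j j' =>
        (hA j).inter ((hτ i).measurable (hA' j'))
      rw [integral_finsetSum _ fun j _ => integrable_finsetSum _ fun j' _ =>
        (((integrable_const _).indicator (hmm j j')).const_mul _)]
      refine Finset.sum_congr rfl fun j _ => ?_
      rw [integral_finsetSum _ fun j' _ => (((integrable_const _).indicator (hmm j j')).const_mul _)]
      refine Finset.sum_congr rfl fun j' _ => ?_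
      rw [integral_const_mul, integral_indicator_const _ (hmm j j')]
      simp
    have e2 : (∫ x, S x ∂μ) * ∫ x, S' x ∂μ
        = ∑ j ∈ s, ∑ j' ∈ s', c j * c' j' * (μ.real (A j) * μ.real (A' j')) := by
      have h1 : ∫ x, S x ∂μ = ∑ j ∈ s, c j * μ.real (A j) := by
        simp only [hS]
        rw [integral_finsetSum _ fun j _ => (((integrable_const _).indicator (hA j)).const_mul _)]
        refine Finset.sum_congr rfl fun j _ => ?_
        rw [integral_const_mul, integral_indicator_const _ (hA j)]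
        simp
      have h2 : ∫ x, S' x ∂μ = ∑ j ∈ s', c' j * μ.real (A' j) := by
        simp only [hS']
        rw [integral_finsetSum _ fun j _ => (((integrable_const _).indicator (hA' j)).const_mul _)]
        refine Finset.sum_congr rfl fun j _ => ?_
        rw [integral_const_mul, integral_indicator_const _ (hA' j)]
        simp
      rw [h1, h2, Finset.sum_mul_sum]
      refine Finset.sum_congr rfl fun j _ => Finset.sum_congr rfl fun j' _ => by ring
    simp only [e1]
    rw [e2]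
    exact tendsto_finsetSum _ fun j _ => tendsto_finsetSum _ fun j' _ =>
      (hmix _ _ (hA j) (hA' j')).const_mul _
  have hev := (Metric.tendsto_nhds.1 hlimS) (ε / 8) (by positivity)
  filter_upwards [hev] with i hi
  rw [Real.dist_eq] at hi ⊢
  have iS : Integrable S μ := integrable_of_bdd hSm 2 hSb
  have iS' : Integrable S' μ := integrable_of_bdd hSm' 2 hSb'
  have if' : Integrable f μ := hf.integrable
  have ig : Integrable g μ := hg.integrable
  have hgτ : Bd (fun x => g (τ i x)) := hg.comp (hτ i).measurable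
  have ifg : Integrable (fun x => f x * g (τ i x)) μ := (hf.mul hgτ).integrable
  have iSS : Integrable (fun x => S x * S' (τ i x)) μ := by
    refine integrable_of_bdd (hSm.mul (hSm'.comp (hτ i).measurable)) (2 * 2) fun x => ?_
    rw [abs_mul]
    exact mul_le_mul (hSb x) (hSb' _) (abs_nonneg _) (by norm_num)
  have h1 : |(∫ x, f x * g (τ i x) ∂μ) - ∫ x, S x * S' (τ i x) ∂μ| ≤ 3 * δ := by
    rw [← integral_sub ifg iSS]
    refine abs_integral_le_of_bdd fun x => ?_
    have e : f x * g (τ i x) - S x * S' (τ i x)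
        = (f x - S x) * g (τ i x) + S x * (g (τ i x) - S' (τ i x)) := by ring
    rw [e]
    refine (abs_add_le _ _).trans ?_
    rw [abs_mul, abs_mul]
    have a1 : |f x - S x| * |g (τ i x)| ≤ δ * 1 :=
      mul_le_mul (hfs x) (hg.2 _) (abs_nonneg _) hδ.le
    have a2 : |S x| * |g (τ i x) - S' (τ i x)| ≤ 2 * δ :=
      mul_le_mul (hSb x) (hgs _) (abs_nonneg _) (by norm_num)
    linarith only [a1, a2]
  have h2 : |(∫ x, f x ∂μ) - ∫ x, S x ∂μ| ≤ δ := by
    rw [← integral_sub if' iS]
    exact abs_integral_le_of_bdd hfs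
  have h3 : |(∫ x, g x ∂μ) - ∫ x, S' x ∂μ| ≤ δ := by
    rw [← integral_sub ig iS']
    exact abs_integral_le_of_bdd hgs
  have h4 : |(∫ x, f x ∂μ) * (∫ x, g x ∂μ) - (∫ x, S x ∂μ) * ∫ x, S' x ∂μ| ≤ 3 * δ := by
    have e : (∫ x, f x ∂μ) * (∫ x, g x ∂μ) - (∫ x, S x ∂μ) * ∫ x, S' x ∂μ
        = ((∫ x, f x ∂μ) - ∫ x, S x ∂μ) * (∫ x, g x ∂μ)
          + (∫ x, S x ∂μ) * ((∫ x, g x ∂μ) - ∫ x, S' x ∂μ) := by ring
    rw [e]
    refine (abs_add_le _ _).trans ?_
    rw [abs_mul, abs_mul]
    have a1 : |(∫ x, f x ∂μ) - ∫ x, S x ∂μ| * |∫ x, g x ∂μ| ≤ δ * 1 :=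
      mul_le_mul h2 hg.abs_integral_le (abs_nonneg _) hδ.le
    have a2 : |∫ x, S x ∂μ| * |(∫ x, g x ∂μ) - ∫ x, S' x ∂μ| ≤ 2 * δ :=
      mul_le_mul (abs_integral_le_of_bdd hSb) h3 (abs_nonneg _) (by norm_num)
    linarith only [a1, a2]
  have h5 := abs_le.1 h1
  have h6 := abs_le.1 h4
  have h7 := abs_lt.1 hi
  rw [abs_lt]
  constructor
  · linarith only [hδ2, h5, h6, h7]
  · linarith only [hδ2, h5, h6, h7]

end approx

section
variable {Ω : Type*} [MeasurableSpace Ω] {P : Measure Ω} [IsProbabilityMeasure P]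

lemma mixing_two {T : Ω → Ω} (hT : MeasurePreserving T P P) (h : NatMixing P T 2) {A B : Set Ω}
    (hA : MeasurableSet A) (hB : MeasurableSet B) :
    Tendsto (fun n : ℕ => P.real (A ∩ (T^[n]) ⁻¹' B)) atTop (𝓝 (P.real A * P.real B)) := by
  have h1 := h ![A, B] (by
    intro i
    fin_cases i
    · exact hA
    · exact hB)
  unfold ConvFor at h1
  have h2 : Tendsto (fun n : ℕ => (![0, n] : Fin 2 → ℕ)) atTop (gapF 2) := by
    rw [atTop_basis.tendsto_iff (gapF_hasBasis 2)]
    intro N _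
    refine ⟨N, trivial, ?_⟩
    intro n hn i j hij
    have hi : i = 0 := by omega
    have hj : j = 1 := by omega
    subst hi; subst hj
    simpa only [Fin.isValue, Matrix.cons_val_zero, zero_add, Matrix.cons_val_one, Matrix.cons_val_fin_one,     ge_iff_le, Set.mem_Ici] using hn
  have h3 := h1.comp h2
  have e : ∀ n : ℕ, (⋂ i, (T^[(![0, n] : Fin 2 → ℕ) i]) ⁻¹' (![A, B] : Fin 2 → Set Ω) i)
      = A ∩ (T^[n]) ⁻¹' B := by
    intro n
    ext x
    simp [Fin.forall_fin_two]
  have e2 : (∏ i, P.real ((![A, B] : Fin 2 → Set Ω) i)) = P.real A * P.real B := by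
    simp [Fin.prod_univ_two]
  rw [e2] at h3
  refine h3.congr fun n => ?_
  simp only [Function.comp]
  rw [e]

end

section
variable {Ω X G : Type*} [MeasurableSpace Ω] [MeasurableSpace X] [AddCommGroup G] [Countable G]
  [MeasurableSpace G] [MeasurableSingletonClass G] [AddAction G X]
  {P : Measure Ω} {μ : Measure X} {θ : Ω → Ω} {φ : Ω → G}
  [IsProbabilityMeasure P] [IsProbabilityMeasure μ]

/-- the laws of the cocycle spread out -/
def Spread (P : Measure Ω) (θ : Ω → Ω) (φ : Ω → G) : Prop :=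
  ∀ ε : ℝ, 0 < ε → ∃ L : ℕ, ∀ l ≥ L, ∀ g : G, P.real (cs θ φ l ⁻¹' {g}) < ε

lemma diff_small (hθ : MeasurePreserving θ P P) (hφ : Measurable φ)
    (hmix : NatMixing P θ 2) {q : ℝ} {l : ℕ} (hq : ∀ g : G, P.real (cs θ φ l ⁻¹' {g}) ≤ q)
    (g : G) {δ : ℝ} (hδ : 0 < δ) :
    ∀ᶠ n : ℕ in atTop, P.real {ω | cs θ φ l ω - cs θ φ l (θ^[n] ω) = g} ≤ q + δ := by
  classical
  have hcm := measurable_cs hθ.measurable hφ l
  have hs : ∀ s : G, MeasurableSet (cs θ φ l ⁻¹' {s}) := fun s => hcm (measurableSet_singleton s)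
  obtain ⟨V, hV⟩ := exists_finset_small (P := P) hcm (δ := δ / 2) (by positivity)
  have hVm : MeasurableSet (cs θ φ l ⁻¹' (V : Set G)ᶜ) := hcm V.measurableSet.compl
  have hlim : Tendsto (fun n : ℕ => ∑ s ∈ V,
      P.real (cs θ φ l ⁻¹' {s + g} ∩ (θ^[n]) ⁻¹' (cs θ φ l ⁻¹' {s}))) atTop
      (𝓝 (∑ s ∈ V, P.real (cs θ φ l ⁻¹' {s + g}) * P.real (cs θ φ l ⁻¹' {s}))) :=
    tendsto_finsetSum _ fun s _ => mixing_two hθ hmix (hs _) (hs _)
  have hle : ∑ s ∈ V, P.real (cs θ φ l ⁻¹' {s + g}) * P.real (cs θ φ l ⁻¹' {s}) ≤ q := by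
    have h0 : 0 ≤ q := measureReal_nonneg.trans (hq 0)
    calc _ ≤ ∑ s ∈ V, q * P.real (cs θ φ l ⁻¹' {s}) :=
          Finset.sum_le_sum fun s _ => mul_le_mul_of_nonneg_right (hq _) measureReal_nonneg
      _ = q * ∑ s ∈ V, P.real (cs θ φ l ⁻¹' {s}) := by rw [Finset.mul_sum]
      _ ≤ q * 1 := by
          refine mul_le_mul_of_nonneg_left ?_ h0
          have h1 : ∑ s ∈ V, P.real (cs θ φ l ⁻¹' {s}) = P.real (cs θ φ l ⁻¹' (V : Set G)) := by
            have h2 : cs θ φ l ⁻¹' (V : Set G) = ⋃ s ∈ V, cs θ φ l ⁻¹' {s} := by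
              ext ω; simp only [Set.mem_preimage, SetLike.mem_coe, Finset.set_biUnion_preimage_singleton]
            rw [h2, measureReal_biUnion_finset]
            · intro s _ s' _ hss
              refine Disjoint.preimage _ ?_
              simpa using hss
            · intro s _; exact hs s
          rw [h1]
          exact measureReal_le_one
      _ = q := mul_one q
  have hev : ∀ᶠ n : ℕ in atTop, ∑ s ∈ V,
      P.real (cs θ φ l ⁻¹' {s + g} ∩ (θ^[n]) ⁻¹' (cs θ φ l ⁻¹' {s})) < q + δ / 2 :=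
    hlim.eventually (gt_mem_nhds (by linarith only [hδ, hle]))
  filter_upwards [hev] with n hn
  have hsub : {ω | cs θ φ l ω - cs θ φ l (θ^[n] ω) = g} ⊆
      (θ^[n]) ⁻¹' (cs θ φ l ⁻¹' (V : Set G)ᶜ) ∪
      ⋃ s ∈ V, (cs θ φ l ⁻¹' {s + g} ∩ (θ^[n]) ⁻¹' (cs θ φ l ⁻¹' {s})) := by
    intro ω hω
    simp only [Set.mem_setOf_eq] at hω
    by_cases hin : cs θ φ l (θ^[n] ω) ∈ V
    · right
      simp only [Set.mem_iUnion]
      refine ⟨_, hin, ?_, ?_⟩
      · simp only [Set.mem_preimage, Set.mem_singleton_iff]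
        rw [← hω]; abel
      · simp
    · left
      simpa using hin
  calc P.real {ω | cs θ φ l ω - cs θ φ l (θ^[n] ω) = g}
      ≤ P.real ((θ^[n]) ⁻¹' (cs θ φ l ⁻¹' (V : Set G)ᶜ) ∪
      ⋃ s ∈ V, (cs θ φ l ⁻¹' {s + g} ∩ (θ^[n]) ⁻¹' (cs θ φ l ⁻¹' {s}))) := measureReal_mono hsub
    _ ≤ P.real ((θ^[n]) ⁻¹' (cs θ φ l ⁻¹' (V : Set G)ᶜ)) +
        P.real (⋃ s ∈ V, (cs θ φ l ⁻¹' {s + g} ∩ (θ^[n]) ⁻¹' (cs θ φ l ⁻¹' {s}))) :=
        measureReal_union_le _ _
    _ ≤ δ / 2 + ∑ s ∈ V, P.real (cs θ φ l ⁻¹' {s + g} ∩ (θ^[n]) ⁻¹' (cs θ φ l ⁻¹' {s})) := by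
        refine add_le_add ?_ (measureReal_biUnion_finset_le _ _)
        rw [measureReal_def, (hθ.iterate n).measure_preimage hVm.nullMeasurableSet]
        exact hV.le
    _ ≤ q + δ := by linarith only [hn]

theorem star_of_spread (hθ : MeasurePreserving θ P P) (hφ : Measurable φ)
    (hR : ∀ v : G, MeasurePreserving (fun x : X => v +ᵥ x) μ μ)
    (hmixθ : NatMixing P θ 2)
    (hmixR : ∀ A B, MeasurableSet A → MeasurableSet B →
      Tendsto (fun v : G => μ.real (A ∩ (fun x : X => v +ᵥ x) ⁻¹' B)) cofinite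
        (𝓝 (μ.real A * μ.real B)))
    (hspread : Spread P θ φ) : Star P μ θ φ := by
  classical
  intro f hf hf0 η hη
  have hψlim := tendsto_corr_of_sets (l := cofinite) hR hmixR hf hf
  rw [hf0, zero_mul] at hψlim
  have hψev : ∀ᶠ v : G in cofinite, |∫ x, f x * f (v +ᵥ x) ∂μ| < η / 2 := by
    have := (Metric.tendsto_nhds.1 hψlim) (η / 2) (by positivity)
    simpa only [eventually_cofinite, not_lt, dist_zero_right, Real.norm_eq_abs] using this
  rw [Filter.eventually_cofinite] at hψev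
  set K : Finset G := hψev.toFinset with hK
  have hKn : ∀ v, v ∉ K → |∫ x, f x * f (v +ᵥ x) ∂μ| < η / 2 := by
    intro v hv
    by_contra hcon
    exact hv (by rw [hK, Set.Finite.mem_toFinset]; exact hcon)
  obtain ⟨L, hL⟩ := hspread (η / (4 * (K.card + 1))) (by (clear * - hη; positivity))
  refine ⟨L, fun l hl => ?_⟩
  have hcm := measurable_cs hθ.measurable hφ l
  have hev : ∀ᶠ n : ℕ in atTop, ∀ g ∈ K,
      P.real {ω | cs θ φ l ω - cs θ φ l (θ^[n] ω) = g}
        ≤ η / (4 * (K.card + 1)) + η / (4 * (K.card + 1)) := by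
    rw [Filter.eventually_all_finset]
    intro g _
    exact diff_small hθ hφ hmixθ (fun g => (hL l hl g).le) g (by (clear * - hη; positivity))
  filter_upwards [hev] with n hn
  set D : Ω → G := fun ω => cs θ φ l ω - cs θ φ l (θ^[n] ω) with hD
  have hDm : Measurable D := by
    have : Measurable (fun p : G × G => p.1 - p.2) := Measurable.of_discrete
    exact this.comp (hcm.prodMk (hcm.comp (hθ.measurable.iterate n)))
  have hψm : Measurable (fun ω => |∫ x, f x * f (D ω +ᵥ x) ∂μ|) := by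
    have : Measurable (fun v : G => |∫ x, f x * f (v +ᵥ x) ∂μ|) := Measurable.of_discrete
    exact this.comp hDm
  have hψ1 : ∀ v : G, |∫ x, f x * f (v +ᵥ x) ∂μ| ≤ 1 := fun v =>
    (hf.mul (hf.comp (hR v).measurable)).abs_integral_le
  have hKm : MeasurableSet (D ⁻¹' (K : Set G)) := hDm K.measurableSet
  have hPK : P.real (D ⁻¹' (K : Set G)) ≤ η / 2 := by
    have h1 : D ⁻¹' (K : Set G) = ⋃ g ∈ K, {ω | D ω = g} := by
      ext ω; simp only [Set.mem_preimage, SetLike.mem_coe, Set.mem_iUnion, Set.mem_ofPred_eq, exists_prop, exists_eq_right']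
    rw [h1]
    calc _ ≤ ∑ g ∈ K, P.real {ω | D ω = g} := measureReal_biUnion_finset_le _ _
      _ ≤ ∑ g ∈ K, (η / (4 * (K.card + 1)) + η / (4 * (K.card + 1))) :=
          Finset.sum_le_sum fun g hg => hn g hg
      _ = K.card * (η / (2 * (K.card + 1))) := by
          rw [Finset.sum_const, nsmul_eq_mul]
          congr 1
          field_simp
          ring
      _ ≤ η / 2 := by
          rw [mul_div_assoc', div_le_div_iff₀ (by (clear * -; positivity)) (by positivity)]
          nlinarith only [hη]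
  calc ∫ ω, |∫ x, f x * f (D ω +ᵥ x) ∂μ| ∂P
      ≤ ∫ ω, (η / 2 + (D ⁻¹' (K : Set G)).indicator (fun _ => (1:ℝ)) ω) ∂P := by
        refine integral_mono ?_ ?_ ?_
        · exact integrable_of_bdd hψm 1 fun ω => by rw [abs_abs]; exact hψ1 _
        · exact (integrable_const _).add ((integrable_const _).indicator hKm)
        · intro ω
          simp only
          by_cases hω : D ω ∈ K
          · rw [Set.indicator_of_mem (by simpa using hω)]
            have := hψ1 (D ω)
            linarith only [hη, this]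
          · rw [Set.indicator_of_notMem (by simpa using hω)]
            have := hKn _ hω
            linarith only [this]
    _ = η / 2 + P.real (D ⁻¹' (K : Set G)) := by
        rw [integral_add (integrable_const _) ((integrable_const _).indicator hKm),
          integral_indicator_const _ hKm]
        simp
    _ ≤ η := by linarith only [hPK]

end

end Vale.Agent.P102
end
end

section

section

namespace Vale.Agent.P102

open MeasureTheory Filter Topology

section
variable {α β : Type*} [MeasurableSpace α] [MeasurableSpace β] {μ : Measure α} {ν : Measure β}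
  [IsProbabilityMeasure μ] [IsProbabilityMeasure ν]

theorem prod_mixing {T : α → α} {S : β → β} (hT : MeasurePreserving T μ μ)
    (hS : MeasurePreserving S ν ν) {k : ℕ} (h1 : NatMixing μ T k) (h2 : NatMixing ν S k) :
    NatMixing (μ.prod ν) (Prod.map T S) k := by
  refine extend_mixing (Prod.map T S) (hT.prod hS)
    (Set.image2 (· ×ˢ ·) {s : Set α | MeasurableSet s} {t : Set β | MeasurableSet t})
    generateFrom_prod.symm isPiSystem_prod ?_ ?_
  · exact ⟨Set.univ, MeasurableSet.univ, Set.univ, MeasurableSet.univ, Set.univ_prod_univ⟩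
  · intro A hA
    choose U hU B hB hUB using hA
    have hA' : A = fun i => U i ×ˢ B i := funext fun i => (hUB i).symm
    subst hA'
    unfold ConvFor
    have e1 : ∀ t : Fin k → ℕ, (⋂ i, ((Prod.map T S)^[t i]) ⁻¹' (U i ×ˢ B i))
        = (⋂ i, (T^[t i]) ⁻¹' (U i)) ×ˢ (⋂ i, (S^[t i]) ⁻¹' (B i)) := by
      intro t
      ext p
      simp only [Set.mem_iInter, Set.mem_preimage, Set.mem_prod, Prod.map_iterate, Prod.map_fst,
        Prod.map_snd]
      exact forall_and
    simp only [e1, measureReal_prod_prod]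
    rw [Finset.prod_mul_distrib]
    exact (h1 U hU).mul (h2 B hB)

/-- a.e. invariant measurable sets are trivial for a mixing map -/
lemma zero_or_one {T : α → α} (hT : MeasurePreserving T μ μ) (h : NatMixing μ T 2) {A : Set α}
    (hA : MeasurableSet A) (hinv : ∀ᵐ x ∂μ, T x ∈ A ↔ x ∈ A) : μ.real A = 0 ∨ μ.real A = 1 := by
  have hn : ∀ n : ℕ, ∀ᵐ x ∂μ, T^[n] x ∈ A ↔ x ∈ A := by
    intro n
    induction n with
    | zero => simp
    | succ n ih =>
      have h1 : ∀ᵐ x ∂μ, T (T^[n] x) ∈ A ↔ T^[n] x ∈ A :=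
        (hT.iterate n).quasiMeasurePreserving.ae hinv
      filter_upwards [ih, h1] with x h2 h3
      rw [Function.iterate_succ_apply']
      exact h3.trans h2
  have hc : ∀ n : ℕ, μ.real (A ∩ (T^[n]) ⁻¹' A) = μ.real A := by
    intro n
    refine measureReal_congr ?_
    filter_upwards [hn n] with x hx
    have : (x ∈ A ∩ (T^[n]) ⁻¹' A) = (x ∈ A) := by
      simp only [Set.mem_inter_iff, Set.mem_preimage, hx, and_self]
    exact this
  have hl := mixing_two hT h hA hA
  simp only [hc] at hl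
  have := tendsto_nhds_unique hl tendsto_const_nhds
  have h4 : μ.real A * (μ.real A - 1) = 0 := by linarith only [this]
  rcases mul_eq_zero.1 h4 with h5 | h5
  · left; exact h5
  · right; linarith

/-- a.e. invariant functions with countably many values are a.e. constant -/
lemma const_of_invariant {T : α → α} (hT : MeasurePreserving T μ μ) (h : NatMixing μ T 2)
    {G : Type*} [Countable G] [MeasurableSpace G] [MeasurableSingletonClass G] {K : α → G}
    (hK : Measurable K) (hinv : ∀ᵐ x ∂μ, K (T x) = K x) : ∃ g, ∀ᵐ x ∂μ, K x = g := by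
  have h1 : ∀ g, μ.real (K ⁻¹' {g}) = 0 ∨ μ.real (K ⁻¹' {g}) = 1 := by
    intro g
    refine zero_or_one hT h (hK (measurableSet_singleton g)) ?_
    filter_upwards [hinv] with x hx
    simp [hx]
  by_contra hcon
  push Not at hcon
  have h2 : ∀ g, μ (K ⁻¹' {g}) = 0 := by
    intro g
    rcases h1 g with h3 | h3
    · rw [measureReal_def, ENNReal.toReal_eq_zero_iff] at h3
      rcases h3 with h3 | h3
      · exact h3
      · exact absurd h3 (measure_ne_top _ _)
    · exfalso
      refine hcon g ?_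
      have h4 : μ (K ⁻¹' {g}) = 1 := by
        rw [measureReal_def] at h3
        rw [← ENNReal.toReal_eq_one_iff]
        exact h3
      have h5 : ∀ᵐ x ∂μ, x ∈ K ⁻¹' {g} :=
        (mem_ae_iff_prob_eq_one (hK (measurableSet_singleton g))).2 h4
      filter_upwards [h5] with x hx
      simpa using hx
  have h3 : μ (⋃ g, K ⁻¹' {g}) = 0 := by
    rw [measure_iUnion_null_iff]
    exact h2
  have h4 : (⋃ g, K ⁻¹' {g}) = Set.univ := by
    ext x; simp only [Set.mem_iUnion, Set.mem_preimage, Set.mem_singleton_iff, exists_eq', Set.mem_univ]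
  rw [h4, measure_univ] at h3
  exact one_ne_zero h3

lemma hasSum_fibers {G : Type*} [Countable G] [MeasurableSpace G] [MeasurableSingletonClass G]
    {D : α → G} (hD : Measurable D) {E : Set α} (hE : MeasurableSet E) :
    Summable (fun g => μ.real (E ∩ D ⁻¹' {g})) ∧
      ∑' g, μ.real (E ∩ D ⁻¹' {g}) = μ.real E := by
  have hm : ∀ g, MeasurableSet (E ∩ D ⁻¹' {g}) := fun g =>
    hE.inter (hD (measurableSet_singleton g))
  have hd : Pairwise (Function.onFun Disjoint fun g => E ∩ D ⁻¹' {g}) := by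
    intro g g' hgg
    refine Disjoint.mono Set.inter_subset_right Set.inter_subset_right ?_
    refine Disjoint.preimage _ ?_
    simpa using hgg
  have hU : (⋃ g, E ∩ D ⁻¹' {g}) = E := by
    ext x; simp only [Set.mem_iUnion, Set.mem_inter_iff, Set.mem_preimage, Set.mem_singleton_iff, exists_and_left, ↓existsAndEq, and_true]
  have h1 : ∑' g, μ (E ∩ D ⁻¹' {g}) = μ E := by
    rw [← measure_iUnion hd hm, hU]
  constructor
  · refine ENNReal.summable_toReal ?_
    rw [h1]; exact measure_ne_top _ _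
  · rw [measureReal_def, ← h1, ENNReal.tsum_toReal_eq]
    · rfl
    · intro g; exact measure_ne_top _ _

lemma measurableSet_coinc {G : Type*} [Countable G] [MeasurableSpace G]
    [MeasurableSingletonClass G] {a b : α → G} (ha : Measurable a) (hb : Measurable b) :
    MeasurableSet {x | a x = b x} := by
  have h1 : MeasurableSet {p : G × G | p.1 = p.2} := MeasurableSet.of_discrete
  exact (ha.prodMk hb) h1

/-- asymptotic independence of a countably valued function and its shifts -/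
lemma tendsto_coincidence {T : α → α} (hT : MeasurePreserving T μ μ) (h : NatMixing μ T 2)
    {G : Type*} [Countable G] [MeasurableSpace G] [MeasurableSingletonClass G] {D : α → G}
    (hD : Measurable D) :
    Tendsto (fun n : ℕ => μ.real {x | D x = D (T^[n] x)}) atTop
      (𝓝 ((μ.prod μ).real {p | D p.1 = D p.2})) := by
  have hs : ∀ g, MeasurableSet (D ⁻¹' {g}) := fun g => hD (measurableSet_singleton g)
  have hmn : ∀ n : ℕ, MeasurableSet {x | D x = D (T^[n] x)} := fun n =>
    measurableSet_coinc hD (hD.comp (hT.measurable.iterate n))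
  have hmp : MeasurableSet {p : α × α | D p.1 = D p.2} :=
    measurableSet_coinc (hD.comp measurable_fst) (hD.comp measurable_snd)
  have e1 : ∀ n : ℕ, μ.real {x | D x = D (T^[n] x)}
      = ∑' g, μ.real (D ⁻¹' {g} ∩ (T^[n]) ⁻¹' (D ⁻¹' {g})) := by
    intro n
    rw [← (hasSum_fibers hD (hmn n)).2]
    refine tsum_congr fun g => ?_
    congr 1
    ext x
    simp only [Set.mem_inter_iff, Set.mem_ofPred_eq, Set.mem_preimage, Set.mem_singleton_iff]
    constructor
    · rintro ⟨h1, h2⟩
      exact ⟨h2, by rw [← h1]; exact h2⟩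
    · rintro ⟨h1, h2⟩
      exact ⟨by rw [h1, h2], h1⟩
  have e2 : (μ.prod μ).real {p | D p.1 = D p.2} = ∑' g, μ.real (D ⁻¹' {g}) * μ.real (D ⁻¹' {g}) := by
    rw [← (hasSum_fibers (D := fun p : α × α => D p.1) (hD.comp measurable_fst) hmp).2]
    refine tsum_congr fun g => ?_
    rw [← measureReal_prod_prod]
    congr 1
    ext p
    simp only [Set.mem_inter_iff, Set.mem_ofPred_eq, Set.mem_preimage, Set.mem_singleton_iff,
      Set.mem_prod]
    constructor
    · rintro ⟨h1, h2⟩
      exact ⟨h2, by rw [← h1]; exact h2⟩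
    · rintro ⟨h1, h2⟩
      exact ⟨by rw [h1, h2], h1⟩
  simp only [e1]
  rw [e2]
  have hsum : Summable (fun g => μ.real (D ⁻¹' {g})) := by
    have := (hasSum_fibers (μ := μ) hD MeasurableSet.univ).1
    simpa only [Set.univ_inter] using this
  refine tendsto_tsum_of_dominated_convergence hsum (fun g => mixing_two hT h (hs g) (hs g)) ?_
  refine Eventually.of_forall fun n g => ?_
  rw [Real.norm_of_nonneg measureReal_nonneg]
  exact measureReal_mono Set.inter_subset_left

end

end Vale.Agent.P102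
end
end

section

section

namespace Vale.Agent.P102

open MeasureTheory Filter Topology

section lower
variable {Ω G : Type*} [MeasurableSpace Ω] [AddCommGroup G] [Countable G]
  [MeasurableSpace G] [MeasurableSingletonClass G]
  {P : Measure Ω} {θ : Ω → Ω} {φ : Ω → G} [IsProbabilityMeasure P]

/-- coincidence probabilities of two independent copies of the cocycle -/
noncomputable def coin (P : Measure Ω) (θ : Ω → Ω) (φ : Ω → G) (j j' : ℕ) : ℝ :=
  (P.prod P).real {p | cs θ φ j' p.1 - cs θ φ j p.1 = cs θ φ j' p.2 - cs θ φ j p.2}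

lemma measurable_sub_G {α : Type*} [MeasurableSpace α] {a b : α → G} (ha : Measurable a)
    (hb : Measurable b) : Measurable (fun x => a x - b x) := by
  have : Measurable (fun p : G × G => p.1 - p.2) := Measurable.of_discrete
  exact this.comp (ha.prodMk hb)

lemma lower_bound (hθ : MeasurePreserving θ P P) (hφ : Measurable φ) (hmix : NatMixing P θ 2)
    {ε : ℝ} (hε : 0 < ε) (h : ∀ L : ℕ, ∃ l ≥ L, ∃ g : G, ε ≤ P.real (cs θ φ l ⁻¹' {g}))
    (M : ℕ) : (M * ε) ^ 2 ≤ ∑ j ∈ Finset.range M, ∑ j' ∈ Finset.range M, coin P θ φ j j' := by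
  have hD : ∀ j j', Measurable (fun ω => cs θ φ j' ω - cs θ φ j ω) := fun j j' =>
    measurable_sub_G (measurable_cs hθ.measurable hφ j') (measurable_cs hθ.measurable hφ j)
  have hlim : Tendsto (fun n : ℕ => ∑ j ∈ Finset.range M, ∑ j' ∈ Finset.range M,
      P.real {ω | cs θ φ j' ω - cs θ φ j ω = cs θ φ j' (θ^[n] ω) - cs θ φ j (θ^[n] ω)}) atTop
      (𝓝 (∑ j ∈ Finset.range M, ∑ j' ∈ Finset.range M, coin P θ φ j j')) :=
    tendsto_finsetSum _ fun j _ => tendsto_finsetSum _ fun j' _ =>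
      tendsto_coincidence hθ hmix (hD j j')
  have hfreq : ∃ᶠ n : ℕ in atTop, (M * ε) ^ 2 ≤ ∑ j ∈ Finset.range M, ∑ j' ∈ Finset.range M,
      P.real {ω | cs θ φ j' ω - cs θ φ j ω = cs θ φ j' (θ^[n] ω) - cs θ φ j (θ^[n] ω)} := by
    rw [frequently_atTop]
    intro L
    obtain ⟨n, hn, g, hg⟩ := h L
    refine ⟨n, hn, ?_⟩
    set E : Set Ω := cs θ φ n ⁻¹' {g} with hE
    have hEm : MeasurableSet E := (measurable_cs hθ.measurable hφ n) (measurableSet_singleton g)
    set F : ℕ → Set Ω := fun j => (θ^[j]) ⁻¹' E with hF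
    have hFm : ∀ j, MeasurableSet (F j) := fun j => (hθ.measurable.iterate j) hEm
    set X : Ω → ℝ := fun ω => ∑ j ∈ Finset.range M, (F j).indicator (fun _ => (1:ℝ)) ω with hX
    have hXm : Measurable X := Finset.measurable_sum _ fun j _ => measurable_const.indicator (hFm j)
    have hind : ∀ j ω, |(F j).indicator (fun _ => (1:ℝ)) ω| ≤ 1 := by
      intro j ω
      by_cases hω : ω ∈ F j
      · rw [Set.indicator_of_mem hω]; simp
      · rw [Set.indicator_of_notMem hω]; simp only [abs_zero, zero_le_one]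
    have hXb : ∀ ω, |X ω| ≤ M := by
      intro ω
      calc |X ω| ≤ ∑ j ∈ Finset.range M, |(F j).indicator (fun _ => (1:ℝ)) ω| :=
            Finset.abs_sum_le_sum_abs _ _
        _ ≤ ∑ j ∈ Finset.range M, (1:ℝ) := Finset.sum_le_sum fun j _ => hind j ω
        _ = M := by simp
    have hint : ∫ ω, X ω ∂P = M * P.real E := by
      simp only [hX]
      rw [integral_finsetSum _ fun j _ => (integrable_const _).indicator (hFm j)]
      have : ∀ j, ∫ ω, (F j).indicator (fun _ => (1:ℝ)) ω ∂P = P.real E := by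
        intro j
        rw [integral_indicator_const _ (hFm j)]
        simp only [smul_eq_mul, mul_one, hF]
        rw [measureReal_def, (hθ.iterate j).measure_preimage hEm.nullMeasurableSet]
        rfl
      simp [this]
    have hsq : ∫ ω, (X ω) ^ 2 ∂P = ∑ j ∈ Finset.range M, ∑ j' ∈ Finset.range M,
        P.real (F j ∩ F j') := by
      have : ∀ ω, (X ω) ^ 2 = ∑ j ∈ Finset.range M, ∑ j' ∈ Finset.range M,
          (F j ∩ F j').indicator (fun _ => (1:ℝ)) ω := by
        intro ω
        rw [sq]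
        simp only [hX]
        rw [Finset.sum_mul_sum]
        refine Finset.sum_congr rfl fun j _ => Finset.sum_congr rfl fun j' _ => ?_
        by_cases h2 : ω ∈ F j
        · by_cases h3 : ω ∈ F j'
          · rw [Set.indicator_of_mem h2, Set.indicator_of_mem h3,
              Set.indicator_of_mem (show ω ∈ F j ∩ F j' from ⟨h2, h3⟩), one_mul]
          · rw [Set.indicator_of_notMem h3,
              Set.indicator_of_notMem (fun h : ω ∈ F j ∩ F j' => h3 h.2), mul_zero]
        · rw [Set.indicator_of_notMem h2,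
            Set.indicator_of_notMem (fun h : ω ∈ F j ∩ F j' => h2 h.1), zero_mul]
      simp only [this]
      rw [integral_finsetSum _ fun j _ => integrable_finsetSum _ fun j' _ =>
        (integrable_const _).indicator ((hFm j).inter (hFm j'))]
      refine Finset.sum_congr rfl fun j _ => ?_
      rw [integral_finsetSum _ fun j' _ =>
        (integrable_const _).indicator ((hFm j).inter (hFm j'))]
      refine Finset.sum_congr rfl fun j' _ => ?_
      rw [integral_indicator_const _ ((hFm j).inter (hFm j'))]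
      simp
    have hle : ∀ j j', P.real (F j ∩ F j')
        ≤ P.real {ω | cs θ φ j' ω - cs θ φ j ω = cs θ φ j' (θ^[n] ω) - cs θ φ j (θ^[n] ω)} := by
      intro j j'
      refine measureReal_mono ?_
      rintro ω ⟨h1, h2⟩
      simp only [hF, hE, Set.mem_preimage, Set.mem_singleton_iff] at h1 h2
      have e1 : cs θ φ j ω + cs θ φ n (θ^[j] ω) = cs θ φ n ω + cs θ φ j (θ^[n] ω) := by
        rw [← cs_add, ← cs_add, add_comm]
      have e2 : cs θ φ j' ω + cs θ φ n (θ^[j'] ω) = cs θ φ n ω + cs θ φ j' (θ^[n] ω) := by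
        rw [← cs_add, ← cs_add, add_comm]
      rw [h1] at e1
      rw [h2] at e2
      show cs θ φ j' ω - cs θ φ j ω = cs θ φ j' (θ^[n] ω) - cs θ φ j (θ^[n] ω)
      have e3 : cs θ φ j (θ^[n] ω) = cs θ φ j ω + g - cs θ φ n ω := by rw [e1]; abel
      have e4 : cs θ φ j' (θ^[n] ω) = cs θ φ j' ω + g - cs θ φ n ω := by rw [e2]; abel
      rw [e3, e4]; abel
    calc (M * ε) ^ 2 ≤ (M * P.real E) ^ 2 := by
          refine pow_le_pow_left₀ (by (clear * - hε; positivity)) ?_ 2
          exact mul_le_mul_of_nonneg_left hg (by (clear * -; positivity))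
      _ = (∫ ω, X ω ∂P) ^ 2 := by rw [hint]
      _ ≤ ∫ ω, (X ω) ^ 2 ∂P := sq_integral_le hXm M hXb
      _ = _ := hsq
      _ ≤ _ := Finset.sum_le_sum fun j _ => Finset.sum_le_sum fun j' _ => hle j j'
  exact ge_of_tendsto_of_frequently hlim hfreq

end lower

section invariant
variable {Ω G : Type*} [MeasurableSpace Ω] [AddCommGroup G] [Countable G]
  [MeasurableSpace G] [MeasurableSingletonClass G]
  {P : Measure Ω} {θ : Ω → Ω} {φ : Ω → G} [IsProbabilityMeasure P]

/-- the skew map over `θ × θ` with the difference cocycle -/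
def dmap (θ : Ω → Ω) (φ : Ω → G) (p : (Ω × Ω) × G) : (Ω × Ω) × G :=
  (Prod.map θ θ p.1, p.2 + (φ p.1.1 - φ p.1.2))

omit [MeasurableSpace Ω] [Countable G] [MeasurableSpace G] [MeasurableSingletonClass G] in
lemma dmap_iterate (n : ℕ) (p : (Ω × Ω) × G) :
    (dmap θ φ)^[n] p = ((θ^[n] p.1.1, θ^[n] p.1.2),
      p.2 + (cs θ φ n p.1.1 - cs θ φ n p.1.2)) := by
  induction n with
  | zero => simp [cs]
  | succ n ih =>
    rw [Function.iterate_succ_apply', ih]
    simp only [dmap, Prod.map_apply]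
    have h1 : ∀ ω, cs θ φ (n + 1) ω = cs θ φ n ω + φ (θ^[n] ω) := by
      intro ω
      rw [cs_add n 1 ω]
      congr 1
      simp [cs]
    rw [h1, h1, Function.iterate_succ_apply', Function.iterate_succ_apply']
    congr 1
    abel

lemma dmap_mp (hθ : MeasurePreserving θ P P) (hφ : Measurable φ) :
    MeasurePreserving (dmap θ φ) ((P.prod P).prod (Measure.count : Measure G))
      ((P.prod P).prod (Measure.count : Measure G)) := by
  have hm : Measurable (fun p : (Ω × Ω) × G => p.2 + (φ p.1.1 - φ p.1.2)) :=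
    measurable_add_G measurable_snd (measurable_sub_G
      (hφ.comp (measurable_fst.comp measurable_fst)) (hφ.comp (measurable_snd.comp measurable_fst)))
  refine MeasurePreserving.skew_product (f := Prod.map θ θ)
    (g := fun w g => g + (φ w.1 - φ w.2)) (hθ.prod hθ) hm ?_
  refine ae_of_all _ fun w => ?_
  ext s hs
  have h1 : Measurable (fun g : G => g + (φ w.1 - φ w.2)) := Measurable.of_discrete
  rw [Measure.map_apply h1 hs, Measure.count_apply hs, Measure.count_apply (h1 hs),
    Set.encard_preimage_of_bijective (AddGroup.addRight_bijective _)]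

/-- if the laws of the cocycle do not spread, there is an invariant measurable set with finite
nonempty sections -/
theorem exists_invariant_set (hθ : MeasurePreserving θ P P) (hφ : Measurable φ)
    (hmix : NatMixing P θ 2) (hns : ¬ Spread P θ φ) :
    ∃ E : Set ((Ω × Ω) × G), MeasurableSet E ∧
      (∀ᵐ w ∂(P.prod P), {g | (w, g) ∈ E}.Finite) ∧
      (∀ᵐ w ∂(P.prod P), ∀ g, (Prod.map θ θ w, g + (φ w.1 - φ w.2)) ∈ E ↔ (w, g) ∈ E) ∧
      (∀ᵐ w ∂(P.prod P), ∃ g, (w, g) ∈ E) := by
  classical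
  unfold Spread at hns
  push Not at hns
  obtain ⟨ε, hε, hns⟩ := hns
  set m : Measure ((Ω × Ω) × G) := (P.prod P).prod (Measure.count : Measure G) with hm
  have hΦ := dmap_mp (P := P) hθ hφ
  have hcs := fun n => measurable_cs hθ.measurable hφ n
  -- the starting set
  set S : ℕ → Set ((Ω × Ω) × G) := fun j => (dmap θ φ)^[j] ⁻¹' (Set.univ ×ˢ {(0:G)}) with hS
  have hS0m : MeasurableSet (Set.univ ×ˢ {(0:G)} : Set ((Ω × Ω) × G)) :=
    MeasurableSet.univ.prod (measurableSet_singleton _)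
  have hSm : ∀ j, MeasurableSet (S j) := fun j => (hΦ.measurable.iterate j) hS0m
  have hS0 : m (Set.univ ×ˢ {(0:G)}) = 1 := by
    rw [hm, Measure.prod_prod]
    simp only [measure_univ, MeasurableSet.singleton, Measure.count_singleton', mul_one]
  have hSfin : ∀ j, m (S j) ≠ ⊤ := by
    intro j
    rw [hS]
    simp only
    rw [(hΦ.iterate j).measure_preimage hS0m.nullMeasurableSet, hS0]
    exact ENNReal.one_ne_top
  set V := Lp.compMeasurePreservingₗᵢ (E := ℝ) (p := 2) ℝ (dmap θ φ) hΦ with hV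
  set F0 : Lp ℝ 2 m := indicatorConstLp 2 (hSm 0) (hSfin 0) (1:ℝ) with hF0
  have hVj : ∀ j : ℕ, (V.toContinuousLinearMap)^[j] F0
      = indicatorConstLp 2 (hSm j) (hSfin j) (1:ℝ) := by
    intro j
    induction j with
    | zero => rfl
    | succ j ih =>
      rw [Function.iterate_succ_apply', ih]
      rfl
  have hVnorm : ‖V.toContinuousLinearMap‖ ≤ 1 := V.norm_toContinuousLinearMap_le
  have herg := ContinuousLinearMap.tendsto_birkhoffAverage_orthogonalProjection
    V.toContinuousLinearMap hVnorm F0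
  set Fb : Lp ℝ 2 m := ↑((LinearMap.eqLocus (V.toContinuousLinearMap : Lp ℝ 2 m →ₗ[ℝ] Lp ℝ 2 m)
    (1 : Lp ℝ 2 m →L[ℝ] Lp ℝ 2 m)).orthogonalProjectionOnto F0) with hFb
  -- inner products
  have hinner : ∀ j j' : ℕ, m.real (S j ∩ S j') = coin P θ φ j j' := by
    intro j j'
    have hset : S j ∩ S j' = {p | p.2 + (cs θ φ j p.1.1 - cs θ φ j p.1.2) = 0 ∧
        p.2 + (cs θ φ j' p.1.1 - cs θ φ j' p.1.2) = 0} := by
      ext p
      simp only [hS, Set.mem_inter_iff, Set.mem_preimage, dmap_iterate, Set.mem_prod,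
        Set.mem_univ, true_and, Set.mem_singleton_iff]
      rfl
    have hmeas : MeasurableSet (S j ∩ S j') := (hSm j).inter (hSm j')
    unfold coin
    rw [measureReal_def, measureReal_def, hm, Measure.prod_apply hmeas]
    congr 1
    have hcoin : MeasurableSet {p : Ω × Ω | cs θ φ j' p.1 - cs θ φ j p.1
        = cs θ φ j' p.2 - cs θ φ j p.2} :=
      measurableSet_coinc
        (measurable_sub_G ((hcs j').comp measurable_fst) ((hcs j).comp measurable_fst))
        (measurable_sub_G ((hcs j').comp measurable_snd) ((hcs j).comp measurable_snd))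
    rw [← lintegral_indicator_one hcoin]
    refine lintegral_congr fun w => ?_
    by_cases hw : cs θ φ j' w.1 - cs θ φ j w.1 = cs θ φ j' w.2 - cs θ φ j w.2
    · rw [Set.indicator_of_mem (by exact hw)]
      have : Prod.mk w ⁻¹' (S j ∩ S j') = {-(cs θ φ j w.1 - cs θ φ j w.2)} := by
        rw [hset]
        ext g
        simp only [Set.mem_preimage, Set.mem_singleton_iff]
        show (g + (cs θ φ j w.1 - cs θ φ j w.2) = 0 ∧ g + (cs θ φ j' w.1 - cs θ φ j' w.2) = 0) ↔ _
        constructor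
        · rintro ⟨h1, _⟩
          exact eq_neg_of_add_eq_zero_left h1
        · intro h1
          rw [h1]
          refine ⟨by abel, ?_⟩
          have : cs θ φ j' w.1 - cs θ φ j' w.2 = cs θ φ j w.1 - cs θ φ j w.2 := by
            have h3 : cs θ φ j' w.1 = cs θ φ j' w.2 - cs θ φ j w.2 + cs θ φ j w.1 := by
              rw [← hw]; abel
            rw [h3]; abel
          rw [this]; abel
      rw [this, Measure.count_singleton]
      rfl
    · rw [Set.indicator_of_notMem (by exact hw)]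
      have : Prod.mk w ⁻¹' (S j ∩ S j') = ∅ := by
        rw [hset]
        ext g
        simp only [Set.mem_preimage, Set.mem_empty_iff_false, iff_false]
        show ¬ (g + (cs θ φ j w.1 - cs θ φ j w.2) = 0 ∧ g + (cs θ φ j' w.1 - cs θ φ j' w.2) = 0)
        rintro ⟨h1, h2⟩
        apply hw
        have h3 : cs θ φ j' w.1 - cs θ φ j' w.2 = cs θ φ j w.1 - cs θ φ j w.2 := by
          have := h1.trans h2.symm
          exact (add_left_cancel this).symm
        have h4 : cs θ φ j' w.1 = cs θ φ j w.1 - cs θ φ j w.2 + cs θ φ j' w.2 := by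
          rw [← h3]; abel
        rw [h4]; abel
      rw [this, measure_empty]
  -- norm of averages
  have hnorm : ∀ M : ℕ, 0 < M →
      ε ^ 2 ≤ ‖birkhoffAverage ℝ (V.toContinuousLinearMap) id M F0‖ ^ 2 := by
    intro M hM
    have hM' : (0:ℝ) < M := by exact_mod_cast hM
    have h1 : birkhoffAverage ℝ (V.toContinuousLinearMap) id M F0
        = (M:ℝ)⁻¹ • ∑ j ∈ Finset.range M, indicatorConstLp 2 (hSm j) (hSfin j) (1:ℝ) := by
      unfold birkhoffAverage birkhoffSum
      congr 1
      refine Finset.sum_congr rfl fun j _ => ?_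
      simp only [id]
      exact hVj j
    have h2 : ∀ j, inner ℝ (indicatorConstLp 2 (hSm j) (hSfin j) (1:ℝ) : Lp ℝ 2 m)
        (∑ j' ∈ Finset.range M, indicatorConstLp 2 (hSm j') (hSfin j') (1:ℝ))
        = ∑ j' ∈ Finset.range M, coin P θ φ j j' := by
      intro j
      rw [inner_sum]
      refine Finset.sum_congr rfl fun j' _ => ?_
      rw [L2.real_inner_indicatorConstLp_one_indicatorConstLp_one (hSm j) (hSm j') (hSfin j)
        (hSfin j')]
      exact hinner j j'
    have h5 : ‖∑ j ∈ Finset.range M, (indicatorConstLp 2 (hSm j) (hSfin j) (1:ℝ) : Lp ℝ 2 m)‖ ^ 2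
        = ∑ j ∈ Finset.range M, ∑ j' ∈ Finset.range M, coin P θ φ j j' := by
      rw [← real_inner_self_eq_norm_sq, sum_inner]
      exact Finset.sum_congr rfl fun j _ => h2 j
    have h3 := lower_bound hθ hφ hmix hε hns M
    rw [h1, norm_smul, mul_pow, h5, Real.norm_eq_abs, sq_abs]
    calc ε ^ 2 = ((M:ℝ)⁻¹) ^ 2 * (M * ε) ^ 2 := by (clear * - hM hε; field_simp)
      _ ≤ _ := mul_le_mul_of_nonneg_left h3 (by positivity)
  have hFbnorm : ε ^ 2 ≤ ‖Fb‖ ^ 2 := by
    have h1 : Tendsto (fun M => ‖birkhoffAverage ℝ (V.toContinuousLinearMap) id M F0‖ ^ 2) atTop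
        (𝓝 (‖Fb‖ ^ 2)) := (herg.norm).pow 2
    refine ge_of_tendsto h1 ?_
    filter_upwards [eventually_gt_atTop 0] with M hM
    exact hnorm M hM
  have hFb0 : Fb ≠ 0 := by
    intro h
    rw [h, norm_zero] at hFbnorm
    nlinarith only [hFbnorm, hε]
  have hFbinv : V.toContinuousLinearMap Fb = Fb := by
    have h1 := ((LinearMap.eqLocus (V.toContinuousLinearMap : Lp ℝ 2 m →ₗ[ℝ] Lp ℝ 2 m)
      (1 : Lp ℝ 2 m →L[ℝ] Lp ℝ 2 m)).orthogonalProjectionOnto F0).2
    exact h1
  have hFbinv' : (Fb : (Ω × Ω) × G → ℝ) ∘ (dmap θ φ) =ᵐ[m] Fb := by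
    have h1 := Lp.coeFn_compMeasurePreserving Fb hΦ
    have h2 : (Lp.compMeasurePreserving (dmap θ φ) hΦ) Fb = Fb := hFbinv
    rw [h2] at h1
    exact h1.symm
  have hFbm : Measurable (Fb : (Ω × Ω) × G → ℝ) := (Lp.stronglyMeasurable Fb).measurable
  -- a level
  have hc : ∃ c : NNReal, c ≠ 0 ∧ m {p | c ≤ ‖(Fb : (Ω × Ω) × G → ℝ) p‖₊} ≠ 0 := by
    by_contra hcon
    push Not at hcon
    apply hFb0
    rw [Lp.eq_zero_iff_ae_eq_zero]
    have h1 : m (⋃ n : ℕ, {p | (1 / ((n:NNReal) + 1)) ≤ ‖(Fb : (Ω × Ω) × G → ℝ) p‖₊}) = 0 := by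
      rw [measure_iUnion_null_iff]
      intro n
      exact hcon _ (by (clear * -; positivity))
    have h2 : ∀ᵐ p ∂m, p ∉ (⋃ n : ℕ, {p | (1 / ((n:NNReal) + 1)) ≤ ‖(Fb : (Ω × Ω) × G → ℝ) p‖₊}) :=
      measure_eq_zero_iff_ae_notMem.1 h1
    filter_upwards [h2] with p hp
    by_contra hne
    apply hp
    have h3 : (0:NNReal) < ‖(Fb : (Ω × Ω) × G → ℝ) p‖₊ := by
      rw [pos_iff_ne_zero, nnnorm_ne_zero_iff]
      exact hne
    obtain ⟨n, hn⟩ := exists_nat_one_div_lt (show (0:ℝ) < ‖(Fb : (Ω × Ω) × G → ℝ) p‖₊ from h3)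
    refine Set.mem_iUnion.2 ⟨n, ?_⟩
    show (1 / ((n:NNReal) + 1)) ≤ ‖(Fb : (Ω × Ω) × G → ℝ) p‖₊
    rw [← NNReal.coe_le_coe]
    push_cast
    exact hn.le
  obtain ⟨c, hc0, hcm⟩ := hc
  set E : Set ((Ω × Ω) × G) := {p | c ≤ ‖(Fb : (Ω × Ω) × G → ℝ) p‖₊} with hE
  have hEm : MeasurableSet E := measurableSet_le measurable_const hFbm.nnnorm
  have hEfin : m E < ⊤ := (Lp.memLp Fb).meas_ge_lt_top two_ne_zero ENNReal.ofNat_ne_top hc0
  have hinvE : ∀ᵐ w ∂(P.prod P), ∀ g, (Prod.map θ θ w, g + (φ w.1 - φ w.2)) ∈ E ↔ (w, g) ∈ E := by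
    have h1 : ∀ᵐ p ∂m, dmap θ φ p ∈ E ↔ p ∈ E := by
      filter_upwards [hFbinv'] with p hp
      simp only [Function.comp] at hp
      show c ≤ ‖(Fb : (Ω × Ω) × G → ℝ) (dmap θ φ p)‖₊ ↔ c ≤ ‖(Fb : (Ω × Ω) × G → ℝ) p‖₊
      rw [hp]
    have h2 := Measure.ae_ae_of_ae_prod h1
    filter_upwards [h2] with w hw
    rw [Measure.ae_count_iff] at hw
    exact hw
  refine ⟨E, hEm, ?_, hinvE, ?_⟩
  · have h1 := Measure.ae_measure_lt_top hEm hEfin.ne
    filter_upwards [h1] with w hw
    exact Measure.count_apply_lt_top.1 hw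
  · set N : Set (Ω × Ω) := {w | ∃ g, (w, g) ∈ E} with hN
    have hNm : MeasurableSet N := by
      have : N = ⋃ g : G, (fun w => (w, g)) ⁻¹' E := by
        ext w
        simp only [Set.mem_iUnion, Set.mem_preimage]
        rfl
      rw [this]
      exact MeasurableSet.iUnion fun g => (measurable_id.prodMk measurable_const) hEm
    have hNinv : ∀ᵐ w ∂(P.prod P), Prod.map θ θ w ∈ N ↔ w ∈ N := by
      filter_upwards [hinvE] with w hw
      constructor
      · rintro ⟨g, hg⟩
        refine ⟨g - (φ w.1 - φ w.2), ?_⟩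
        rw [← hw]
        simpa using hg
      · rintro ⟨g, hg⟩
        exact ⟨g + (φ w.1 - φ w.2), (hw g).2 hg⟩
    have h01 := zero_or_one (hθ.prod hθ) (prod_mixing hθ hθ hmix hmix) hNm hNinv
    rcases h01 with h0 | h1
    · exfalso
      apply hcm
      have hN0 : (P.prod P) N = 0 := by
        rw [measureReal_def, ENNReal.toReal_eq_zero_iff] at h0
        rcases h0 with h0 | h0
        · exact h0
        · exact absurd h0 (measure_ne_top _ _)
      show m E = 0
      rw [hm, Measure.measure_prod_null hEm]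
      have : ∀ᵐ w ∂(P.prod P), w ∉ N := measure_eq_zero_iff_ae_notMem.1 hN0
      filter_upwards [this] with w hw
      have h3 : Prod.mk w ⁻¹' E = ∅ := by
        ext g
        simp only [Set.mem_preimage, Set.mem_empty_iff_false, iff_false]
        intro h4
        exact hw ⟨g, h4⟩
      rw [h3]
      simp
    · have h4 : (P.prod P) N = 1 := by
        rw [measureReal_def] at h1
        rw [← ENNReal.toReal_eq_one_iff]
        exact h1
      exact (mem_ae_iff_prob_eq_one hNm).2 h4

end invariant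

end Vale.Agent.P102
end
end

section

section

namespace Vale.Agent.P102

open MeasureTheory Filter Topology

section
variable {Ω G : Type*} [MeasurableSpace Ω] [AddCommGroup G] [Countable G]
  [MeasurableSpace G] [MeasurableSingletonClass G] [LinearOrder G] [IsOrderedAddMonoid G]
  {P : Measure Ω} {θ : Ω → Ω} {φ : Ω → G} [IsProbabilityMeasure P]

/-- a measurable equivariant selection -/
theorem exists_transfer (hθ : MeasurePreserving θ P P)
    {E : Set ((Ω × Ω) × G)} (hE : MeasurableSet E)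
    (hfin : ∀ᵐ w ∂(P.prod P), {g | (w, g) ∈ E}.Finite)
    (hinv : ∀ᵐ w ∂(P.prod P), ∀ g, (Prod.map θ θ w, g + (φ w.1 - φ w.2)) ∈ E ↔ (w, g) ∈ E)
    (hne : ∀ᵐ w ∂(P.prod P), ∃ g, (w, g) ∈ E) :
    ∃ H : Ω × Ω → G, Measurable H ∧
      ∀ᵐ w ∂(P.prod P), H (Prod.map θ θ w) = H w + (φ w.1 - φ w.2) := by
  classical
  set M : G → Set (Ω × Ω) := fun g => {w | (w, g) ∈ E ∧ ∀ g' < g, (w, g') ∉ E} with hM
  have hsec : ∀ g, MeasurableSet {w : Ω × Ω | (w, g) ∈ E} := fun g =>
    (measurable_id.prodMk measurable_const) hE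
  have hMm : ∀ g, MeasurableSet (M g) := by
    intro g
    have h1 : M g = {w | (w, g) ∈ E} ∩ ⋂ g' : G, ⋂ _ : g' < g, {w | (w, g') ∈ E}ᶜ := by
      ext w
      simp only [hM, Set.mem_inter_iff, Set.mem_iInter, Set.mem_compl_iff]
      rfl
    rw [h1]
    exact (hsec g).inter (MeasurableSet.iInter fun g' => MeasurableSet.iInter fun _ =>
      (hsec g').compl)
  have huniq : ∀ w g g', w ∈ M g → w ∈ M g' → g = g' := by
    intro w g g' h1 h2
    rcases lt_trichotomy g g' with h | h | h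
    · exact absurd h1.1 (h2.2 g h)
    · exact h
    · exact absurd h2.1 (h1.2 g' h)
  set H : Ω × Ω → G := fun w => if h : ∃ g, w ∈ M g then h.choose else 0 with hH
  have hHM : ∀ w g, w ∈ M g → H w = g := by
    intro w g hw
    have hex : ∃ g, w ∈ M g := ⟨g, hw⟩
    simp only [hH, dif_pos hex]
    exact huniq w _ _ hex.choose_spec hw
  refine ⟨H, ?_, ?_⟩
  · refine measurable_to_countable' fun g => ?_
    by_cases hg : g = 0
    · subst hg
      have h1 : H ⁻¹' {0} = M 0 ∪ (⋃ g, M g)ᶜ := by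
        ext w
        simp only [Set.mem_preimage, Set.mem_singleton_iff, Set.mem_union, Set.mem_compl_iff,
          Set.mem_iUnion]
        constructor
        · intro h0
          by_cases hex : ∃ g, w ∈ M g
          · left
            obtain ⟨g, hg⟩ := hex
            have := hHM w g hg
            rw [h0] at this
            rw [this]; exact hg
          · right; exact hex
        · rintro (h | h)
          · exact hHM w 0 h
          · simp only [hH, dif_neg h]
      rw [h1]
      exact (hMm 0).union (MeasurableSet.iUnion hMm).compl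
    · have h1 : H ⁻¹' {g} = M g := by
        ext w
        simp only [Set.mem_preimage, Set.mem_singleton_iff]
        constructor
        · intro h0
          by_cases hex : ∃ g, w ∈ M g
          · obtain ⟨g', hg'⟩ := hex
            have := hHM w g' hg'
            rw [h0] at this
            rw [this]; exact hg'
          · simp only [hH, dif_neg hex] at h0
            exact absurd h0.symm hg
        · exact hHM w g
      rw [h1]; exact hMm g
  · filter_upwards [hfin, hinv, hne] with w h1 h2 h3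
    have h4 : (h1.toFinset).Nonempty := by
      obtain ⟨g, hg⟩ := h3
      exact ⟨g, by rw [Set.Finite.mem_toFinset]; exact hg⟩
    set g0 := h1.toFinset.min' h4 with hg0
    have hg0mem : (w, g0) ∈ E := by
      have := h1.toFinset.min'_mem h4
      rw [Set.Finite.mem_toFinset] at this
      exact this
    have hg0min : ∀ g' < g0, (w, g') ∉ E := by
      intro g' hg' hmem
      have h5 : g' ∈ h1.toFinset := by rw [Set.Finite.mem_toFinset]; exact hmem
      have := h1.toFinset.min'_le g' h5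
      exact absurd hg' (not_lt.2 this)
    have hw : w ∈ M g0 := ⟨hg0mem, hg0min⟩
    have hw' : Prod.map θ θ w ∈ M (g0 + (φ w.1 - φ w.2)) := by
      refine ⟨(h2 g0).2 hg0mem, ?_⟩
      intro g' hg' hmem
      have h6 : g' = (g' - (φ w.1 - φ w.2)) + (φ w.1 - φ w.2) := by abel
      rw [h6] at hmem
      refine hg0min _ ?_ ((h2 _).1 hmem)
      rw [sub_lt_iff_lt_add]
      exact hg'
    rw [hHM _ _ hw, hHM _ _ hw']

omit [LinearOrder G] [IsOrderedAddMonoid G] in
/-- separation of variables -/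
theorem quasi_coboundary_of_transfer (hθ : MeasurePreserving θ P P)
    (hmix : NatMixing P θ 2) {H : Ω × Ω → G} (hH : Measurable H)
    (hcob : ∀ᵐ w ∂(P.prod P), H (Prod.map θ θ w) = H w + (φ w.1 - φ w.2)) :
    ∃ (c : G) (h : Ω → G), Measurable h ∧ ∀ᵐ ω ∂P, φ ω = c + h (θ ω) - h ω := by
  -- K on Ω × (Ω × Ω)
  set K : Ω × (Ω × Ω) → G := fun p => H p.2 + H (p.2.2, p.1) + H (p.1, p.2.1) with hK
  set Θ : Ω × (Ω × Ω) → Ω × (Ω × Ω) := Prod.map θ (Prod.map θ θ) with hΘ
  have hΘmp : MeasurePreserving Θ (P.prod (P.prod P)) (P.prod (P.prod P)) :=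
    hθ.prod (hθ.prod hθ)
  have hΘmix : NatMixing (P.prod (P.prod P)) Θ 2 :=
    prod_mixing hθ (hθ.prod hθ) hmix (prod_mixing hθ hθ hmix hmix)
  have hKm : Measurable K := by
    refine measurable_add_G (measurable_add_G (hH.comp measurable_snd) (hH.comp ?_))
      (hH.comp ?_)
    · exact (measurable_snd.comp measurable_snd).prodMk measurable_fst
    · exact measurable_fst.prodMk (measurable_fst.comp measurable_snd)
  -- projections
  have q1 : MeasurePreserving (fun p : Ω × (Ω × Ω) => p.2) (P.prod (P.prod P)) (P.prod P) :=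
    measurePreserving_snd
  have q3 : MeasurePreserving (fun p : Ω × (Ω × Ω) => (p.1, p.2.1)) (P.prod (P.prod P))
      (P.prod P) := by
    have := (MeasurePreserving.id P).prod
      (measurePreserving_fst (μ := P) (ν := P))
    exact this
  have q2 : MeasurePreserving (fun p : Ω × (Ω × Ω) => (p.2.2, p.1)) (P.prod (P.prod P))
      (P.prod P) := by
    have h1 := (MeasurePreserving.id P).prod
      (measurePreserving_snd (μ := P) (ν := P))
    have h2 : MeasurePreserving (Prod.swap : Ω × Ω → Ω × Ω) (P.prod P) (P.prod P) :=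
      Measure.measurePreserving_swap
    exact h2.comp h1
  have hKinv : ∀ᵐ p ∂(P.prod (P.prod P)), K (Θ p) = K p := by
    have a1 := q1.quasiMeasurePreserving.ae hcob
    have a2 := q2.quasiMeasurePreserving.ae hcob
    have a3 := q3.quasiMeasurePreserving.ae hcob
    filter_upwards [a1, a2, a3] with p b1 b2 b3
    simp only [Prod.map_apply] at b1 b2 b3
    simp only [hK, hΘ, Prod.map_fst, Prod.map_snd]
    have b1' : H (θ p.2.1, θ p.2.2) = H p.2 + (φ p.2.1 - φ p.2.2) := b1
    have e1 : H (Prod.map θ θ p.2) = H p.2 + (φ p.2.1 - φ p.2.2) := b1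
    rw [e1, b2, b3]
    abel
  obtain ⟨κ, hκ⟩ := const_of_invariant hΘmp hΘmix hKm hKinv
  have hκ2 := Measure.ae_ae_of_ae_prod hκ
  obtain ⟨o, ho⟩ := hκ2.exists
  -- H (ω, ω') = a ω + b ω'
  have hsep : ∀ᵐ w ∂(P.prod P), H w = (κ - H (o, w.1)) + (- H (w.2, o)) := by
    filter_upwards [ho] with w hw
    simp only [hK] at hw
    have : H w = κ - H (w.2, o) - H (o, w.1) := by
      rw [← hw]; abel
    rw [this]; abel
  have hsep' : ∀ᵐ w ∂(P.prod P), H (Prod.map θ θ w)
      = (κ - H (o, θ w.1)) + (- H (θ w.2, o)) :=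
    (hθ.prod hθ).quasiMeasurePreserving.ae hsep
  have hfin : ∀ᵐ w ∂(P.prod P), φ w.2 - H (θ w.2, o) + H (w.2, o)
      = φ w.1 + (κ - H (o, w.1)) - (κ - H (o, θ w.1)) := by
    filter_upwards [hsep, hsep', hcob] with w h1 h2 h3
    rw [h1, h2] at h3
    have h4 : - H (θ w.2, o) = (κ - H (o, w.1)) + (- H (w.2, o)) + (φ w.1 - φ w.2)
        - (κ - H (o, θ w.1)) := by
      rw [← h3]; abel
    have h5 : φ w.2 - H (θ w.2, o) + H (w.2, o) = φ w.2 + (- H (θ w.2, o)) + H (w.2, o) := by
      abel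
    rw [h5, h4]
    abel
  have hfin2 := Measure.ae_ae_of_ae_prod hfin
  obtain ⟨o', ho'⟩ := hfin2.exists
  refine ⟨φ o' + (κ - H (o, o')) - (κ - H (o, θ o')), fun ω => H (ω, o), ?_, ?_⟩
  · exact hH.comp (measurable_id.prodMk measurable_const)
  · filter_upwards [ho'] with ω hω
    rw [← hω]
    abel

/-- either the laws of the cocycle spread out or it is a quasi-coboundary -/
theorem spread_of_not_quasi_coboundary (hθ : MeasurePreserving θ P P) (hφ : Measurable φ)
    (hmix : NatMixing P θ 2)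
    (h : ¬ ∃ (c : G) (h : Ω → G), Measurable h ∧ ∀ᵐ ω ∂P, φ ω = c + h (θ ω) - h ω) :
    Spread P θ φ := by
  by_contra hns
  obtain ⟨E, hE, h1, h2, h3⟩ := exists_invariant_set hθ hφ hmix hns
  obtain ⟨H, hH, hcob⟩ := exists_transfer hθ hE h1 h2 h3
  exact h (quasi_coboundary_of_transfer hθ hmix hH hcob)

end

end Vale.Agent.P102
end
end

section

section

namespace Vale.Agent.P102

open MeasureTheory Filter Topology

section
variable {Ω X G : Type*} [MeasurableSpace Ω] [MeasurableSpace X] [AddCommGroup G] [Countable G]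
  [MeasurableSpace G] [MeasurableSingletonClass G] [AddAction G X]
  {P : Measure Ω} {μ : Measure X} {θ : Ω → Ω} {φ : Ω → G}
  [IsProbabilityMeasure P] [IsProbabilityMeasure μ]

/-- the skew product as a map -/
def sk (X : Type*) {Ω G : Type*} [AddCommGroup G] [AddAction G X] (θ : Ω → Ω) (φ : Ω → G)
    (p : Ω × X) : Ω × X := (θ p.1, φ p.1 +ᵥ p.2)

omit [MeasurableSpace Ω] [MeasurableSpace X] [Countable G] [MeasurableSpace G]
  [MeasurableSingletonClass G] in
lemma sk_iterate (n : ℕ) (p : Ω × X) :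
    (sk X θ φ)^[n] p = (θ^[n] p.1, cs θ φ n p.1 +ᵥ p.2) := by
  induction n with
  | zero => simp [cs]
  | succ n ih =>
    rw [Function.iterate_succ_apply', ih, Function.iterate_succ_apply']
    simp only [sk]
    congr 1
    have h1 : cs θ φ (n + 1) p.1 = cs θ φ n p.1 + cs θ φ 1 (θ^[n] p.1) := cs_add n 1 p.1
    have h2 : cs θ φ 1 (θ^[n] p.1) = φ (θ^[n] p.1) := by simp [cs]
    rw [h1, h2, add_comm, add_vadd]

lemma measurable_vadd_fun (hR : ∀ v : G, MeasurePreserving (fun x : X => v +ᵥ x) μ μ)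
    {Y : Type*} [MeasurableSpace Y] {a : Y → G} (ha : Measurable a) {b : Y → X}
    (hb : Measurable b) : Measurable (fun y => a y +ᵥ b y) := by
  have h1 : Measurable (fun p : G × X => p.1 +ᵥ p.2) :=
    measurable_from_prod_countable_right fun v => (hR v).measurable
  exact h1.comp (ha.prodMk hb)

lemma sk_mp (hθ : MeasurePreserving θ P P) (hφ : Measurable φ)
    (hR : ∀ v : G, MeasurePreserving (fun x : X => v +ᵥ x) μ μ) :
    MeasurePreserving (sk X θ φ) (P.prod μ) (P.prod μ) := by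
  refine MeasurePreserving.skew_product (g := fun ω x => φ ω +ᵥ x) hθ ?_ ?_
  · exact measurable_vadd_fun hR (hφ.comp measurable_fst) measurable_snd
  · exact ae_of_all _ fun ω => (hR _).map_eq

/-- measure of a cylinder of rectangles -/
lemma rect_formula (hθ : MeasurePreserving θ P P) (hφ : Measurable φ)
    (hR : ∀ v : G, MeasurePreserving (fun x : X => v +ᵥ x) μ μ) {k : ℕ}
    {U : Fin k → Set Ω} {B : Fin k → Set X} (hU : ∀ i, MeasurableSet (U i))
    (hB : ∀ i, MeasurableSet (B i)) (t : Fin k → ℕ) :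
    (P.prod μ).real (⋂ i, ((sk X θ φ)^[t i]) ⁻¹' (U i ×ˢ B i))
      = ∫ ω, (⋂ i, (θ^[t i]) ⁻¹' (U i)).indicator (fun _ => (1:ℝ)) ω *
        corr μ (fun i => (B i).indicator (fun _ => (1:ℝ))) (fun i => cs θ φ (t i) ω) ∂P := by
  have hmp := sk_mp (P := P) (μ := μ) hθ hφ hR
  have hS : MeasurableSet (⋂ i, ((sk X θ φ)^[t i]) ⁻¹' (U i ×ˢ B i)) :=
    MeasurableSet.iInter fun i => (hmp.measurable.iterate _) ((hU i).prod (hB i))
  have h1 : (P.prod μ).real (⋂ i, ((sk X θ φ)^[t i]) ⁻¹' (U i ×ˢ B i))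
      = ∫ p, (⋂ i, ((sk X θ φ)^[t i]) ⁻¹' (U i ×ˢ B i)).indicator (fun _ => (1:ℝ)) p
        ∂(P.prod μ) := by
    rw [integral_indicator_const _ hS]
    simp only [smul_eq_mul, mul_one]
  rw [h1, integral_prod _ ((integrable_const _).indicator hS)]
  refine integral_congr_ae (ae_of_all _ fun ω => ?_)
  simp only
  unfold corr
  rw [← integral_const_mul]
  refine integral_congr_ae (ae_of_all _ fun x => ?_)
  simp only
  have hmem : ((ω, x) ∈ (⋂ i, ((sk X θ φ)^[t i]) ⁻¹' (U i ×ˢ B i))) ↔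
      (ω ∈ (⋂ i, (θ^[t i]) ⁻¹' (U i))) ∧ ∀ i, (cs θ φ (t i) ω +ᵥ x) ∈ B i := by
    simp only [Set.mem_iInter, Set.mem_preimage, sk_iterate, Set.mem_prod]
    exact forall_and
  by_cases hω : ω ∈ (⋂ i, (θ^[t i]) ⁻¹' (U i))
  · rw [Set.indicator_of_mem hω, one_mul]
    by_cases hx : ∀ i, (cs θ φ (t i) ω +ᵥ x) ∈ B i
    · rw [Set.indicator_of_mem (hmem.2 ⟨hω, hx⟩)]
      symm
      exact Finset.prod_eq_one fun i _ => Set.indicator_of_mem (hx i) _
    · rw [Set.indicator_of_notMem (fun h => hx (hmem.1 h).2)]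
      push Not at hx
      obtain ⟨i, hi⟩ := hx
      symm
      exact Finset.prod_eq_zero (Finset.mem_univ i) (Set.indicator_of_notMem hi _)
  · rw [Set.indicator_of_notMem hω, Set.indicator_of_notMem (fun h => hω (hmem.1 h).1), zero_mul]

lemma indicator_bd {Y : Type*} [MeasurableSpace Y] {B : Set Y} (hB : MeasurableSet B) :
    Bd (B.indicator (fun _ => (1:ℝ))) := by
  refine ⟨measurable_const.indicator hB, fun x => ?_⟩
  by_cases h : x ∈ B
  · rw [Set.indicator_of_mem h]; simp
  · rw [Set.indicator_of_notMem h]; simp only [abs_zero, zero_le_one]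

theorem skew_mixing_of_HK (hθ : MeasurePreserving θ P P) (hφ : Measurable φ)
    (hR : ∀ v : G, MeasurePreserving (fun x : X => v +ᵥ x) μ μ) {k : ℕ}
    (hHK : HK P μ θ φ k) (hbase : NatMixing P θ k) :
    NatMixing (P.prod μ) (sk X θ φ) k := by
  refine extend_mixing (sk X θ φ) (sk_mp hθ hφ hR)
    (Set.image2 (· ×ˢ ·) {s : Set Ω | MeasurableSet s} {t : Set X | MeasurableSet t})
    generateFrom_prod.symm isPiSystem_prod ?_ ?_
  · exact ⟨Set.univ, MeasurableSet.univ, Set.univ, MeasurableSet.univ, Set.univ_prod_univ⟩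
  · intro A hA
    choose U hU B hB hUB using hA
    have hA' : A = fun i => U i ×ˢ B i := funext fun i => (hUB i).symm
    subst hA'
    unfold ConvFor
    simp only [rect_formula hθ hφ hR hU hB]
    set f : Fin k → X → ℝ := fun i => (B i).indicator (fun _ => (1:ℝ)) with hf
    have hfb : ∀ i, Bd (f i) := fun i => indicator_bd (hB i)
    have hfi : ∀ i, ∫ x, f i x ∂μ = μ.real (B i) := by
      intro i
      simp only [hf]
      rw [integral_indicator_const _ (hB i)]
      simp
    have h1 := hHK f hfb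
    simp only [hfi] at h1
    set c : ℝ := ∏ i, μ.real (B i) with hc
    have hprod : ∏ i, (P.prod μ).real (U i ×ˢ B i) = (∏ i, P.real (U i)) * c := by
      rw [hc, ← Finset.prod_mul_distrib]
      refine Finset.prod_congr rfl fun i _ => ?_
      rw [measureReal_prod_prod]
    rw [hprod]
    set I : (Fin k → ℕ) → Set Ω := fun t => ⋂ i, (θ^[t i]) ⁻¹' (U i) with hI
    have hIm : ∀ t, MeasurableSet (I t) := fun t =>
      MeasurableSet.iInter fun i => (hθ.measurable.iterate _) (hU i)
    have h2 : Tendsto (fun t => P.real (I t) * c) (gapF k) (𝓝 ((∏ i, P.real (U i)) * c)) :=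
      (hbase U hU).mul_const c
    have h3 : Tendsto (fun t : Fin k → ℕ => (∫ ω, (I t).indicator (fun _ => (1:ℝ)) ω *
        corr μ f (fun i => cs θ φ (t i) ω) ∂P) - P.real (I t) * c) (gapF k) (𝓝 0) := by
      refine squeeze_zero_norm (fun t => ?_) h1
      rw [Real.norm_eq_abs]
      have hmc := measurable_corr (μ := μ) hθ.measurable hφ f t
      have hcb : ∀ ω, |corr μ f (fun i => cs θ φ (t i) ω)| ≤ 1 := fun ω =>
        abs_corr_le hR hfb _
      have hbdI := indicator_bd (hIm t)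
      have hi1 : Integrable (fun ω => (I t).indicator (fun _ => (1:ℝ)) ω *
        corr μ f (fun i => cs θ φ (t i) ω)) P :=
        (hbdI.mul (⟨hmc, hcb⟩ : Bd (fun ω => corr μ f (fun i => cs θ φ (t i) ω)))).integrable
      have hi2 : Integrable (fun ω => (I t).indicator (fun _ => (1:ℝ)) ω * c) P :=
        hbdI.integrable.mul_const c
      have e1 : P.real (I t) * c = ∫ ω, (I t).indicator (fun _ => (1:ℝ)) ω * c ∂P := by
        rw [integral_mul_const, integral_indicator_const _ (hIm t)]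
        simp
      rw [e1, ← integral_sub hi1 hi2]
      refine (abs_integral_le_integral_abs).trans ?_
      have hc1 : |c| ≤ 1 := by
        rw [hc, Finset.abs_prod]
        refine Finset.prod_le_one (fun i _ => abs_nonneg _) fun i _ => ?_
        rw [abs_of_nonneg measureReal_nonneg]
        exact measureReal_le_one
      refine integral_mono ?_ ?_ fun ω => ?_
      · refine integrable_of_bdd (((hbdI.1.mul hmc).sub (hbdI.1.mul_const c)).abs) 2 fun ω => ?_
        rw [abs_abs]
        have e2 : (I t).indicator (fun _ => (1:ℝ)) ω * corr μ f (fun i => cs θ φ (t i) ω)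
            - (I t).indicator (fun _ => (1:ℝ)) ω * c = (I t).indicator (fun _ => (1:ℝ)) ω *
            (corr μ f (fun i => cs θ φ (t i) ω) - c) := by ring
        have h5 : |corr μ f (fun i => cs θ φ (t i) ω) - c| ≤ 2 := by
          refine (abs_sub _ _).trans ?_
          linarith only [hc1, hcb ω]
        calc |(I t).indicator (fun _ => (1:ℝ)) ω * corr μ f (fun i => cs θ φ (t i) ω)
            - (I t).indicator (fun _ => (1:ℝ)) ω * c| = |(I t).indicator (fun _ => (1:ℝ)) ω| *
            |corr μ f (fun i => cs θ φ (t i) ω) - c| := by rw [e2, abs_mul]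
          _ ≤ 1 * 2 := mul_le_mul (hbdI.2 ω) h5 (abs_nonneg _) zero_le_one
          _ = 2 := by norm_num
      · refine integrable_of_bdd ((hmc.sub_const c).abs) 2 fun ω => ?_
        rw [abs_abs]
        refine (abs_sub _ _).trans ?_
        linarith only [hc1, hcb ω]
      · simp only
        have e2 : (I t).indicator (fun _ => (1:ℝ)) ω * corr μ f (fun i => cs θ φ (t i) ω)
            - (I t).indicator (fun _ => (1:ℝ)) ω * c = (I t).indicator (fun _ => (1:ℝ)) ω *
            (corr μ f (fun i => cs θ φ (t i) ω) - c) := by ring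
        rw [e2, abs_mul]
        calc |(I t).indicator (fun _ => (1:ℝ)) ω| * |corr μ f (fun i => cs θ φ (t i) ω) - c|
            ≤ 1 * |corr μ f (fun i => cs θ φ (t i) ω) - c| :=
              mul_le_mul_of_nonneg_right (hbdI.2 ω) (abs_nonneg _)
          _ = _ := one_mul _
    have h4 := h3.add h2
    simp only [sub_add_cancel, zero_add] at h4
    exact h4

theorem base_mixing_of_skew (hθ : MeasurePreserving θ P P) (hφ : Measurable φ)
    (hR : ∀ v : G, MeasurePreserving (fun x : X => v +ᵥ x) μ μ) {k : ℕ}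
    (h : NatMixing (P.prod μ) (sk X θ φ) k) : NatMixing P θ k := by
  intro U hU
  have h1 := h (fun i => U i ×ˢ Set.univ) (fun i => (hU i).prod MeasurableSet.univ)
  unfold ConvFor at h1 ⊢
  have e1 : ∀ t : Fin k → ℕ, (⋂ i, ((sk X θ φ)^[t i]) ⁻¹' (U i ×ˢ (Set.univ : Set X)))
      = (⋂ i, (θ^[t i]) ⁻¹' (U i)) ×ˢ Set.univ := by
    intro t
    ext p
    simp only [Set.mem_iInter, Set.mem_preimage, sk_iterate, Set.mem_prod, Set.mem_univ, and_true]
  simp only [e1, measureReal_prod_prod, probReal_univ, mul_one] at h1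
  exact h1

end

end Vale.Agent.P102
end
end

section

section

namespace Vale.Agent.P102

open MeasureTheory Filter Topology

section lower_order
variable {α : Type*} [MeasurableSpace α] {μ : Measure α} [IsProbabilityMeasure μ]

lemma nat_mixing_zero (T : α → α) : NatMixing μ T 0 := by
  intro A _
  unfold ConvFor
  have : (fun t : Fin 0 → ℕ => μ.real (⋂ i, (T^[t i]) ⁻¹' A i)) = fun _ => 1 := by
    funext t
    simp
  rw [this]
  simpa only [Finset.univ_eq_empty, Finset.prod_empty] using tendsto_const_nhds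

lemma nat_mixing_one {T : α → α} (hT : MeasurePreserving T μ μ) : NatMixing μ T 1 := by
  intro A hA
  unfold ConvFor
  have : (fun t : Fin 1 → ℕ => μ.real (⋂ i, (T^[t i]) ⁻¹' A i)) = fun _ => μ.real (A 0) := by
    funext t
    have h1 : (⋂ i, (T^[t i]) ⁻¹' A i) = (T^[t 0]) ⁻¹' A 0 := by
      ext x; simp [Fin.forall_fin_one]
    rw [h1, measureReal_def, (hT.iterate _).measure_preimage (hA 0).nullMeasurableSet]
    rfl
  rw [this]
  simpa only [Fin.isValue, Finset.univ_unique, Fin.default_eq_zero, Finset.prod_singleton] using     tendsto_const_nhds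

lemma nat_mixing_pred {T : α → α} {k : ℕ} (hk : 1 ≤ k) (h : NatMixing μ T (k + 1)) :
    NatMixing μ T k := by
  obtain ⟨m, rfl⟩ : ∃ m, k = m + 1 := ⟨k - 1, by omega⟩
  intro A hA
  have h1 := h (Fin.snoc A Set.univ) (by
    intro i
    refine Fin.lastCases ?_ (fun j => ?_) i
    · rw [Fin.snoc_last]; exact MeasurableSet.univ
    · rw [Fin.snoc_castSucc]; exact hA j)
  unfold ConvFor at h1 ⊢
  rw [Metric.tendsto_nhds] at h1 ⊢
  intro ε hε
  have h2 := h1 ε hε
  rw [eventually_gap] at h2 ⊢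
  obtain ⟨N, hN⟩ := h2
  refine ⟨N, fun t ht => ?_⟩
  have h3 := hN (Fin.snoc t (t (Fin.last m) + N)) (by
    intro i j hij
    induction j using Fin.lastCases with
    | last =>
      induction i using Fin.lastCases with
      | last => exact absurd hij (lt_irrefl _)
      | cast i =>
        rw [Fin.snoc_last, Fin.snoc_castSucc]
        rcases eq_or_ne i (Fin.last m) with hi | hi
        · rw [hi]
        · have := ht i (Fin.last m) (Fin.lt_last_iff_ne_last.2 hi)
          omega
    | cast j =>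
      induction i using Fin.lastCases with
      | last =>
        exfalso
        have : j.castSucc < Fin.last (m + 1) := Fin.castSucc_lt_last j
        exact absurd (lt_trans hij this) (lt_irrefl _)
      | cast i =>
        rw [Fin.snoc_castSucc, Fin.snoc_castSucc]
        exact ht i j (by simpa using hij))
  have e1 : (⋂ i, (T^[(Fin.snoc t (t (Fin.last m) + N) : Fin (m + 1 + 1) → ℕ) i]) ⁻¹'
      (Fin.snoc A Set.univ : Fin (m + 1 + 1) → Set α) i) = ⋂ i, (T^[t i]) ⁻¹' A i := by
    ext x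
    simp only [Set.mem_iInter, Set.mem_preimage]
    rw [Fin.forall_fin_succ']
    simp only [Fin.snoc_castSucc, Fin.snoc_last, Set.mem_univ, and_true]
  have e2 : (∏ i, μ.real ((Fin.snoc A Set.univ : Fin (m + 1 + 1) → Set α) i))
      = ∏ i, μ.real (A i) := by
    rw [Fin.prod_univ_castSucc]
    simp
  rw [e1, e2] at h3
  exact h3

lemma nat_mixing_two {T : α → α} {k : ℕ} (hk : 2 ≤ k) (h : NatMixing μ T k) :
    NatMixing μ T 2 := by
  induction k, hk using Nat.le_induction with
  | base => exact h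
  | succ k hk ih => exact ih (nat_mixing_pred (by omega) h)

end lower_order

section
variable {Ω X G : Type*} [MeasurableSpace Ω] [MeasurableSpace X] [AddCommGroup G] [Countable G]
  [MeasurableSpace G] [MeasurableSingletonClass G] [AddAction G X]
  {P : Measure Ω} {μ : Measure X} {θ : Ω → Ω} {φ ψ : Ω → G}
  [IsProbabilityMeasure P] [IsProbabilityMeasure μ]

/-- cohomologous cocycles give skew products with the same mixing properties -/
lemma mixing_of_cohomologous (hθ : MeasurePreserving θ P P) (hφ : Measurable φ)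
    (hR : ∀ v : G, MeasurePreserving (fun x : X => v +ᵥ x) μ μ)
    {h : Ω → G} (hh : Measurable h) (hcoh : ∀ᵐ ω ∂P, φ ω = ψ ω + h (θ ω) - h ω)
    {k : ℕ} (hmix : NatMixing (P.prod μ) (sk X θ ψ) k) :
    NatMixing (P.prod μ) (sk X θ φ) k := by
  set J : Ω × X → Ω × X := fun p => (p.1, h p.1 +ᵥ p.2) with hJ
  have hJmp : MeasurePreserving J (P.prod μ) (P.prod μ) := by
    refine MeasurePreserving.skew_product (g := fun ω x => h ω +ᵥ x)
      (MeasurePreserving.id P) ?_ ?_
    · exact measurable_vadd_fun hR (hh.comp measurable_fst) measurable_snd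
    · exact ae_of_all _ fun ω => (hR _).map_eq
  have hall : ∀ᵐ ω ∂P, ∀ n : ℕ, φ (θ^[n] ω) = ψ (θ^[n] ω) + h (θ (θ^[n] ω)) - h (θ^[n] ω) := by
    rw [ae_all_iff]
    intro n
    exact (hθ.iterate n).quasiMeasurePreserving.ae hcoh
  have hcs : ∀ᵐ ω ∂P, ∀ n : ℕ, cs θ φ n ω = cs θ ψ n ω + h (θ^[n] ω) - h ω := by
    filter_upwards [hall] with ω hω
    intro n
    induction n with
    | zero => simp [cs]
    | succ n ih =>
      have e1 : ∀ χ : Ω → G, cs θ χ (n + 1) ω = cs θ χ n ω + χ (θ^[n] ω) := by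
        intro χ
        rw [cs_add n 1 ω]
        congr 1
        simp [cs]
      rw [e1, e1, ih, hω n, Function.iterate_succ_apply']
      abel
  have hconj : ∀ᵐ p ∂(P.prod μ), ∀ n : ℕ, (sk X θ φ)^[n] (J p) = J ((sk X θ ψ)^[n] p) := by
    have h1 : ∀ᵐ p ∂(P.prod μ), ∀ n : ℕ, cs θ φ n p.1 = cs θ ψ n p.1 + h (θ^[n] p.1) - h p.1 :=
      (measurePreserving_fst (μ := P) (ν := μ)).quasiMeasurePreserving.ae hcs
    filter_upwards [h1] with p hp
    intro n
    rw [sk_iterate, sk_iterate]
    simp only [hJ]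
    congr 1
    rw [← add_vadd, ← add_vadd, hp n]
    congr 1
    abel
  intro A hA
  have h2 := hmix (fun i => J ⁻¹' A i) (fun i => hJmp.measurable (hA i))
  unfold ConvFor at h2 ⊢
  have e1 : ∀ i, (P.prod μ).real (J ⁻¹' A i) = (P.prod μ).real (A i) := by
    intro i
    rw [measureReal_def, hJmp.measure_preimage (hA i).nullMeasurableSet]
    rfl
  simp only [e1] at h2
  refine h2.congr fun t => ?_
  have hm : MeasurableSet (⋂ i, ((sk X θ φ)^[t i]) ⁻¹' A i) :=
    MeasurableSet.iInter fun i =>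
      ((sk_mp (P := P) (μ := μ) hθ hφ hR).measurable.iterate _) (hA i)
  have e2 : (P.prod μ).real (⋂ i, ((sk X θ φ)^[t i]) ⁻¹' A i)
      = (P.prod μ).real (J ⁻¹' (⋂ i, ((sk X θ φ)^[t i]) ⁻¹' A i)) := by
    rw [measureReal_def, measureReal_def, hJmp.measure_preimage hm.nullMeasurableSet]
  rw [e2]
  refine measureReal_congr ?_
  filter_upwards [hconj] with p hp
  have : (p ∈ (⋂ i, ((sk X θ ψ)^[t i]) ⁻¹' (J ⁻¹' A i)))
      = (p ∈ (J ⁻¹' (⋂ i, ((sk X θ φ)^[t i]) ⁻¹' A i))) := by
    simp only [Set.mem_iInter, Set.mem_preimage, hp]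
  exact this

lemma sk_const (c : G) : sk X θ (fun _ => c) = Prod.map θ (fun x : X => c +ᵥ x) := rfl

lemma factor_snd {S : X → X} {k : ℕ}
    (h : NatMixing (P.prod μ) (Prod.map θ S) k) : NatMixing μ S k := by
  intro B hB
  have h1 := h (fun i => Set.univ ×ˢ B i) (fun i => MeasurableSet.univ.prod (hB i))
  unfold ConvFor at h1 ⊢
  have e1 : ∀ t : Fin k → ℕ, (⋂ i, ((Prod.map θ S)^[t i]) ⁻¹' ((Set.univ : Set Ω) ×ˢ B i))
      = Set.univ ×ˢ (⋂ i, (S^[t i]) ⁻¹' (B i)) := by
    intro t
    ext p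
    simp only [Prod.map_iterate, Set.mem_iInter, Set.mem_preimage, Set.mem_prod, Prod.map_fst, Set.mem_univ, Prod.map_snd, true_and]
  simp only [e1, measureReal_prod_prod, probReal_univ, one_mul] at h1
  exact h1

end

noncomputable section
variable {Ω X : Type*} [MeasurableSpace Ω] [MeasurableSpace X] {d : ℕ}
  [AddAction (Fin d → ℤ) X] {P : Measure Ω} {μ : Measure X} {θ : Ω → Ω}
  {φ : Ω → (Fin d → ℤ)} [IsProbabilityMeasure P] [IsProbabilityMeasure μ]

/-- lexicographic order on `ℤ^d` -/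
@[reducible] def lexLO (d : ℕ) : LinearOrder (Fin d → ℤ) :=
  (inferInstance : LinearOrder (Lex (Fin d → ℤ)))

theorem lexOAM (d : ℕ) : @IsOrderedAddMonoid (Fin d → ℤ) _ (lexLO d).toPartialOrder.toPreorder :=
  (inferInstance : IsOrderedAddMonoid (Lex (Fin d → ℤ)))

theorem spread_Zd (hθ : MeasurePreserving θ P P)
    (hφ : Measurable φ) (hmix : NatMixing P θ 2)
    (h : ¬ ∃ (c : Fin d → ℤ) (h : Ω → (Fin d → ℤ)), Measurable h ∧
      ∀ᵐ ω ∂P, φ ω = c + h (θ ω) - h ω) :
    Spread P θ φ :=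
  @spread_of_not_quasi_coboundary Ω (Fin d → ℤ) _ _ _ _ _ (lexLO d) (lexOAM d) P θ φ _ hθ hφ hmix h

theorem main_nat (hθ : MeasurePreserving θ P P) (hφ : Measurable φ)
    (hR : ∀ v : Fin d → ℤ, MeasurePreserving (fun x : X => v +ᵥ x) μ μ)
    (hmixR : ∀ A B, MeasurableSet A → MeasurableSet B →
      Tendsto (fun v : Fin d → ℤ => μ.real (A ∩ (fun x : X => v +ᵥ x) ⁻¹' B)) cofinite
        (𝓝 (μ.real A * μ.real B))) (k : ℕ) :
    NatMixing (P.prod μ) (sk X θ φ) k ↔ NatMixing P θ k ∧
      ∀ c : Fin d → ℤ, (∃ h : Ω → (Fin d → ℤ), Measurable h ∧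
        ∀ᵐ ω ∂P, φ ω = c + h (θ ω) - h ω) → NatMixing μ (fun x : X => c +ᵥ x) k := by
  constructor
  · intro hT
    refine ⟨base_mixing_of_skew hθ hφ hR hT, ?_⟩
    rintro c ⟨h, hh, hcoh⟩
    have hneg : Measurable (fun ω => - h ω) := by
      have h1 : Measurable (fun g : Fin d → ℤ => -g) := Measurable.of_discrete
      exact h1.comp hh
    have h1 : NatMixing (P.prod μ) (sk X θ (fun _ => c)) k := by
      refine mixing_of_cohomologous (ψ := φ) hθ measurable_const hR hneg ?_ hT
      filter_upwards [hcoh] with ω hω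
      rw [hω]; abel
    rw [sk_const] at h1
    exact factor_snd h1
  · rintro ⟨hbase, hc⟩
    rcases Nat.lt_or_ge k 2 with hk | hk
    · interval_cases k
      · exact nat_mixing_zero _
      · exact nat_mixing_one (sk_mp hθ hφ hR)
    · have h2 := nat_mixing_two hk hbase
      by_cases hex : ∃ (c : Fin d → ℤ) (h : Ω → (Fin d → ℤ)), Measurable h ∧
          ∀ᵐ ω ∂P, φ ω = c + h (θ ω) - h ω
      · obtain ⟨c, h, hh, hcoh⟩ := hex
        refine mixing_of_cohomologous (ψ := fun _ => c) hθ hφ hR hh hcoh ?_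
        rw [sk_const]
        exact prod_mixing hθ (hR c) hbase (hc c ⟨h, hh, hcoh⟩)
      · have hsp := spread_Zd hθ hφ h2 hex
        have hstar := star_of_spread hθ hφ hR h2 hmixR hsp
        exact skew_mixing_of_HK hθ hφ hR (HK_all hθ hφ hR hstar k) hbase

end

end Vale.Agent.P102
end
end

section

section

namespace Vale.Agent.P102

open MeasureTheory Filter Topology

section
variable {Ω X : Type*} [MeasurableSpace Ω] [MeasurableSpace X] {d : ℕ}
  [AddAction (Fin d → ℤ) X] {P : Measure Ω} {μ : Measure X}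
  [IsProbabilityMeasure P] [IsProbabilityMeasure μ]

lemma skewProduct_coe (θ : Equiv.Perm Ω) (φ : Ω → (Fin d → ℤ)) :
    (skewProduct X θ φ : Ω × X → Ω × X) = sk X θ φ := rfl

lemma measurable_skew_symm {θ : Equiv.Perm Ω} (hθ' : Measurable θ.symm)
    {φ : Ω → (Fin d → ℤ)} (hφ : Measurable φ)
    (hR : ∀ v : Fin d → ℤ, MeasurePreserving (fun x : X => v +ᵥ x) μ μ) :
    Measurable (skewProduct X θ φ).symm := by
  have h1 : ((skewProduct X θ φ).symm : Ω × X → Ω × X)
      = fun p => (θ.symm p.1, (-φ (θ.symm p.1)) +ᵥ p.2) := rfl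
  rw [h1]
  have hneg : Measurable (fun g : Fin d → ℤ => -g) := Measurable.of_discrete
  exact (hθ'.comp measurable_fst).prodMk (measurable_vadd_fun hR
    (hneg.comp (hφ.comp (hθ'.comp measurable_fst))) measurable_snd)

theorem main {θ : Ω ≃ᵐ Ω} (hθ : MeasurePreserving θ P P) (hR : MixingAction μ d)
    {φ : Ω → (Fin d → ℤ)} (hφ : Measurable φ) :
    MeasurePreserving (skewProduct X θ.toEquiv φ) (P.prod μ) (P.prod μ) ∧
    Measurable (skewProduct X θ.toEquiv φ).symm ∧
    ∀ k : ℕ, MixingOfOrder (P.prod μ) (skewProduct X θ.toEquiv φ) k ↔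
      MixingOfOrder P θ.toEquiv k ∧
      ∀ c : Fin d → ℤ, CohomologousToConst P θ.toEquiv φ c →
        MixingOfOrder μ (AddAction.toPerm c : Equiv.Perm X) k := by
  have hmp : MeasurePreserving (skewProduct X θ.toEquiv φ) (P.prod μ) (P.prod μ) :=
    sk_mp hθ hφ hR.1
  have hsymm : Measurable (skewProduct X θ.toEquiv φ).symm :=
    measurable_skew_symm θ.symm.measurable hφ hR.1
  refine ⟨hmp, hsymm, fun k => ?_⟩
  have h1 := mixing_iff_nat (skewProduct X θ.toEquiv φ) hmp hsymm k
  have h2 := mixing_iff_nat (μ := P) θ.toEquiv hθ θ.symm.measurable k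
  have h3 : ∀ c : Fin d → ℤ, MixingOfOrder μ (AddAction.toPerm c : Equiv.Perm X) k ↔
      NatMixing μ (fun x : X => c +ᵥ x) k := by
    intro c
    refine mixing_iff_nat (μ := μ) (AddAction.toPerm c : Equiv.Perm X) (hR.1 c) ?_ k
    exact (hR.1 (-c)).measurable
  rw [h1, h2]
  have h4 := main_nat (P := P) (μ := μ) (θ := θ) hθ hφ hR.1 hR.2 k
  rw [skewProduct_coe]
  refine h4.trans ?_
  refine and_congr_right fun _ => ?_
  refine forall_congr' fun c => ?_
  rw [h3 c]
  rfl

end

end Vale.Agent.P102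
end
end

section

section

namespace Vale.Agent.P102.Ext

open MeasureTheory

/-- The `n`-th iterate (`n` an integer) of an invertible bimeasurable map `T`. -/
def iter {Ω : Type*} [MeasurableSpace Ω] (T : Ω ≃ᵐ Ω) (n : ℤ) : Ω → Ω :=
  ((T.toEquiv : Equiv.Perm Ω) ^ n : Equiv.Perm Ω)

/-- Mixing of order `k` of the transformation `T` of `(Ω, μ)`:
`μ (⋂ i, T^{-t i} A i) → ∏ i, μ (A i)` as the minimal gap of `t 0 < t 1 < ... < t (k-1)`
tends to infinity. -/
def MixingOfOrder {Ω : Type*} [MeasurableSpace Ω] (μ : Measure Ω) (T : Ω ≃ᵐ Ω) (k : ℕ) : Prop :=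
  ∀ A : Fin k → Set Ω, (∀ i, MeasurableSet (A i)) → ∀ ε : ℝ, 0 < ε → ∃ N : ℤ,
    ∀ t : Fin k → ℤ, (∀ i j : Fin k, i < j → N ≤ t j - t i) →
      |μ.real (⋂ i, iter T (t i) ⁻¹' A i) - ∏ i, μ.real (A i)| < ε

end Vale.Agent.P102.Ext
end
end

section

section

namespace Vale.Agent.P102.Ext

open MeasureTheory Filter Topology

variable {Ω : Type*} [MeasurableSpace Ω]

theorem iter_zero (T : Ω ≃ᵐ Ω) (x : Ω) : iter T 0 x = x := by
  simp only [iter, zpow_ofNat, pow_zero, Equiv.Perm.coe_one, id_eq]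

theorem iter_add (T : Ω ≃ᵐ Ω) (m n : ℤ) (x : Ω) : iter T (m + n) x = iter T m (iter T n x) := by
  simp only [iter, zpow_add, Equiv.Perm.coe_mul, Function.comp_apply]

theorem iter_neg_apply (T : Ω ≃ᵐ Ω) (n : ℤ) (x : Ω) : iter T (-n) (iter T n x) = x := by
  rw [← iter_add]; simp [iter_zero]

theorem iter_apply_neg (T : Ω ≃ᵐ Ω) (n : ℤ) (x : Ω) : iter T n (iter T (-n) x) = x := by
  rw [← iter_add]; simp [iter_zero]

theorem iter_one (T : Ω ≃ᵐ Ω) : iter T 1 = T := by
  funext x; simp [iter]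

theorem iter_natCast_succ (T : Ω ≃ᵐ Ω) (n : ℕ) (x : Ω) :
    iter T ((n + 1 : ℕ) : ℤ) x = T (iter T n x) := by
  rw [show ((n + 1 : ℕ) : ℤ) = 1 + (n : ℤ) by push_cast; ring, iter_add, iter_one]

theorem iter_neg_one (T : Ω ≃ᵐ Ω) : iter T (-1) = T.symm := by
  funext x
  apply T.injective
  have h := iter_apply_neg T 1 x
  rw [iter_one] at h
  rw [h]; simp

theorem measurable_iter (T : Ω ≃ᵐ Ω) (n : ℤ) : Measurable (iter T n) := by
  have hnat : ∀ n : ℕ, Measurable (iter T (n : ℤ)) := by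
    intro n
    induction n with
    | zero =>
      have : iter T ((0 : ℕ) : ℤ) = id := by funext x; simp [iter_zero]
      rw [this]; exact measurable_id
    | succ n ih =>
      have : iter T ((n + 1 : ℕ) : ℤ) = T ∘ iter T n := by
        funext x; exact iter_natCast_succ T n x
      rw [this]; exact T.measurable.comp ih
  have hneg : ∀ n : ℕ, Measurable (iter T (-(n : ℤ))) := by
    intro n
    induction n with
    | zero =>
      have : iter T (-((0 : ℕ) : ℤ)) = id := by funext x; simp [iter_zero]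
      rw [this]; exact measurable_id
    | succ n ih =>
      have : iter T (-((n + 1 : ℕ) : ℤ)) = T.symm ∘ iter T (-(n : ℤ)) := by
        funext x
        rw [show (-((n + 1 : ℕ) : ℤ)) = -1 + (-(n : ℤ)) by push_cast; ring, iter_add, iter_neg_one]
        rfl
      rw [this]; exact T.symm.measurable.comp ih
  rcases n with n | n
  · exact hnat n
  · have := hneg (n + 1)
    simpa only [Int.negSucc_eq, neg_add_rev, Int.reduceNeg, Nat.cast_add, Nat.cast_one] using this

theorem mp_iter {μ : Measure Ω} (T : Ω ≃ᵐ Ω) (hT : MeasurePreserving T μ μ) (n : ℤ) :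
    MeasurePreserving (iter T n) μ μ := by
  have hTs : MeasurePreserving T.symm μ μ := hT.symm T
  have hnat : ∀ n : ℕ, MeasurePreserving (iter T (n : ℤ)) μ μ := by
    intro n
    induction n with
    | zero =>
      have : iter T ((0 : ℕ) : ℤ) = id := by funext x; simp [iter_zero]
      rw [this]; exact MeasurePreserving.id μ
    | succ n ih =>
      have : iter T ((n + 1 : ℕ) : ℤ) = T ∘ iter T n := by
        funext x; exact iter_natCast_succ T n x
      rw [this]; exact hT.comp ih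
  have hneg : ∀ n : ℕ, MeasurePreserving (iter T (-(n : ℤ))) μ μ := by
    intro n
    induction n with
    | zero =>
      have : iter T (-((0 : ℕ) : ℤ)) = id := by funext x; simp [iter_zero]
      rw [this]; exact MeasurePreserving.id μ
    | succ n ih =>
      have : iter T (-((n + 1 : ℕ) : ℤ)) = T.symm ∘ iter T (-(n : ℤ)) := by
        funext x
        rw [show (-((n + 1 : ℕ) : ℤ)) = -1 + (-(n : ℤ)) by push_cast; ring, iter_add, iter_neg_one]
        rfl
      rw [this]; exact hTs.comp ih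
  rcases n with n | n
  · exact hnat n
  · have := hneg (n + 1)
    simpa only [Int.negSucc_eq, neg_add_rev, Int.reduceNeg, Nat.cast_add, Nat.cast_one] using this

/-- All gaps of the sequence of time vectors tend to infinity. -/
def Gaps {k : ℕ} (t : ℕ → Fin k → ℤ) : Prop :=
  ∀ i j : Fin k, i < j → Tendsto (fun n => t n j - t n i) atTop atTop

theorem MixingOfOrder.tendsto_set {μ : Measure Ω} {T : Ω ≃ᵐ Ω} {k : ℕ} (h : MixingOfOrder μ T k)
    {t : ℕ → Fin k → ℤ} (ht : Gaps t) (A : Fin k → Set Ω) (hA : ∀ i, MeasurableSet (A i)) :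
    Tendsto (fun n => μ.real (⋂ i, iter T (t n i) ⁻¹' A i)) atTop (𝓝 (∏ i, μ.real (A i))) := by
  rw [Metric.tendsto_atTop]
  intro ε hε
  obtain ⟨N, hN⟩ := h A hA ε hε
  have : ∀ᶠ n in atTop, ∀ i j : Fin k, i < j → N ≤ t n j - t n i := by
    rw [eventually_all]; intro i
    rw [eventually_all]; intro j
    by_cases hij : i < j
    · filter_upwards [(ht i j hij).eventually_ge_atTop N] with n hn _ using hn
    · exact Eventually.of_forall fun n h => absurd h hij
  obtain ⟨n0, hn0⟩ := eventually_atTop.1 this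
  refine ⟨n0, fun n hn => ?_⟩
  rw [Real.dist_eq]
  exact hN (t n) (hn0 n hn)

end Vale.Agent.P102.Ext
end
end

section

section

namespace Vale.Agent.P102.Ext

open MeasureTheory Filter Topology

variable {Ω : Type*} [MeasurableSpace Ω]

theorem closed_aux {E : Type*} [NormedAddCommGroup E] (Φ : ℕ → E → ℂ) (Ψ : E → ℂ) (C : ℝ)
    (hΦ : ∀ n f g, ‖Φ n f - Φ n g‖ ≤ C * ‖f - g‖) (hΨ : ∀ f g, ‖Ψ f - Ψ g‖ ≤ C * ‖f - g‖) :
    IsClosed {f | Tendsto (fun n => Φ n f) atTop (𝓝 (Ψ f))} := by
  rw [← isSeqClosed_iff_isClosed]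
  intro u f hu huf
  simp only [Set.mem_ofPred_eq] at hu ⊢
  rw [Metric.tendsto_atTop]
  intro ε hε
  have hC : 0 ≤ |C| := abs_nonneg C
  have h1 : ∀ᶠ m in atTop, ‖u m - f‖ < ε / (4 * (|C| + 1)) := by
    have := (tendsto_iff_norm_sub_tendsto_zero.1 huf)
    exact this.eventually_lt_const (by positivity)
  obtain ⟨m, hm⟩ := h1.exists
  obtain ⟨n0, hn0⟩ := (Metric.tendsto_atTop.1 (hu m)) (ε / 4) (by positivity)
  refine ⟨n0, fun n hn => ?_⟩
  have hCm : |C| * ‖u m - f‖ ≤ ε / 4 := by
    have h2 : |C| * ‖u m - f‖ ≤ |C| * (ε / (4 * (|C| + 1))) := by (clear * - hm; gcongr)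
    have h3 : |C| * (ε / (4 * (|C| + 1))) ≤ ε / 4 := by
      rw [mul_div_assoc', div_le_div_iff₀ (by positivity) (by positivity)]
      nlinarith only [hε]
    linarith only [h2, h3]
  have e1 : ‖Φ n f - Φ n (u m)‖ ≤ ε / 4 := by
    refine (hΦ n f (u m)).trans (le_trans ?_ hCm)
    rw [norm_sub_rev]; gcongr; exact le_abs_self C
  have e2 : ‖Ψ (u m) - Ψ f‖ ≤ ε / 4 := by
    refine (hΨ (u m) f).trans (le_trans ?_ hCm)
    gcongr; exact le_abs_self C
  have e3 : ‖Φ n (u m) - Ψ (u m)‖ < ε / 4 := by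
    have := hn0 n hn
    rwa [dist_eq_norm] at this
  rw [dist_eq_norm]
  calc ‖Φ n f - Ψ f‖ = ‖(Φ n f - Φ n (u m)) + (Φ n (u m) - Ψ (u m)) + (Ψ (u m) - Ψ f)‖ := by
        congr 1; ring
    _ ≤ ‖Φ n f - Φ n (u m)‖ + ‖Φ n (u m) - Ψ (u m)‖ + ‖Ψ (u m) - Ψ f‖ := norm_add₃_le
    _ < ε := by linarith only [hε, e1, e2, e3]

/-- product of bounded functions is bounded -/
theorem norm_prod_le_of_bdd {ι : Type*} (s : Finset ι) (a : ι → ℂ) (C : ι → ℝ)
    (h : ∀ i ∈ s, ‖a i‖ ≤ C i) : ‖∏ i ∈ s, a i‖ ≤ ∏ i ∈ s, C i := by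
  rw [norm_prod]
  exact Finset.prod_le_prod (fun i _ => norm_nonneg _) h

theorem integrable_prod_bdd {μ : Measure Ω} [IsProbabilityMeasure μ] {ι : Type*} (s : Finset ι)
    (f : ι → Ω → ℂ) (hf : ∀ i ∈ s, Measurable (f i)) (C : ι → ℝ) (hC : ∀ i ∈ s, ∀ x, ‖f i x‖ ≤ C i) :
    Integrable (fun x => ∏ i ∈ s, f i x) μ := by
  refine Integrable.of_bound (Finset.measurable_prod s hf).aestronglyMeasurable (∏ i ∈ s, C i) ?_
  exact Eventually.of_forall fun x => norm_prod_le_of_bdd s _ C (fun i hi => hC i hi x)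

/-- A `k`-tuple version of mixing, replacing the indicator at one place by an integrable function. -/
theorem tendsto_step {μ : Measure Ω} [IsProbabilityMeasure μ] {T : Ω ≃ᵐ Ω}
    (hT : MeasurePreserving T μ μ) (a : ℕ → ℤ) (G : ℕ → Ω → ℂ) (hG : ∀ n, Measurable (G n))
    (C : ℝ) (hC : ∀ n x, ‖G n x‖ ≤ C) (L : ℂ)
    (h : ∀ A : Set Ω, MeasurableSet A → Tendsto
      (fun n => ∫ x, A.indicator (fun _ => (1 : ℂ)) (iter T (a n) x) * G n x ∂μ) atTop
      (𝓝 ((∫ x, A.indicator (fun _ => (1 : ℂ)) x ∂μ) * L)))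
    (f : Ω → ℂ) (hf : Integrable f μ) :
    Tendsto (fun n => ∫ x, f (iter T (a n) x) * G n x ∂μ) atTop (𝓝 ((∫ x, f x ∂μ) * L)) := by
  have hint : ∀ (g : Ω → ℂ), Integrable g μ → ∀ n,
      Integrable (fun x => g (iter T (a n) x) * G n x) μ := by
    intro g hg n
    have h1 : Integrable (fun x => g (iter T (a n) x)) μ := (mp_iter T hT (a n)).integrable_comp_of_integrable hg
    exact h1.mul_bdd (hG n).aestronglyMeasurable (Eventually.of_forall (hC n))
  have hbound : ∀ (g : Ω → ℂ), Integrable g μ → ∀ n,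
      ‖∫ x, g (iter T (a n) x) * G n x ∂μ‖ ≤ C * ∫ x, ‖g x‖ ∂μ := by
    intro g hg n
    have h1 : Integrable (fun x => g (iter T (a n) x)) μ := (mp_iter T hT (a n)).integrable_comp_of_integrable hg
    calc ‖∫ x, g (iter T (a n) x) * G n x ∂μ‖ ≤ ∫ x, ‖g (iter T (a n) x) * G n x‖ ∂μ :=
          norm_integral_le_integral_norm _
      _ ≤ ∫ x, C * ‖g (iter T (a n) x)‖ ∂μ := by
          refine integral_mono (hint g hg n).norm (h1.norm.const_mul C) fun x => ?_
          simp only [norm_mul]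
          rw [mul_comm]
          gcongr
          exact hC n x
      _ = C * ∫ x, ‖g (iter T (a n) x)‖ ∂μ := integral_const_mul _ _
      _ = C * ∫ x, ‖g x‖ ∂μ := by
          congr 1
          have := integral_map (μ := μ) (φ := iter T (a n)) (measurable_iter T (a n)).aemeasurable
            (f := fun x => ‖g x‖) (by rw [(mp_iter T hT (a n)).map_eq]; exact hg.norm.aestronglyMeasurable)
          rw [(mp_iter T hT (a n)).map_eq] at this
          exact this.symm
  refine Integrable.induction (P := fun f => Tendsto (fun n => ∫ x, f (iter T (a n) x) * G n x ∂μ) atTop (𝓝 ((∫ x, f x ∂μ) * L)))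
    ?_ ?_ ?_ ?_ hf
  · intro c A hA _
    have := (h A hA).const_mul c
    refine (this.congr fun n => ?_).trans_eq ?_
    · rw [← integral_const_mul]
      congr 1; funext x
      by_cases hx : iter T (a n) x ∈ A <;> simp [hx, Set.indicator]
    · congr 1
      rw [← mul_assoc, ← integral_const_mul]
      congr 2; funext x
      by_cases hx : x ∈ A <;> simp [hx, Set.indicator]
  · intro f g _ hf hg h1 h2
    have := h1.add h2
    refine (this.congr fun n => ?_).trans_eq ?_
    · rw [← integral_add (hint f hf n) (hint g hg n)]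
      congr 1; funext x; simp [add_mul]
    · congr 1
      rw [← add_mul, ← integral_add hf hg]
      rfl
  · refine closed_aux (E := Lp ℂ 1 μ) (fun n f => ∫ x, f (iter T (a n) x) * G n x ∂μ)
      (fun f => (∫ x, f x ∂μ) * L) (max C ‖L‖) ?_ ?_
    · intro n f g
      have hf := L1.integrable_coeFn f
      have hg := L1.integrable_coeFn g
      rw [← integral_sub (hint f hf n) (hint g hg n)]
      have e : (fun x => f (iter T (a n) x) * G n x - g (iter T (a n) x) * G n x)
        = fun x => (f - g : Ω → ℂ) (iter T (a n) x) * G n x := by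
        funext x; simp [sub_mul]
      rw [e]
      refine (hbound _ (hf.sub hg) n).trans ?_
      have e2 : ∫ x, ‖(f - g : Ω → ℂ) x‖ ∂μ = ‖f - g‖ := by
        rw [L1.norm_eq_integral_norm]
        refine integral_congr_ae ?_
        filter_upwards [Lp.coeFn_sub f g] with x hx
        rw [hx]
      rw [e2]
      gcongr
      exact le_max_left _ _
    · intro f g
      have hf := L1.integrable_coeFn f
      have hg := L1.integrable_coeFn g
      rw [← sub_mul, norm_mul, ← integral_sub hf hg]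
      have e2 : ∫ x, ‖(f - g : Ω → ℂ) x‖ ∂μ = ‖f - g‖ := by
        rw [L1.norm_eq_integral_norm]
        refine integral_congr_ae ?_
        filter_upwards [Lp.coeFn_sub f g] with x hx
        rw [hx]
      have e3 : ‖∫ x, f x - g x ∂μ‖ ≤ ‖f - g‖ := by
        rw [← e2]; exact norm_integral_le_integral_norm _
      calc ‖∫ x, f x - g x ∂μ‖ * ‖L‖ ≤ ‖f - g‖ * max C ‖L‖ := by
            gcongr; exact le_max_right _ _
        _ = max C ‖L‖ * ‖f - g‖ := mul_comm _ _
  · intro f g hfg hf h1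
    refine (h1.congr fun n => ?_).trans_eq ?_
    · refine integral_congr_ae ?_
      filter_upwards [(mp_iter T hT (a n)).quasiMeasurePreserving.ae_eq_comp hfg] with x hx
      simp only [Function.comp] at hx
      rw [hx]
    · rw [integral_congr_ae hfg]

/-- Mixing of order `k` for bounded measurable functions. -/
theorem MixingOfOrder.tendsto_fun {μ : Measure Ω} [IsProbabilityMeasure μ] {T : Ω ≃ᵐ Ω}
    (hT : MeasurePreserving T μ μ) {k : ℕ} (h : MixingOfOrder μ T k)
    {t : ℕ → Fin k → ℤ} (ht : Gaps t) (f : Fin k → Ω → ℂ) (hf : ∀ i, Measurable (f i))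
    (hb : ∀ i, ∃ C : ℝ, ∀ x, ‖f i x‖ ≤ C) :
    Tendsto (fun n => ∫ x, ∏ i, f i (iter T (t n i) x) ∂μ) atTop (𝓝 (∏ i, ∫ x, f i x ∂μ)) := by
  suffices H : ∀ s : Finset (Fin k), ∀ f : Fin k → Ω → ℂ, (∀ i, Measurable (f i)) →
      (∀ i, ∃ C : ℝ, ∀ x, ‖f i x‖ ≤ C) →
      (∀ i, i ∉ s → ∃ A : Set Ω, MeasurableSet A ∧ f i = A.indicator (fun _ => (1 : ℂ))) →
      Tendsto (fun n => ∫ x, ∏ i, f i (iter T (t n i) x) ∂μ) atTop (𝓝 (∏ i, ∫ x, f i x ∂μ)) from
    H Finset.univ f hf hb (fun i hi => absurd (Finset.mem_univ i) hi)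
  intro s
  induction s using Finset.induction_on with
  | empty =>
    intro f hf hb hA
    choose A hA1 hA2 using fun i => hA i (Finset.notMem_empty i)
    have key := h.tendsto_set ht A hA1
    have : Tendsto (fun n => ((μ.real (⋂ i, iter T (t n i) ⁻¹' A i) : ℝ) : ℂ)) atTop
        (𝓝 (((∏ i, μ.real (A i) : ℝ)) : ℂ)) := (Complex.continuous_ofReal.tendsto _).comp key
    refine (this.congr fun n => ?_).trans_eq ?_
    · have e : (fun x => ∏ i, f i (iter T (t n i) x)) =
          (⋂ i, iter T (t n i) ⁻¹' A i).indicator (fun _ => (1 : ℂ)) := by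
        funext x
        by_cases hx : x ∈ ⋂ i, iter T (t n i) ⁻¹' A i
        · rw [Set.indicator_of_mem hx]
          rw [Set.mem_iInter] at hx
          refine Finset.prod_eq_one fun i _ => ?_
          rw [hA2 i]; exact Set.indicator_of_mem (show iter T (t n i) x ∈ A i from hx i) _
        · rw [Set.indicator_of_notMem hx]
          rw [Set.mem_iInter, not_forall] at hx
          obtain ⟨i, hi⟩ := hx
          refine Finset.prod_eq_zero (Finset.mem_univ i) ?_
          rw [hA2 i]; exact Set.indicator_of_notMem (show iter T (t n i) x ∉ A i from hi) _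
      rw [e, integral_indicator_const _ (MeasurableSet.iInter fun i => (measurable_iter T _) (hA1 i))]
      simp only [Complex.real_smul, mul_one]
    · congr 1
      push_cast
      refine Finset.prod_congr rfl fun i _ => ?_
      rw [hA2 i, integral_indicator_const _ (hA1 i)]
      simp
  | insert i0 s hi0 ih =>
    intro f hf hb hA
    choose C hC using hb
    have hsplit : ∀ n x, ∏ i, f i (iter T (t n i) x) =
        f i0 (iter T (t n i0) x) * ∏ i ∈ Finset.univ.erase i0, f i (iter T (t n i) x) := by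
      intro n x
      rw [Finset.mul_prod_erase Finset.univ (fun i => f i (iter T (t n i) x)) (Finset.mem_univ i0)]
    have hsplit2 : ∏ i, ∫ x, f i x ∂μ = (∫ x, f i0 x ∂μ) *
        ∏ i ∈ Finset.univ.erase i0, ∫ x, f i x ∂μ := by
      rw [Finset.mul_prod_erase Finset.univ (fun i => ∫ x, f i x ∂μ) (Finset.mem_univ i0)]
    simp_rw [hsplit, hsplit2]
    have hint0 : Integrable (f i0) μ :=
      Integrable.of_bound (hf i0).aestronglyMeasurable (C i0) (Eventually.of_forall (hC i0))
    refine tendsto_step hT (fun n => t n i0)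
      (fun n x => ∏ i ∈ Finset.univ.erase i0, f i (iter T (t n i) x))
      (fun n => Finset.measurable_prod _ fun i _ => (hf i).comp (measurable_iter T _))
      (∏ i ∈ Finset.univ.erase i0, C i)
      (fun n x => norm_prod_le_of_bdd _ _ _ fun i _ => hC i _) _ ?_ (f i0) hint0
    intro A hAm
    have := ih (Function.update f i0 (A.indicator (fun _ => (1 : ℂ)))) ?_ ?_ ?_
    · refine (this.congr fun n => ?_).trans_eq ?_
      · congr 1; funext x
        rw [← Finset.mul_prod_erase Finset.univ _ (Finset.mem_univ i0)]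
        congr 1
        · simp
        · refine Finset.prod_congr rfl fun i hi => ?_
          rw [Function.update_of_ne (Finset.ne_of_mem_erase hi)]
      · congr 1
        rw [← Finset.mul_prod_erase Finset.univ _ (Finset.mem_univ i0)]
        congr 1
        · simp
        · refine Finset.prod_congr rfl fun i hi => ?_
          rw [Function.update_of_ne (Finset.ne_of_mem_erase hi)]
    · intro i
      by_cases hi : i = i0
      · subst hi; simp only [Function.update_self]; exact measurable_const.indicator hAm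
      · rw [Function.update_of_ne hi]; exact hf i
    · intro i
      by_cases hi : i = i0
      · subst hi
        refine ⟨1, fun x => ?_⟩
        simp only [Function.update_self]
        by_cases hx : x ∈ A <;> simp [hx]
      · rw [Function.update_of_ne hi]; exact ⟨C i, hC i⟩
    · intro i hi
      by_cases hii : i = i0
      · subst hii; exact ⟨A, hAm, by simp⟩
      · rw [Function.update_of_ne hii]
        exact hA i (by simp [hii, hi])

end Vale.Agent.P102.Ext
end
end

section

section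

namespace Vale.Agent.P102.Ext

open Filter Topology LaurentPolynomial

/-- Times with one dominating permutation. -/
theorem exists_dominating {k : ℕ} (t : ℕ → Fin k → ℤ) (ht : Gaps t) (N : ℕ) (G : ℤ) :
    ∃ n : Fin k → ℕ, (∀ c, N ≤ n c) ∧ ∀ σ : Equiv.Perm (Fin k), σ ≠ 1 →
      (∑ c, t (n c) (σ c)) + G ≤ ∑ c, t (n c) c := by
  classical
  set D : ℕ → ℤ := fun x => ∑ i : Fin k, ∑ j : Fin k, |t x i - t x j| with hD
  have hD0 : ∀ x, 0 ≤ D x := fun x => Finset.sum_nonneg fun i _ => Finset.sum_nonneg fun j _ => abs_nonneg _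
  have hDle : ∀ x (i j : Fin k), |t x i - t x j| ≤ D x := by
    intro x i j
    calc |t x i - t x j| ≤ ∑ j : Fin k, |t x i - t x j| :=
          Finset.single_le_sum (f := fun j => |t x i - t x j|) (fun j _ => abs_nonneg _) (Finset.mem_univ j)
      _ ≤ D x := Finset.single_le_sum (f := fun i => ∑ j : Fin k, |t x i - t x j|)
          (fun i _ => Finset.sum_nonneg fun j _ => abs_nonneg _) (Finset.mem_univ i)
  obtain ⟨a, ha1, ha2⟩ := exists_seq_of_forall_finset_exists (fun y : ℕ => N ≤ y)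
    (fun x y => ∀ i j : Fin k, i < j → (k : ℤ) * (|G| + D x) ≤ t y j - t y i) (by
      intro s _
      have h1 : ∀ᶠ y in atTop, ∀ x ∈ s, ∀ i j : Fin k, i < j →
          (k : ℤ) * (|G| + D x) ≤ t y j - t y i := by
        rw [eventually_all_finset]
        intro x _
        rw [eventually_all]; intro i
        rw [eventually_all]; intro j
        by_cases hij : i < j
        · filter_upwards [(ht i j hij).eventually_ge_atTop ((k : ℤ) * (|G| + D x))] with n hn _ using hn
        · exact Eventually.of_forall fun n h => absurd h hij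
      obtain ⟨y, hy1, hy2⟩ := (h1.and (eventually_ge_atTop N)).exists
      exact ⟨y, hy2, hy1⟩)
  refine ⟨fun c => a c, fun c => ha1 c, fun σ hσ => ?_⟩
  have hne : (Finset.univ.filter fun c : Fin k => σ c ≠ c).Nonempty := by
    by_contra h
    apply hσ
    ext c
    by_contra hc
    exact h ⟨c, by simp only [Finset.mem_filter, Finset.mem_univ, true_and]; intro h2; exact hc (by rw [h2]; rfl)⟩
  set j := (Finset.univ.filter fun c : Fin k => σ c ≠ c).max' hne with hj
  have hj1 : σ j ≠ j := by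
    have := Finset.max'_mem _ hne
    rw [← hj] at this
    simpa only [ne_eq, Finset.mem_filter, Finset.mem_univ, true_and] using this
  have hj2 : ∀ c, j < c → σ c = c := by
    intro c hc
    by_contra h
    have h3 : c ∈ (Finset.univ.filter fun c : Fin k => σ c ≠ c) := by simp only [ne_eq, Finset.mem_filter, Finset.mem_univ, h, not_false_eq_true, and_self]
    have := Finset.le_max' _ c h3
    exact absurd hc (not_lt.2 this)
  have hj3 : σ j < j := by
    rcases lt_trichotomy (σ j) j with h | h | h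
    · exact h
    · exact absurd h hj1
    · exact absurd (σ.injective (hj2 _ h)) hj1
  have hk : (0 : ℤ) < k := by
    have : 0 < k := Nat.pos_of_ne_zero (by rintro rfl; exact Fin.elim0 j)
    exact_mod_cast this
  have hgap : (|G| + ∑ c ∈ Finset.univ.filter (fun c => c < j), D (a c)) ≤ t (a j) j - t (a j) (σ j) := by
    set g := t (a j) j - t (a j) (σ j) with hg
    have h1 : ∀ c : Fin k, c < j → (k : ℤ) * (|G| + D (a c)) ≤ g := by
      intro c hc
      exact ha2 c j (by exact_mod_cast hc) (σ j) j hj3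
    have hmem : (Finset.univ.filter (fun c : Fin k => c < j)).Nonempty := ⟨σ j, by simp only [Finset.mem_filter, Finset.mem_univ, hj3, and_self]⟩
    have h2 : ∑ c ∈ Finset.univ.filter (fun c : Fin k => c < j), (k : ℤ) * (|G| + D (a c)) ≤
        (Finset.univ.filter (fun c : Fin k => c < j)).card • g :=
      Finset.sum_le_card_nsmul _ _ _ fun c hc => h1 c (by simpa using hc)
    have hg0 : 0 ≤ g := by
      have := h1 _ hj3
      have h0 : 0 ≤ (k : ℤ) * (|G| + D (a (σ j))) := by
        have := hD0 (a (σ j)); (clear * - hk; positivity)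
      linarith only [this, h0]
    have hcard : ((Finset.univ.filter (fun c : Fin k => c < j)).card : ℤ) ≤ k := by
      have := Finset.card_le_univ (Finset.univ.filter (fun c : Fin k => c < j))
      rw [Fintype.card_fin] at this
      exact_mod_cast this
    have h3 : (k : ℤ) * ∑ c ∈ Finset.univ.filter (fun c : Fin k => c < j), (|G| + D (a c)) ≤ k * g := by
      rw [Finset.mul_sum]
      refine h2.trans ?_
      rw [nsmul_eq_mul]
      exact mul_le_mul_of_nonneg_right hcard hg0
    have h4 : ∑ c ∈ Finset.univ.filter (fun c : Fin k => c < j), (|G| + D (a c)) ≤ g :=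
      le_of_mul_le_mul_left h3 hk
    refine le_trans ?_ h4
    rw [Finset.sum_add_distrib]
    gcongr
    rw [Finset.sum_const, nsmul_eq_mul]
    have : (1 : ℤ) ≤ ((Finset.univ.filter (fun c : Fin k => c < j)).card : ℤ) := by
      exact_mod_cast hmem.card_pos
    nlinarith only [this, abs_nonneg G]
  have hsum : ∑ c : Fin k, (t (a c) c - t (a c) (σ c)) ≥
      (t (a j) j - t (a j) (σ j)) - ∑ c ∈ Finset.univ.filter (fun c => c < j), D (a c) := by
    rw [← Finset.add_sum_erase Finset.univ _ (Finset.mem_univ j), sub_eq_add_neg]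
    refine add_le_add le_rfl ?_
    rw [← Finset.sum_neg_distrib]
    have hsub : Finset.univ.filter (fun c : Fin k => c < j) ⊆ Finset.univ.erase j := by
      intro c hc
      simp only [Finset.mem_filter, Finset.mem_univ, true_and] at hc
      simp only [Finset.mem_erase, ne_eq, hc.ne, not_false_eq_true, Finset.mem_univ, and_self]
    rw [← Finset.sum_sdiff hsub]
    have h0 : ∑ x ∈ Finset.univ.erase j \ Finset.univ.filter (fun c : Fin k => c < j),
        (t (a x) x - t (a x) (σ x)) = 0 := by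
      refine Finset.sum_eq_zero fun c hc => ?_
      simp only [Finset.mem_sdiff, Finset.mem_erase, Finset.mem_univ, and_true, Finset.mem_filter,
        true_and, not_lt] at hc
      rw [hj2 c (lt_of_le_of_ne hc.2 (Ne.symm hc.1)), sub_self]
    rw [h0, zero_add]
    refine Finset.sum_le_sum fun c _ => ?_
    have := neg_abs_le (t (a c) c - t (a c) (σ c))
    have h2 := hDle (a c) c (σ c)
    linarith only [this, h2]
  rw [Finset.sum_sub_distrib] at hsum
  have := le_abs_self G
  simp only at hsum ⊢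
  linarith only [hgap, hsum, this]

/-- the matrix of powers of a unit -/
def powMat {k : ℕ} {R : Type*} [DivInvMonoid R] (z : R) (t : ℕ → Fin k → ℤ) (n : Fin k → ℕ) :
    Matrix (Fin k) (Fin k) R := Matrix.of fun r c => z ^ (t (n c) r)

theorem det_powMat {k : ℕ} {F : Type*} [Field F] (z : F) (hz : z ≠ 0) (t : ℕ → Fin k → ℤ)
    (n : Fin k → ℕ) :
    (powMat z t n).det = ∑ σ : Equiv.Perm (Fin k), ((Equiv.Perm.sign σ : ℤ) : F) *
      z ^ (∑ c, t (n c) (σ c)) := by
  rw [Matrix.det_apply']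
  refine Finset.sum_congr rfl fun σ _ => ?_
  congr 1
  simp only [powMat, Matrix.of_apply]
  have : ∀ s : Finset (Fin k), ∏ c ∈ s, z ^ (t (n c) (σ c)) = z ^ (∑ c ∈ s, t (n c) (σ c)) := by
    intro s
    classical
    induction s using Finset.induction_on with
    | empty => simp
    | insert a s ha ih => rw [Finset.prod_insert ha, Finset.sum_insert ha, zpow_add₀ hz, ih]
  exact this _

theorem norm_le_one_of_det {k : ℕ} (t : ℕ → Fin k → ℤ) (ht : Gaps t) (N : ℕ) (z : ℂ)
    (hz : z ≠ 0) (h : ∀ n : Fin k → ℕ, (∀ c, N ≤ n c) → (powMat z t n).det = 0) : ‖z‖ ≤ 1 := by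
  classical
  by_contra hlt
  push Not at hlt
  set K : ℝ := (Fintype.card (Equiv.Perm (Fin k)) : ℝ) with hK
  obtain ⟨G, hG⟩ := pow_unbounded_of_one_lt K hlt
  obtain ⟨n, hn, hdom⟩ := exists_dominating t ht N G
  have h0 := h n hn
  rw [det_powMat z hz, ← Finset.add_sum_erase Finset.univ _ (Finset.mem_univ (1 : Equiv.Perm (Fin k)))] at h0
  simp only [Equiv.Perm.sign_one, Units.val_one, Int.cast_one, Equiv.Perm.coe_one, id_eq, one_mul] at h0
  have h1 : ‖z ^ (∑ c, t (n c) c)‖ = ‖∑ σ ∈ Finset.univ.erase (1 : Equiv.Perm (Fin k)),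
      ((Equiv.Perm.sign σ : ℤ) : ℂ) * z ^ (∑ c, t (n c) (σ c))‖ := by
    rw [eq_neg_of_add_eq_zero_left h0, norm_neg]
  have hzpos : 0 < ‖z‖ := by linarith only [hlt]
  have h2 : ‖∑ σ ∈ Finset.univ.erase (1 : Equiv.Perm (Fin k)),
      ((Equiv.Perm.sign σ : ℤ) : ℂ) * z ^ (∑ c, t (n c) (σ c))‖ ≤
      K * ‖z‖ ^ ((∑ c, t (n c) c) - G) := by
    refine (norm_sum_le _ _).trans ?_
    have h3 : ∀ σ ∈ Finset.univ.erase (1 : Equiv.Perm (Fin k)),
        ‖((Equiv.Perm.sign σ : ℤ) : ℂ) * z ^ (∑ c, t (n c) (σ c))‖ ≤ ‖z‖ ^ ((∑ c, t (n c) c) - (G : ℤ)) := by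
      intro σ hσ
      have hσ1 : σ ≠ 1 := Finset.ne_of_mem_erase hσ
      rw [norm_mul, norm_zpow]
      have hs : ‖((Equiv.Perm.sign σ : ℤ) : ℂ)‖ = 1 := by
        rcases Int.units_eq_one_or (Equiv.Perm.sign σ) with h | h <;> simp only [h, Units.val_neg, Units.val_one, Int.reduceNeg, Int.cast_neg, Int.cast_one, norm_neg, norm_one]
      rw [hs, one_mul]
      have := hdom σ hσ1
      exact zpow_le_zpow_right₀ hlt.le (by linarith only [this])
    refine (Finset.sum_le_card_nsmul _ _ _ h3).trans ?_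
    rw [nsmul_eq_mul]
    have hcard : (((Finset.univ.erase (1 : Equiv.Perm (Fin k))).card : ℕ) : ℝ) ≤ K := by
      rw [hK]
      exact_mod_cast Finset.card_le_univ _
    have : 0 ≤ ‖z‖ ^ ((∑ c, t (n c) c) - (G : ℤ)) := by positivity
    exact mul_le_mul_of_nonneg_right hcard this
  rw [← h1, norm_zpow, zpow_sub₀ hzpos.ne', zpow_natCast] at h2
  have h4 : 0 < ‖z‖ ^ (∑ c, t (n c) c) := by positivity
  have h5 : K * (‖z‖ ^ (∑ c, t (n c) c) / ‖z‖ ^ G) < ‖z‖ ^ (∑ c, t (n c) c) := by
    rw [← mul_div_assoc, div_lt_iff₀ (by positivity), mul_comm]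
    exact mul_lt_mul_of_pos_left hG h4
  linarith only [h2, h5]

theorem norm_eq_one_of_det {k : ℕ} (t : ℕ → Fin k → ℤ) (ht : Gaps t) (N : ℕ) (z : ℂ)
    (hz : z ≠ 0) (h : ∀ n : Fin k → ℕ, (∀ c, N ≤ n c) → (powMat z t n).det = 0) : ‖z‖ = 1 := by
  refine le_antisymm (norm_le_one_of_det t ht N z hz h) ?_
  have ht' : Gaps (fun n i => - t n (Fin.rev i)) := by
    intro i j hij
    have := ht (Fin.rev j) (Fin.rev i) (Fin.rev_lt_rev.2 hij)
    refine this.congr fun n => ?_
    ring
  have h2 := norm_le_one_of_det (fun n i => - t n (Fin.rev i)) ht' N z⁻¹ (inv_ne_zero hz) ?_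
  · rw [norm_inv] at h2
    exact (inv_le_one₀ (norm_pos_iff.2 hz)).1 h2
  · intro n hn
    have e : powMat z⁻¹ (fun n i => - t n (Fin.rev i)) n =
        (powMat z t n).submatrix (Fin.revPerm : Equiv.Perm (Fin k)) id := by
      ext r c
      simp [powMat]
    rw [e, Matrix.det_permute, h n hn, mul_zero]

theorem isIntegral_of_det {k : ℕ} (t : ℕ → Fin k → ℤ) (ht : Gaps t) (N : ℕ) {F : Type*} [Field F]
    (z : F) (hz : z ≠ 0) (h : ∀ n : Fin k → ℕ, (∀ c, N ≤ n c) → (powMat z t n).det = 0) :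
    IsIntegral ℤ z := by
  classical
  obtain ⟨n, hn, hdom⟩ := exists_dominating t ht N 1
  have h0 := h n hn
  rw [det_powMat z hz, ← Finset.add_sum_erase Finset.univ _ (Finset.mem_univ (1 : Equiv.Perm (Fin k)))] at h0
  simp only [Equiv.Perm.sign_one, Units.val_one, Int.cast_one, Equiv.Perm.coe_one, id_eq, one_mul] at h0
  set E : ℤ := ∑ c, t (n c) c with hE
  set e : Equiv.Perm (Fin k) → ℤ := fun σ => ∑ c, t (n c) (σ c) with he
  set L : ℕ := ∑ σ : Equiv.Perm (Fin k), (E - e σ).toNat with hL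
  have hLe : ∀ σ, σ ≠ 1 → E - e σ ≤ L := by
    intro σ _
    have h1 : (E - e σ).toNat ≤ L :=
      Finset.single_le_sum (f := fun σ => (E - e σ).toNat) (fun _ _ => Nat.zero_le _) (Finset.mem_univ σ)
    have h2 := Int.self_le_toNat (E - e σ)
    have h3 : (((E - e σ).toNat : ℕ) : ℤ) ≤ (L : ℤ) := by exact_mod_cast h1
    linarith only [h1, h2]
  set q : Polynomial ℤ := ∑ σ ∈ Finset.univ.erase (1 : Equiv.Perm (Fin k)),
    Polynomial.C (Equiv.Perm.sign σ : ℤ) * Polynomial.X ^ ((L : ℤ) - (E - e σ)).toNat with hq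
  have hqdeg : q.degree < L := by
    rw [← Polynomial.mem_degreeLT]
    refine Submodule.sum_mem _ fun σ hσ => ?_
    have hσ1 : σ ≠ 1 := Finset.ne_of_mem_erase hσ
    rw [Polynomial.mem_degreeLT]
    refine lt_of_le_of_lt (Polynomial.degree_C_mul_X_pow_le _ _) ?_
    have h1 := hdom σ hσ1
    have h2 := hLe σ hσ1
    have h3 : ((L : ℤ) - (E - e σ)).toNat < L := by
      have : ((L : ℤ) - (E - e σ)) < L := by
        simp only [he, hE] at h1 ⊢
        linarith only [h1]
      omega
    exact_mod_cast h3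
  refine ⟨Polynomial.X ^ L + q, Polynomial.monic_X_pow_add hqdeg, ?_⟩
  rw [Polynomial.eval₂_add, Polynomial.eval₂_pow, Polynomial.eval₂_X, hq, Polynomial.eval₂_finsetSum]
  have h6 : z ^ L = z ^ ((L : ℤ) - E) * z ^ E := by
    rw [← zpow_add₀ hz, sub_add_cancel, zpow_natCast]
  have h7 : ∑ σ ∈ Finset.univ.erase (1 : Equiv.Perm (Fin k)),
      Polynomial.eval₂ (algebraMap ℤ F) z (Polynomial.C (Equiv.Perm.sign σ : ℤ) *
        Polynomial.X ^ ((L : ℤ) - (E - e σ)).toNat) =
      z ^ ((L : ℤ) - E) * ∑ σ ∈ Finset.univ.erase (1 : Equiv.Perm (Fin k)),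
        ((Equiv.Perm.sign σ : ℤ) : F) * z ^ (e σ) := by
    rw [Finset.mul_sum]
    refine Finset.sum_congr rfl fun σ hσ => ?_
    have hσ1 : σ ≠ 1 := Finset.ne_of_mem_erase hσ
    have h2 := hLe σ hσ1
    rw [Polynomial.eval₂_mul, Polynomial.eval₂_C, Polynomial.eval₂_pow, Polynomial.eval₂_X]
    have h8 : z ^ ((L : ℤ) - (E - e σ)).toNat = z ^ ((L : ℤ) - E) * z ^ (e σ) := by
      rw [← zpow_add₀ hz, ← zpow_natCast, Int.toNat_of_nonneg (by linarith only [h2])]
      congr 1; ring
    rw [h8]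
    simp only [algebraMap_int_eq, eq_intCast]
    ring
  rw [h7, h6, ← mul_add, h0, mul_zero]

end Vale.Agent.P102.Ext
end
end

section

section

namespace Vale.Agent.P102.Ext

open Filter Topology LaurentPolynomial

theorem map_powMat {k : ℕ} {F K : Type*} [Field F] [Field K] (φ : F →+* K) (z : F)
    (t : ℕ → Fin k → ℤ) (n : Fin k → ℕ) :
    (powMat (φ z) t n).det = φ (powMat z t n).det := by
  rw [RingHom.map_det]
  congr 1
  ext r c
  simp [powMat]

theorem exists_pow_eq_one_of_det {k : ℕ} (t : ℕ → Fin k → ℤ) (ht : Gaps t) (N : ℕ) {F : Type*}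
    [Field F] (z : F) (hz : z ≠ 0)
    (h : ∀ n : Fin k → ℕ, (∀ c, N ≤ n c) → (powMat z t n).det = 0) :
    ∃ m : ℕ, 0 < m ∧ z ^ m = 1 := by
  have hint : IsIntegral ℤ z := isIntegral_of_det t ht N z hz h
  obtain ⟨p, hp⟩ := CharP.exists F
  rcases Nat.eq_zero_or_pos p with rfl | hp0
  · have : CharZero F := CharP.charP_to_charZero F
    let _ : Algebra ℚ F := DivisionRing.toRatAlgebra
    have hintQ : IsIntegral ℚ z := hint.tower_top
    have : FiniteDimensional ℚ (IntermediateField.adjoin ℚ {z}) :=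
      IntermediateField.adjoin.finiteDimensional hintQ
    have : NumberField (IntermediateField.adjoin ℚ {z}) := ⟨⟩
    set w : IntermediateField.adjoin ℚ {z} := IntermediateField.AdjoinSimple.gen ℚ z with hw
    have hwz : algebraMap (IntermediateField.adjoin ℚ {z}) F w = z :=
      IntermediateField.AdjoinSimple.algebraMap_gen ℚ z
    have hw0 : w ≠ 0 := by
      intro h0; apply hz; rw [← hwz, h0, map_zero]
    have hdet : ∀ n : Fin k → ℕ, (∀ c, N ≤ n c) → (powMat w t n).det = 0 := by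
      intro n hn
      have h1 := map_powMat (algebraMap (IntermediateField.adjoin ℚ {z}) F) w t n
      rw [hwz, h n hn] at h1
      exact (map_eq_zero _).1 h1.symm
    have hwint : IsIntegral ℤ w := isIntegral_of_det t ht N w hw0 hdet
    obtain ⟨m, hm0, hm⟩ := NumberField.Embeddings.pow_eq_one_of_norm_eq_one
      (IntermediateField.adjoin ℚ {z}) ℂ hwint (fun φ => by
        refine norm_eq_one_of_det t ht N (φ w) ((map_ne_zero φ).2 hw0) fun n hn => ?_
        rw [map_powMat, hdet n hn, map_zero])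
    refine ⟨m, hm0, ?_⟩
    rw [← hwz, ← map_pow, hm, map_one]
  · have : Module.Finite ℤ (Algebra.adjoin ℤ {z}) :=
      Module.Finite.iff_fg.2 hint.fg_adjoin_singleton
    have htors : Module.IsTorsion ℤ (Algebra.adjoin ℤ {z}) := by
      intro x
      refine ⟨⟨(p : ℤ), mem_nonZeroDivisors_of_ne_zero (by exact_mod_cast hp0.ne')⟩, ?_⟩
      apply Subtype.ext
      simp [Submonoid.smul_def]
    have : Finite (Algebra.adjoin ℤ {z}) := Module.finite_of_fg_torsion _ htors
    set w : Algebra.adjoin ℤ {z} := ⟨z, Algebra.self_mem_adjoin_singleton ℤ z⟩ with hw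
    obtain ⟨a, b, hab, habe⟩ := Finite.exists_ne_map_eq_of_infinite (fun n : ℕ => w ^ n)
    have key : ∀ a b : ℕ, a < b → w ^ a = w ^ b → ∃ m : ℕ, 0 < m ∧ z ^ m = 1 := by
      intro a b hlt he
      refine ⟨b - a, Nat.sub_pos_of_lt hlt, ?_⟩
      have h1 : z ^ a = z ^ b := by
        have := congrArg (fun x : Algebra.adjoin ℤ {z} => (x : F)) he
        simpa only [hw, SubmonoidClass.mk_pow] using this
      have h2 : z ^ b = z ^ (b - a) * z ^ a := by
        rw [← pow_add, Nat.sub_add_cancel hlt.le]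
      rw [h2] at h1
      have h3 : z ^ a ≠ 0 := pow_ne_zero _ hz
      exact (mul_right_cancel₀ h3 (by rw [one_mul]; exact h1)).symm
    rcases lt_or_gt_of_ne hab with h1 | h1
    · exact key a b h1 habe
    · exact key b a h1 habe.symm

/-- The matrix of monomials. -/
noncomputable def monMat {k : ℕ} (t : ℕ → Fin k → ℤ) (n : Fin k → ℕ) :
    Matrix (Fin k) (Fin k) (LaurentPolynomial ℤ) := Matrix.of fun r c => LaurentPolynomial.T (t (n c) r)

theorem noeth : IsNoetherianRing (LaurentPolynomial ℤ) :=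
  IsLocalization.isNoetherianRing (Submonoid.powers (Polynomial.X : Polynomial ℤ)) _ inferInstance

theorem algebra_main {k : ℕ} (t : ℕ → Fin k → ℤ) (ht : Gaps t)
    (I : Ideal (LaurentPolynomial ℤ)) (N : ℕ)
    (hN : ∀ n : Fin k → ℕ, (∀ c, N ≤ n c) → (monMat t n).det ∈ I)
    (hsat : ∀ m : ℕ, 0 < m → ∀ p : LaurentPolynomial ℤ,
      (LaurentPolynomial.T (m : ℤ) - 1) * p ∈ I → p ∈ I) :
    (1 : LaurentPolynomial ℤ) ∈ I := by
  by_contra h1
  have := noeth
  have hne : (Ideal.Quotient.mk I 1) ≠ 0 := by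
    rw [Ne, Ideal.Quotient.eq_zero_iff_mem]; exact h1
  obtain ⟨P, hP, hle⟩ := exists_le_isAssociatedPrime_of_isNoetherianRing (LaurentPolynomial ℤ)
    (M := LaurentPolynomial ℤ ⧸ I) (Ideal.Quotient.mk I 1) hne
  rw [isAssociatedPrime_iff] at hP
  obtain ⟨hPprime, y, hy⟩ := hP
  obtain ⟨p, rfl⟩ := Ideal.Quotient.mk_surjective y
  have hmem : ∀ q : LaurentPolynomial ℤ, q ∈ P ↔ q * p ∈ I := by
    intro q
    rw [hy, Submodule.mem_colon_singleton]
    rw [← Ideal.Quotient.mk_eq_mk, ← Submodule.Quotient.mk_smul, Submodule.mem_bot, Submodule.Quotient.mk_eq_zero]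
    rfl
  have hp : p ∉ I := by
    intro hpI
    apply hPprime.ne_top
    rw [Ideal.eq_top_iff_one, hmem, one_mul]
    exact hpI
  have hIP : ∀ q ∈ I, q ∈ P := fun q hq => (hmem q).2 (I.mul_mem_right p hq)
  -- the field of fractions
  have := hPprime
  let D := LaurentPolynomial ℤ ⧸ P
  let F := FractionRing D
  let φ : LaurentPolynomial ℤ →+* F := (algebraMap D F).comp (Ideal.Quotient.mk P)
  have hφ : ∀ q, φ q = 0 ↔ q ∈ P := by
    intro q
    simp only [φ, RingHom.comp_apply]
    rw [FaithfulSMul.algebraMap_eq_zero_iff D F, Ideal.Quotient.eq_zero_iff_mem]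
  set z : F := φ (LaurentPolynomial.T 1) with hzdef
  have hTunit : ∀ a : ℤ, φ (LaurentPolynomial.T a) * φ (LaurentPolynomial.T (-a)) = 1 := by
    intro a
    rw [← map_mul, ← LaurentPolynomial.T_add, add_neg_cancel, LaurentPolynomial.T_zero, map_one]
  have hz0 : z ≠ 0 := left_ne_zero_of_mul_eq_one (hTunit 1)
  have hpow : ∀ a : ℤ, φ (LaurentPolynomial.T a) = z ^ a := by
    have hnat : ∀ n : ℕ, φ (LaurentPolynomial.T (n : ℤ)) = z ^ (n : ℤ) := by
      intro n
      rw [hzdef, zpow_natCast, ← map_pow, LaurentPolynomial.T_pow, mul_one]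
    intro a
    rcases a with n | n
    · exact hnat n
    · have h2 := hTunit ((n + 1 : ℕ) : ℤ)
      have h4 : Int.negSucc n = -((n + 1 : ℕ) : ℤ) := rfl
      rw [hnat] at h2
      rw [h4, zpow_neg]
      exact eq_inv_of_mul_eq_one_right h2
  have hdet : ∀ n : Fin k → ℕ, (∀ c, N ≤ n c) → (powMat z t n).det = 0 := by
    intro n hn
    have h2 := (hφ _).2 (hIP _ (hN n hn))
    rw [RingHom.map_det] at h2
    convert h2 using 2
    ext r c
    simp only [powMat, monMat, Matrix.of_apply, RingHom.mapMatrix_apply, Matrix.map_apply]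
    rw [hpow]
  obtain ⟨m, hm0, hm⟩ := exists_pow_eq_one_of_det t ht N z hz0 hdet
  have h3 : LaurentPolynomial.T (m : ℤ) - 1 ∈ P := by
    rw [← hφ, map_sub, map_one, hpow, zpow_natCast, hm, sub_self]
  exact hp (hsat m hm0 p ((hmem _).1 h3))

end Vale.Agent.P102.Ext
end
end

section

section

namespace Vale.Agent.P102.Ext

open MeasureTheory Filter Topology

set_option linter.unusedSectionVars false

variable {Ω : Type*} [MeasurableSpace Ω]

/-- composition with the `m`-th iterate, as an endomorphism of the group of circle valued maps -/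
noncomputable def shiftEnd (T : Ω ≃ᵐ Ω) (m : ℤ) : Module.End ℤ (Additive (Ω → Circle)) :=
  AddMonoidHom.toIntLinearMap
    { toFun := fun w => Additive.ofMul (fun x => Additive.toMul w (iter T m x))
      map_zero' := rfl
      map_add' := fun _ _ => rfl }

/-- the complex value -/
noncomputable def ev (w : Additive (Ω → Circle)) (x : Ω) : ℂ := ((Additive.toMul w x : Circle) : ℂ)

theorem ev_add (v w : Additive (Ω → Circle)) (x : Ω) : ev (v + w) x = ev v x * ev w x := by
  simp [ev]

theorem ev_zero (x : Ω) : ev (0 : Additive (Ω → Circle)) x = 1 := by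
  simp [ev]

theorem ev_neg (w : Additive (Ω → Circle)) (x : Ω) : ev (-w) x = (ev w x)⁻¹ := by
  simp only [ev, toMul_neg, Pi.inv_apply, Circle.coe_inv]

theorem norm_ev (w : Additive (Ω → Circle)) (x : Ω) : ‖ev w x‖ = 1 :=
  Circle.norm_coe _

theorem ev_ne_zero (w : Additive (Ω → Circle)) (x : Ω) : ev w x ≠ 0 := by
  simp [ev]

theorem ev_shift (T : Ω ≃ᵐ Ω) (m : ℤ) (w : Additive (Ω → Circle)) (x : Ω) :
    ev (shiftEnd T m w) x = ev w (iter T m x) := rfl

theorem ev_ext {v w : Additive (Ω → Circle)} (h : ∀ x, ev v x = ev w x) : v = w := by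
  apply Additive.toMul.injective
  funext x
  exact Circle.ext (h x)

theorem ev_sum {ι : Type*} (s : Finset ι) (w : ι → Additive (Ω → Circle)) (x : Ω) :
    ev (∑ i ∈ s, w i) x = ∏ i ∈ s, ev (w i) x := by
  classical
  induction s using Finset.induction_on with
  | empty => simp [ev_zero]
  | insert a s ha ih => rw [Finset.sum_insert ha, Finset.prod_insert ha, ev_add, ih]

theorem inv_ev (w : Additive (Ω → Circle)) (x : Ω) :
    (ev w x)⁻¹ = (starRingEnd ℂ) (ev w x) := by
  simp only [ev]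
  rw [← Circle.coe_inv, Circle.coe_inv_eq_conj]

/-- the shifts as a monoid homomorphism -/
noncomputable def shiftHom (T : Ω ≃ᵐ Ω) :
    Multiplicative ℤ →* Module.End ℤ (Additive (Ω → Circle)) where
  toFun m := shiftEnd T (Multiplicative.toAdd m)
  map_one' := by
    apply LinearMap.ext; intro w
    apply ev_ext; intro x
    rw [ev_shift]; simp [iter_zero]
  map_mul' a b := by
    apply LinearMap.ext; intro w
    apply ev_ext; intro x
    rw [ev_shift, Module.End.mul_apply, ev_shift, ev_shift, toAdd_mul, add_comm, iter_add]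

/-- the action of Laurent polynomials -/
noncomputable def rho (T : Ω ≃ᵐ Ω) :
    LaurentPolynomial ℤ →ₐ[ℤ] Module.End ℤ (Additive (Ω → Circle)) :=
  AddMonoidAlgebra.lift _ _ _ (shiftHom T)

theorem rho_T (T : Ω ≃ᵐ Ω) (m : ℤ) : rho T (LaurentPolynomial.T m) = shiftEnd T m := by
  unfold rho LaurentPolynomial.T
  rw [AddMonoidAlgebra.lift_single, one_smul]
  rfl

theorem rho_C_mul_T (T : Ω ≃ᵐ Ω) (a m : ℤ) (w : Additive (Ω → Circle)) :
    rho T (LaurentPolynomial.C a * LaurentPolynomial.T m) w = a • shiftEnd T m w := by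
  rw [← LaurentPolynomial.smul_eq_C_mul, map_smul, rho_T, LinearMap.smul_apply]

theorem rho_add_apply (T : Ω ≃ᵐ Ω) (p q : LaurentPolynomial ℤ) (w : Additive (Ω → Circle)) :
    rho T (p + q) w = rho T p w + rho T q w := by
  rw [map_add, LinearMap.add_apply]

theorem rho_mul_apply (T : Ω ≃ᵐ Ω) (p q : LaurentPolynomial ℤ) (w : Additive (Ω → Circle)) :
    rho T (p * q) w = rho T p (rho T q w) := by
  rw [map_mul, Module.End.mul_apply]

theorem rho_mem (T : Ω ≃ᵐ Ω) (S : AddSubgroup (Additive (Ω → Circle)))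
    (hS : ∀ m : ℤ, ∀ w ∈ S, shiftEnd T m w ∈ S) (p : LaurentPolynomial ℤ) :
    ∀ w ∈ S, rho T p w ∈ S := by
  induction p using LaurentPolynomial.induction_on' with
  | add p q hp hq =>
    intro w hw
    rw [rho_add_apply]
    exact S.add_mem (hp w hw) (hq w hw)
  | C_mul_T n a =>
    intro w hw
    rw [rho_C_mul_T]
    exact S.zsmul_mem (hS n w hw) a

/-- measurable circle valued maps -/
def measSub (Ω : Type*) [MeasurableSpace Ω] : AddSubgroup (Additive (Ω → Circle)) where
  carrier := {w | Measurable (ev w)}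
  add_mem' := by
    intro v w hv hw
    have : ev (v + w) = fun x => ev v x * ev w x := by funext x; exact ev_add v w x
    change Measurable (ev (v + w))
    rw [this]
    exact Measurable.mul hv hw
  zero_mem' := by
    have : ev (0 : Additive (Ω → Circle)) = fun _ => 1 := by funext x; exact ev_zero x
    change Measurable (ev 0)
    rw [this]
    exact measurable_const
  neg_mem' := by
    intro w hw
    have : ev (-w) = fun x => (ev w x)⁻¹ := by funext x; exact ev_neg w x
    change Measurable (ev (-w))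
    rw [this]
    exact Measurable.inv hw

theorem shift_measSub (T : Ω ≃ᵐ Ω) (m : ℤ) : ∀ w ∈ measSub Ω, shiftEnd T m w ∈ measSub Ω := by
  intro w hw
  have h1 : Measurable (ev w) := hw
  have h2 : Measurable (fun x => ev w (iter T m x)) := h1.comp (measurable_iter T m)
  exact h2

/-- almost everywhere constant circle valued maps -/
def constSub (μ : Measure Ω) : AddSubgroup (Additive (Ω → Circle)) where
  carrier := {w | ∃ c : ℂ, ∀ᵐ x ∂μ, ev w x = c}
  add_mem' := by
    rintro v w ⟨c, hc⟩ ⟨d, hd⟩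
    refine ⟨c * d, ?_⟩
    filter_upwards [hc, hd] with x h1 h2
    rw [ev_add, h1, h2]
  zero_mem' := ⟨1, Eventually.of_forall fun x => ev_zero x⟩
  neg_mem' := by
    rintro w ⟨c, hc⟩
    refine ⟨c⁻¹, ?_⟩
    filter_upwards [hc] with x h1
    rw [ev_neg, h1]

theorem shift_constSub {μ : Measure Ω} (T : Ω ≃ᵐ Ω) (hT : MeasurePreserving T μ μ) (m : ℤ) :
    ∀ w ∈ constSub μ, shiftEnd T m w ∈ constSub μ := by
  rintro w ⟨c, hc⟩
  refine ⟨c, ?_⟩
  have := (mp_iter T hT m).quasiMeasurePreserving.ae hc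
  filter_upwards [this] with x hx
  exact hx

/-- distance to the constant one -/
noncomputable def dd (μ : Measure Ω) (w : Additive (Ω → Circle)) : ℝ := ∫ x, ‖ev w x - 1‖ ∂μ

theorem dd_nonneg (μ : Measure Ω) (w : Additive (Ω → Circle)) : 0 ≤ dd μ w :=
  integral_nonneg fun _ => norm_nonneg _

theorem integrable_ev {μ : Measure Ω} [IsProbabilityMeasure μ] {w : Additive (Ω → Circle)}
    (hw : w ∈ measSub Ω) : Integrable (ev w) μ :=
  Integrable.of_bound (Measurable.aestronglyMeasurable hw) 1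
    (Eventually.of_forall fun x => (norm_ev w x).le)

theorem dd_zero (μ : Measure Ω) : dd μ 0 = 0 := by
  unfold dd
  simp [ev_zero]

theorem dd_add {μ : Measure Ω} [IsProbabilityMeasure μ] {v w : Additive (Ω → Circle)}
    (hv : v ∈ measSub Ω) (hw : w ∈ measSub Ω) : dd μ (v + w) ≤ dd μ v + dd μ w := by
  unfold dd
  have i1 := ((integrable_ev (μ := μ) hv).sub (integrable_const (1 : ℂ))).norm
  have i2 := ((integrable_ev (μ := μ) hw).sub (integrable_const (1 : ℂ))).norm
  have i3 := ((integrable_ev (μ := μ) ((measSub Ω).add_mem hv hw)).sub (integrable_const (1 : ℂ))).norm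
  simp only [Pi.sub_apply] at i1 i2 i3
  rw [← integral_add i1 i2]
  refine integral_mono i3 (i1.add i2) fun x => ?_
  simp only
  rw [ev_add]
  have : ev v x * ev w x - 1 = (ev v x - 1) + ev v x * (ev w x - 1) := by ring
  rw [this]
  refine (norm_add_le _ _).trans ?_
  rw [norm_mul, norm_ev, one_mul]

theorem dd_neg {μ : Measure Ω} (w : Additive (Ω → Circle)) : dd μ (-w) = dd μ w := by
  unfold dd
  congr 1; funext x
  rw [ev_neg]
  have : (ev w x)⁻¹ - 1 = (ev w x)⁻¹ * (1 - ev w x) := by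
    rw [mul_sub, inv_mul_cancel₀ (ev_ne_zero w x), mul_one]
  rw [this, norm_mul, norm_inv, norm_ev, inv_one, one_mul, norm_sub_rev]

theorem dd_shift {μ : Measure Ω} (T : Ω ≃ᵐ Ω) (hT : MeasurePreserving T μ μ) (m : ℤ)
    {w : Additive (Ω → Circle)} (hw : w ∈ measSub Ω) : dd μ (shiftEnd T m w) = dd μ w := by
  unfold dd
  have hm : AEStronglyMeasurable (fun x => ‖ev w x - 1‖) (Measure.map (iter T m) μ) :=
    ((Measurable.sub_const hw 1).norm).aestronglyMeasurable
  have := integral_map (μ := μ) (φ := iter T m) (measurable_iter T m).aemeasurable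
    (f := fun x => ‖ev w x - 1‖) hm
  rw [(mp_iter T hT m).map_eq] at this
  rw [this]
  rfl

theorem dd_sum {μ : Measure Ω} [IsProbabilityMeasure μ] {ι : Type*} (s : Finset ι)
    (w : ι → Additive (Ω → Circle)) (hw : ∀ i ∈ s, w i ∈ measSub Ω) :
    dd μ (∑ i ∈ s, w i) ≤ ∑ i ∈ s, dd μ (w i) := by
  classical
  induction s using Finset.induction_on with
  | empty => simp [dd_zero]
  | insert a s ha ih =>
    rw [Finset.sum_insert ha, Finset.sum_insert ha]
    refine (dd_add (hw a (Finset.mem_insert_self a s))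
      ((measSub Ω).sum_mem fun i hi => hw i (Finset.mem_insert_of_mem hi))).trans ?_
    have := ih fun i hi => hw i (Finset.mem_insert_of_mem hi)
    linarith

/-- a determinant with monomial entries acts with bounded expansion -/
theorem dd_det {μ : Measure Ω} [IsProbabilityMeasure μ] (T : Ω ≃ᵐ Ω) (hT : MeasurePreserving T μ μ)
    {k : ℕ} (M : Matrix (Fin k) (Fin k) (LaurentPolynomial ℤ))
    (hM : ∀ r c, M r c = 0 ∨ ∃ a : ℤ, M r c = LaurentPolynomial.T a)
    (w : Additive (Ω → Circle)) (hw : w ∈ measSub Ω) :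
    dd μ (rho T M.det w) ≤ (Fintype.card (Equiv.Perm (Fin k)) : ℝ) * dd μ w := by
  classical
  have hprod : ∀ σ : Equiv.Perm (Fin k), ∀ s : Finset (Fin k), (∏ i ∈ s, M (σ i) i) = 0 ∨
      ∃ a : ℤ, (∏ i ∈ s, M (σ i) i) = LaurentPolynomial.T a := by
    intro σ s
    induction s using Finset.induction_on with
    | empty => exact Or.inr ⟨0, by simp⟩
    | insert a s ha ih =>
      rw [Finset.prod_insert ha]
      rcases hM (σ a) a with h | ⟨b, h⟩
      · left; rw [h, zero_mul]
      · rcases ih with h2 | ⟨c, h2⟩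
        · left; rw [h2, mul_zero]
        · right; exact ⟨b + c, by rw [h, h2, LaurentPolynomial.T_add]⟩
  rw [Matrix.det_apply, map_sum, LinearMap.sum_apply]
  refine (dd_sum _ _ fun σ _ => rho_mem T _ (shift_measSub T) _ w hw).trans ?_
  have hterm : ∀ σ ∈ (Finset.univ : Finset (Equiv.Perm (Fin k))),
      dd μ (rho T (Equiv.Perm.sign σ • ∏ i, M (σ i) i) w) ≤ dd μ w := by
    intro σ _
    rcases hprod σ Finset.univ with h | ⟨a, h⟩
    · rw [h, smul_zero, map_zero, LinearMap.zero_apply, dd_zero]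
      exact dd_nonneg μ w
    · rw [h]
      rcases Int.units_eq_one_or (Equiv.Perm.sign σ) with h2 | h2
      · rw [h2, one_smul, rho_T, dd_shift T hT a hw]
      · rw [h2, Units.neg_smul, one_smul, map_neg, LinearMap.neg_apply, rho_T, dd_neg,
          dd_shift T hT a hw]
  refine (Finset.sum_le_card_nsmul _ _ _ hterm).trans ?_
  rw [nsmul_eq_mul, Finset.card_univ]

/-- elimination identity -/
theorem elim_identity (T : Ω ≃ᵐ Ω) {k : ℕ} (t : ℕ → Fin k → ℤ) (n : Fin k → ℕ)
    (u : Fin k → Additive (Ω → Circle)) (l : Fin k) :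
    ∑ c, rho T ((monMat t n).adjugate c l) (∑ i, shiftEnd T (t (n c) i) (u i)) =
      rho T (monMat t n).det (u l) := by
  have h1 : ∀ c, rho T ((monMat t n).adjugate c l) (∑ i, shiftEnd T (t (n c) i) (u i)) =
      ∑ i, rho T (monMat t n i c * (monMat t n).adjugate c l) (u i) := by
    intro c
    rw [map_sum]
    refine Finset.sum_congr rfl fun i _ => ?_
    rw [← rho_T, ← rho_mul_apply, mul_comm]
    rfl
  simp_rw [h1]
  rw [Finset.sum_comm]
  have h2 : ∀ i, ∑ c, rho T (monMat t n i c * (monMat t n).adjugate c l) (u i) =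
      rho T ((monMat t n * (monMat t n).adjugate) i l) (u i) := by
    intro i
    rw [Matrix.mul_apply, map_sum, LinearMap.sum_apply]
  simp_rw [h2, Matrix.mul_adjugate]
  rw [Finset.sum_eq_single l]
  · simp only [Matrix.smul_apply, Matrix.one_apply_eq, smul_eq_mul, mul_one]
  · intro b _ hb
    simp only [Matrix.smul_apply, Matrix.one_apply_ne hb, smul_eq_mul, mul_zero, map_zero, LinearMap.zero_apply]
  · intro h; exact absurd (Finset.mem_univ l) h

end Vale.Agent.P102.Ext
end
end

section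

section

namespace Vale.Agent.P102.Ext

open MeasureTheory Filter Topology

set_option linter.unusedSectionVars false

variable {Ω : Type*} [MeasurableSpace Ω]

/-- mean value -/
noncomputable def EE (μ : Measure Ω) (w : Additive (Ω → Circle)) : ℂ := ∫ x, ev w x ∂μ

theorem mem_constSub_of_norm_EE {μ : Measure Ω} [IsProbabilityMeasure μ]
    (w : Additive (Ω → Circle)) (h : ‖EE μ w‖ = 1) : w ∈ constSub μ := by
  rcases ae_eq_const_or_norm_integral_lt_of_norm_le_const (μ := μ) (f := ev w) (C := 1)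
    (Eventually.of_forall fun x => (norm_ev w x).le) with h1 | h1
  · exact ⟨_, h1⟩
  · exfalso
    rw [EE] at h
    rw [h] at h1
    simp at h1

/-- If a difference with a shift is constant then the function is constant (by mixing). -/
theorem const_of_shift_sub {μ : Measure Ω} [IsProbabilityMeasure μ] {T : Ω ≃ᵐ Ω}
    (hT : MeasurePreserving T μ μ) {m : ℕ} (hm : 2 ≤ m) (hmix : MixingOfOrder μ T m)
    {a : ℕ} (ha : 0 < a) (v : Additive (Ω → Circle)) (hv : v ∈ measSub Ω)
    (h : shiftEnd T (a : ℤ) v - v ∈ constSub μ) : v ∈ constSub μ := by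
  obtain ⟨c, hc⟩ := h
  have hc1 : ∀ᵐ x ∂μ, ev v (iter T a x) = c * ev v x := by
    filter_upwards [hc] with x hx
    rw [sub_eq_add_neg, ev_add, ev_neg, ev_shift] at hx
    rw [← hx, mul_assoc, inv_mul_cancel₀ (ev_ne_zero v x), mul_one]
  have hcn : ∀ n : ℕ, ∀ᵐ x ∂μ, ev v (iter T ((n : ℤ) * a) x) = c ^ n * ev v x := by
    intro n
    induction n with
    | zero => exact Eventually.of_forall fun x => by simp [iter_zero]
    | succ n ih =>
      have h1 := (mp_iter T hT (a : ℤ)).quasiMeasurePreserving.ae ih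
      filter_upwards [h1, hc1] with x hx1 hx2
      have e : (((n + 1 : ℕ) : ℤ) * a) = (n : ℤ) * a + a := by push_cast; ring
      rw [e, iter_add, hx1, hx2, pow_succ]
      ring
  have hcnorm : ‖c‖ = 1 := by
    obtain ⟨x, hx⟩ := hc1.exists
    have := congrArg norm hx
    rw [norm_mul, norm_ev, norm_ev, mul_one] at this
    exact this.symm
  obtain ⟨m', rfl⟩ : ∃ m', m = m' + 2 := ⟨m - 2, by omega⟩
  -- the test functions
  set f : Fin (m' + 2) → Ω → ℂ := fun i => if i = 0 then (fun x => (starRingEnd ℂ) (ev v x))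
    else if i = 1 then ev v else fun _ => 1 with hf
  set t : ℕ → Fin (m' + 2) → ℤ := fun n i => ((i : ℕ) : ℤ) * ((n : ℤ) * a) with htdef
  have htg : Gaps t := by
    intro i j hij
    refine tendsto_atTop_mono (f := fun n : ℕ => (n : ℤ)) (fun n => ?_) tendsto_natCast_atTop_atTop
    have h1 : ((i : ℕ) : ℤ) + 1 ≤ ((j : ℕ) : ℤ) := by exact_mod_cast hij
    have h2 : (1 : ℤ) ≤ a := by exact_mod_cast ha
    have h3 : (0 : ℤ) ≤ n := by (clear * -; positivity)
    simp only [htdef]
    have h4 : (n : ℤ) ≤ (n : ℤ) * a := by nlinarith only [ha]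
    have h5 : (n : ℤ) * a ≤ (((j : ℕ) : ℤ) - ((i : ℕ) : ℤ)) * ((n : ℤ) * a) := by
      have : 0 ≤ (n : ℤ) * a := by (clear * - ha; positivity)
      nlinarith only [h1, h4]
    linarith only [h4, h5]
  have h01 : (1 : Fin (m' + 2)) ≠ 0 := by simp
  have hlim := hmix.tendsto_fun hT htg f (fun i => by
      simp only [hf]
      split_ifs
      · exact (Complex.continuous_conj.measurable).comp (show Measurable (ev v) from hv)
      · exact hv
      · exact measurable_const) (fun i => ⟨1, fun x => by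
      simp only [hf]
      split_ifs
      · rw [RCLike.norm_conj, norm_ev]
      · rw [norm_ev]
      · simp⟩)
  have hL : ∏ i, ∫ x, f i x ∂μ = (starRingEnd ℂ) (EE μ v) * EE μ v := by
    rw [Fin.prod_univ_succ, Fin.prod_univ_succ]
    have e0 : ∫ x, f 0 x ∂μ = (starRingEnd ℂ) (EE μ v) := by
      simp only [hf, if_true]
      rw [integral_conj]; rfl
    have e1 : ∫ x, f (Fin.succ 0) x ∂μ = EE μ v := by
      have : (Fin.succ 0 : Fin (m' + 2)) = 1 := rfl
      simp only [hf, this, if_neg h01, if_true]; rfl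
    have e2 : ∏ i : Fin m', ∫ x, f (Fin.succ (Fin.succ i)) x ∂μ = 1 := by
      refine Finset.prod_eq_one fun i _ => ?_
      have n0 : (Fin.succ (Fin.succ i) : Fin (m' + 2)) ≠ 0 := Fin.succ_ne_zero _
      have n1 : (Fin.succ (Fin.succ i) : Fin (m' + 2)) ≠ 1 := by
        intro h
        have := congrArg Fin.val h
        simp at this
      simp only [hf, if_neg n0, if_neg n1]
      simp only [integral_const, probReal_univ, one_smul]
    rw [e0, e1, e2, mul_one]
  have hI : ∀ n : ℕ, ∫ x, ∏ i, f i (iter T (t n i) x) ∂μ = c ^ n := by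
    intro n
    have : ∀ᵐ x ∂μ, ∏ i, f i (iter T (t n i) x) = c ^ n := by
      filter_upwards [hcn n] with x hx
      rw [Fin.prod_univ_succ, Fin.prod_univ_succ]
      have e0 : f 0 (iter T (t n 0) x) = (starRingEnd ℂ) (ev v x) := by
        simp only [hf, if_true, htdef]
        simp [iter_zero]
      have e1 : f (Fin.succ 0) (iter T (t n (Fin.succ 0)) x) = c ^ n * ev v x := by
        have : (Fin.succ 0 : Fin (m' + 2)) = 1 := rfl
        simp only [hf, this, if_neg h01, if_true, htdef]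
        rw [← hx]
        congr 2
        simp
      have e2 : ∏ i : Fin m', f (Fin.succ (Fin.succ i)) (iter T (t n (Fin.succ (Fin.succ i))) x) = 1 := by
        refine Finset.prod_eq_one fun i _ => ?_
        have n0 : (Fin.succ (Fin.succ i) : Fin (m' + 2)) ≠ 0 := Fin.succ_ne_zero _
        have n1 : (Fin.succ (Fin.succ i) : Fin (m' + 2)) ≠ 1 := by
          intro h
          have := congrArg Fin.val h
          simp at this
        simp only [hf, if_neg n0, if_neg n1]
      rw [e0, e1, e2, mul_one, ← inv_ev, mul_left_comm, inv_mul_cancel₀ (ev_ne_zero v x), mul_one]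
    rw [integral_congr_ae this]
    simp only [integral_const, probReal_univ, one_smul]
  rw [hL] at hlim
  have hlim2 : Tendsto (fun n => ‖c ^ n‖) atTop (𝓝 ‖(starRingEnd ℂ) (EE μ v) * EE μ v‖) := by
    refine (hlim.congr hI).norm
  have : ‖(starRingEnd ℂ) (EE μ v) * EE μ v‖ = 1 := by
    refine tendsto_nhds_unique hlim2 ?_
    simp [norm_pow, hcnorm]
  rw [norm_mul, RCLike.norm_conj] at this
  refine mem_constSub_of_norm_EE v ?_
  have h0 := norm_nonneg (EE μ v)
  nlinarith only [this, h0]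

end Vale.Agent.P102.Ext
end
end

section

section

namespace Vale.Agent.P102.Ext

open MeasureTheory Filter Topology

set_option linter.unusedSectionVars false

variable {Ω : Type*} [MeasurableSpace Ω]

/-- mixing for real bounded functions -/
theorem MixingOfOrder.tendsto_real {μ : Measure Ω} [IsProbabilityMeasure μ] {T : Ω ≃ᵐ Ω}
    (hT : MeasurePreserving T μ μ) {k : ℕ} (h : MixingOfOrder μ T k)
    {t : ℕ → Fin k → ℤ} (ht : Gaps t) (f : Fin k → Ω → ℝ) (hf : ∀ i, Measurable (f i))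
    (hb : ∀ i, ∃ C : ℝ, ∀ x, |f i x| ≤ C) :
    Tendsto (fun n => ∫ x, ∏ i, f i (iter T (t n i) x) ∂μ) atTop (𝓝 (∏ i, ∫ x, f i x ∂μ)) := by
  have h1 := h.tendsto_fun hT ht (fun i x => (f i x : ℂ))
    (fun i => Complex.measurable_ofReal.comp (hf i)) (fun i => by
      obtain ⟨C, hC⟩ := hb i
      exact ⟨C, fun x => by simpa only [Complex.norm_real, Real.norm_eq_abs] using hC x⟩)
  have h2 := (Complex.continuous_re.tendsto _).comp h1
  refine (h2.congr fun n => ?_).trans_eq ?_
  · simp only [Function.comp]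
    have : (fun x => ∏ i, ((f i (iter T (t n i) x) : ℝ) : ℂ)) =
        fun x => ((∏ i, f i (iter T (t n i) x) : ℝ) : ℂ) := by
      funext x; push_cast; rfl
    rw [this, integral_complex_ofReal, Complex.ofReal_re]
  · congr 1
    have : (∏ i, ∫ x, ((f i x : ℝ) : ℂ) ∂μ) = ((∏ i, ∫ x, f i x ∂μ : ℝ) : ℂ) := by
      push_cast
      exact Finset.prod_congr rfl fun i _ => integral_complex_ofReal
    rw [this, Complex.ofReal_re]

theorem integral_comp_iter {μ : Measure Ω} {T : Ω ≃ᵐ Ω} (hT : MeasurePreserving T μ μ) (a : ℤ)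
    {E : Type*} [NormedAddCommGroup E] [NormedSpace ℝ E]
    (f : Ω → E) (hf : AEStronglyMeasurable f μ) : ∫ x, f (iter T a x) ∂μ = ∫ x, f x ∂μ := by
  have hm : AEStronglyMeasurable f (Measure.map (iter T a) μ) := by
    rw [(mp_iter T hT a).map_eq]; exact hf
  have := integral_map (μ := μ) (φ := iter T a) (measurable_iter T a).aemeasurable hm
  rw [(mp_iter T hT a).map_eq] at this
  exact this.symm

theorem sq_integral_norm_le {μ : Measure Ω} [IsProbabilityMeasure μ] (X : Ω → ℂ)
    (hX : Measurable X) {C : ℝ} (hC : ∀ x, ‖X x‖ ≤ C) :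
    (∫ x, ‖X x‖ ∂μ) ^ 2 ≤ ∫ x, ‖X x‖ ^ 2 ∂μ := by
  have i1 : Integrable (fun x => ‖X x‖) μ :=
    Integrable.of_bound hX.norm.aestronglyMeasurable C (Eventually.of_forall fun x => by simpa only [norm_norm] using hC x)
  have i2 : Integrable (fun x => ‖X x‖ ^ 2) μ :=
    Integrable.of_bound (hX.norm.pow_const 2).aestronglyMeasurable (C ^ 2)
      (Eventually.of_forall fun x => by
        have := hC x
        have h0 := norm_nonneg (X x)
        rw [Real.norm_of_nonneg (by positivity)]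
        gcongr)
  set c := ∫ x, ‖X x‖ ∂μ with hc
  have h0 : 0 ≤ ∫ x, (‖X x‖ - c) ^ 2 ∂μ := integral_nonneg fun _ => sq_nonneg _
  have e : ∀ x, (‖X x‖ - c) ^ 2 = ‖X x‖ ^ 2 - (2 * c * ‖X x‖ - c ^ 2) := fun x => by ring
  have i3 : Integrable (fun x => 2 * c * ‖X x‖) μ := i1.const_mul (2 * c)
  have i4 : Integrable (fun x => 2 * c * ‖X x‖ - c ^ 2) μ := i3.sub (integrable_const _)
  simp_rw [e] at h0
  rw [integral_sub i2 i4, integral_sub i3 (integrable_const _), integral_const_mul, ← hc] at h0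
  simp only [integral_const, probReal_univ, smul_eq_mul, one_mul, sub_nonneg, tsub_le_iff_right] at h0
  linarith

theorem mem_us {z : ℂ} (h : ‖z‖ = 1) : z ∈ Submonoid.unitSphere ℂ := by
  simp only [Submonoid.unitSphere, Submonoid.mem_mk, Subsemigroup.mem_mk, mem_sphere_iff_norm, sub_zero, h]

/-- a complex number of modulus one as an element of the circle -/
def mkCircle (z : ℂ) (h : ‖z‖ = 1) : Circle := (⟨z, mem_us h⟩ : Circle)

open Classical in
/-- a complex number as an element of the circle, the value being one off the unit circle -/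
noncomputable def circ (z : ℂ) : Circle :=
  if h : ‖z‖ = 1 then mkCircle z h else 1

theorem coe_circ (z : ℂ) : (circ z : ℂ) = if ‖z‖ = 1 then z else 1 := by
  unfold circ
  by_cases h : ‖z‖ = 1
  · rw [dif_pos h, if_pos h]; rfl
  · rw [dif_neg h, if_neg h, Circle.coe_one]

end Vale.Agent.P102.Ext
end
end

section

section

namespace Vale.Agent.P102.Ext

open MeasureTheory Filter Topology

set_option linter.unusedSectionVars false

variable {Ω : Type*} [MeasurableSpace Ω]

/-- a free ultrafilter on the natural numbers -/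
noncomputable abbrev UU : Ultrafilter ℕ := hyperfilter ℕ

theorem UU_le : (UU : Filter ℕ) ≤ atTop := Nat.hyperfilter_le_atTop

theorem exists_weak {μ : Measure Ω} [IsProbabilityMeasure μ] (Z : ℕ → Ω → ℂ)
    (hZ : ∀ n, Measurable (Z n)) {C : ℝ} (hC : ∀ n x, ‖Z n x‖ ≤ C) :
    ∃ ψ : Ω → ℂ, Measurable ψ ∧ (∀ x, ‖ψ x‖ ≤ C) ∧ ∀ g : Ω → ℂ, Measurable g →
      (∃ K : ℝ, ∀ x, ‖g x‖ ≤ K) →
      Tendsto (fun n => ∫ x, g x * Z n x ∂μ) UU (𝓝 (∫ x, g x * ψ x ∂μ)) := by
  classical
  obtain ⟨x0⟩ : Nonempty Ω := nonempty_of_isProbabilityMeasure μ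
  have hC0 : 0 ≤ C := (norm_nonneg _).trans (hC 0 x0)
  have hmem : ∀ n, MemLp (fun x => (starRingEnd ℂ) (Z n x)) 2 μ := fun n =>
    MemLp.of_bound (Complex.continuous_conj.measurable.comp (hZ n)).aestronglyMeasurable C
      (Eventually.of_forall fun x => by rw [RCLike.norm_conj]; exact hC n x)
  set v : ℕ → Lp ℂ 2 μ := fun n => (hmem n).toLp _ with hv
  have hvn : ∀ n, ‖v n‖ ≤ C := by
    intro n
    refine (Lp.norm_le_of_ae_bound hC0 ?_).trans ?_
    · filter_upwards [(hmem n).coeFn_toLp] with x hx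
      rw [hx, RCLike.norm_conj]; exact hC n x
    · simp [measureUnivNNReal]
  set φ : ℕ → WeakDual ℂ (Lp ℂ 2 μ) := fun n =>
    StrongDual.toWeakDual (InnerProductSpace.toDual ℂ (Lp ℂ 2 μ) (v n)) with hφ
  have hcomp := WeakDual.isCompact_closedBall (𝕜 := ℂ) (E := Lp ℂ 2 μ) 0 C
  obtain ⟨φ0, -, hφ0⟩ := hcomp.ultrafilter_le_nhds (UU.map φ) (by
    rw [le_principal_iff, Ultrafilter.coe_map, Filter.mem_map]
    refine Eventually.of_forall fun n => ?_
    change φ n ∈ WeakDual.toStrongDual ⁻¹' Metric.closedBall 0 C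
    rw [Set.mem_preimage, Metric.mem_closedBall, dist_zero_right, hφ,
      StrongDual.toStrongDual_toWeakDual, LinearIsometryEquiv.norm_map]
    exact hvn n)
  have hev : ∀ g : Lp ℂ 2 μ, Tendsto (fun n => φ n g) UU (𝓝 (φ0 g)) := by
    intro g
    exact ((WeakDual.eval_continuous (𝕜 := ℂ) g).tendsto φ0).comp hφ0
  set w : Lp ℂ 2 μ := (InnerProductSpace.toDual ℂ (Lp ℂ 2 μ)).symm (WeakDual.toStrongDual φ0) with hw
  have hφ0w : ∀ g : Lp ℂ 2 μ, φ0 g = inner ℂ w g := by
    intro g
    rw [hw, InnerProductSpace.toDual_symm_apply]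
    rfl
  -- a measurable representative
  have hwm : AEStronglyMeasurable (w : Ω → ℂ) μ := Lp.aestronglyMeasurable w
  set w0 : Ω → ℂ := hwm.mk _ with hw0
  have hw0m : Measurable w0 := hwm.stronglyMeasurable_mk.measurable
  have hw0e : (w : Ω → ℂ) =ᵐ[μ] w0 := hwm.ae_eq_mk
  set ψ0 : Ω → ℂ := fun x => (starRingEnd ℂ) (w0 x) with hψ0
  have hψ0m : Measurable ψ0 := Complex.continuous_conj.measurable.comp hw0m
  have hw0int : Integrable w0 μ := by
    have : Integrable (w : Ω → ℂ) μ := (Lp.memLp w).integrable (by norm_num)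
    exact this.congr hw0e
  have hψ0int : Integrable ψ0 μ := by
    refine hw0int.norm.mono' hψ0m.aestronglyMeasurable (Eventually.of_forall fun x => ?_)
    rw [hψ0]; simp
  have hlim : ∀ g : Ω → ℂ, Measurable g → (∃ K : ℝ, ∀ x, ‖g x‖ ≤ K) →
      Tendsto (fun n => ∫ x, g x * Z n x ∂μ) UU (𝓝 (∫ x, g x * ψ0 x ∂μ)) := by
    rintro g hg ⟨K, hK⟩
    have hgm : MemLp g 2 μ := MemLp.of_bound hg.aestronglyMeasurable K (Eventually.of_forall hK)
    have h1 := hev (hgm.toLp g)
    rw [hφ0w] at h1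
    refine (h1.congr fun n => ?_).trans_eq ?_
    · have : φ n (hgm.toLp g) = inner ℂ (v n) (hgm.toLp g) := rfl
      rw [this, L2.inner_def]
      refine integral_congr_ae ?_
      filter_upwards [(hmem n).coeFn_toLp, hgm.coeFn_toLp] with x hx1 hx2
      rw [hx2]
      have : (v n : Ω → ℂ) x = (starRingEnd ℂ) (Z n x) := hx1
      rw [this, RCLike.inner_apply, Complex.conj_conj]
    · congr 1
      rw [L2.inner_def]
      refine integral_congr_ae ?_
      filter_upwards [hw0e, hgm.coeFn_toLp] with x hx1 hx2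
      rw [hx2, hx1, RCLike.inner_apply]
  -- the bound
  have hbd : ∀ᵐ x ∂μ, ‖ψ0 x‖ ≤ C := by
    set A : Set Ω := {x | C < ‖ψ0 x‖} with hA
    have hAm : MeasurableSet A := measurableSet_lt measurable_const hψ0m.norm
    set g : Ω → ℂ := A.indicator (fun x => (starRingEnd ℂ) (ψ0 x) * ((‖ψ0 x‖⁻¹ : ℝ) : ℂ)) with hg
    have hgm : Measurable g := by
      refine Measurable.indicator ?_ hAm
      exact (Complex.continuous_conj.measurable.comp hψ0m).mul
        (Complex.measurable_ofReal.comp hψ0m.norm.inv)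
    have hgA : ∀ x, ‖g x‖ ≤ A.indicator (fun _ => (1 : ℝ)) x := by
      intro x
      by_cases hx : x ∈ A
      · rw [hg, Set.indicator_of_mem hx, Set.indicator_of_mem hx, norm_mul, RCLike.norm_conj,
          Complex.norm_real, Real.norm_eq_abs, abs_inv, abs_norm]
        exact mul_inv_le_one
      · rw [hg, Set.indicator_of_notMem hx, Set.indicator_of_notMem hx, norm_zero]
    have hg1 : ∀ x, ‖g x‖ ≤ 1 := by
      intro x
      refine (hgA x).trans ?_
      by_cases hx : x ∈ A <;> simp [hx]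
    have h1 := (hlim g hgm ⟨1, hg1⟩).norm
    have h2 : ∀ n, ‖∫ x, g x * Z n x ∂μ‖ ≤ C * μ.real A := by
      intro n
      have e : C * μ.real A = ∫ x, C * A.indicator (fun _ => (1 : ℝ)) x ∂μ := by
        rw [integral_const_mul, integral_indicator_const _ hAm]; simp
      rw [e]
      refine norm_integral_le_of_norm_le ?_ (Eventually.of_forall fun x => ?_)
      · exact ((integrable_const (1 : ℝ)).indicator hAm).const_mul C
      · rw [norm_mul, mul_comm]
        have := hgA x
        have h3 := hC n x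
        have h4 : 0 ≤ A.indicator (fun _ => (1 : ℝ)) x := (norm_nonneg _).trans this
        (clear * - h3 this hC0; gcongr)
    have h3 : ‖∫ x, g x * ψ0 x ∂μ‖ ≤ C * μ.real A := le_of_tendsto' h1 h2
    have h4 : ∫ x, g x * ψ0 x ∂μ = ((∫ x, A.indicator (fun x => ‖ψ0 x‖) x ∂μ : ℝ) : ℂ) := by
      rw [← integral_complex_ofReal]
      congr 1; funext x
      by_cases hx : x ∈ A
      · rw [hg, Set.indicator_of_mem hx, Set.indicator_of_mem hx]
        have hpos : 0 < ‖ψ0 x‖ := lt_of_le_of_lt hC0 hx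
        have : (starRingEnd ℂ) (ψ0 x) * ((‖ψ0 x‖⁻¹ : ℝ) : ℂ) * ψ0 x =
            ((‖ψ0 x‖⁻¹ : ℝ) : ℂ) * (ψ0 x * (starRingEnd ℂ) (ψ0 x)) := by ring
        rw [this, Complex.mul_conj, Complex.normSq_eq_norm_sq, ← Complex.ofReal_mul]
        congr 1
        field_simp
      · rw [hg, Set.indicator_of_notMem hx, Set.indicator_of_notMem hx]; simp
    rw [h4, Complex.norm_real, Real.norm_eq_abs,
      abs_of_nonneg (integral_nonneg fun x => Set.indicator_nonneg (fun _ _ => norm_nonneg _) x)] at h3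
    have h5 : ∫ x, A.indicator (fun x => ‖ψ0 x‖ - C) x ∂μ ≤ 0 := by
      have e : (fun x => A.indicator (fun x => ‖ψ0 x‖ - C) x) =
          fun x => A.indicator (fun x => ‖ψ0 x‖) x - C * A.indicator (fun _ => (1 : ℝ)) x := by
        funext x
        by_cases hx : x ∈ A
        · simp only [Set.indicator_of_mem hx]; ring
        · simp only [Set.indicator_of_notMem hx]; ring
      rw [e, integral_sub (hψ0int.norm.indicator hAm)
        (((integrable_const (1 : ℝ)).indicator hAm).const_mul C), integral_const_mul,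
        integral_indicator_const _ hAm]
      simp only [smul_eq_mul, mul_one]
      linarith only [h3]
    have h6 : 0 ≤ᵐ[μ] fun x => A.indicator (fun x => ‖ψ0 x‖ - C) x :=
      Eventually.of_forall fun x => Set.indicator_nonneg (fun x hx => by
        have : C < ‖ψ0 x‖ := hx
        linarith only [this]) x
    have h7 : (fun x => A.indicator (fun x => ‖ψ0 x‖ - C) x) =ᵐ[μ] 0 := by
      rw [← integral_eq_zero_iff_of_nonneg_ae h6
        ((hψ0int.norm.sub (integrable_const C)).indicator hAm)]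
      exact le_antisymm h5 (integral_nonneg_of_ae h6)
    filter_upwards [h7] with x hx
    by_contra hlt
    push Not at hlt
    have hxA : x ∈ A := hlt
    rw [Set.indicator_of_mem hxA] at hx
    have : ‖ψ0 x‖ - C = 0 := hx
    linarith only [hlt, this]
  refine ⟨fun x => if ‖ψ0 x‖ ≤ C then ψ0 x else 0, ?_, ?_, ?_⟩
  · exact Measurable.ite (measurableSet_le hψ0m.norm measurable_const) hψ0m measurable_const
  · intro x
    simp only
    split_ifs with h
    · exact h
    · simpa only [norm_zero] using hC0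
  · intro g hg hK
    refine (hlim g hg hK).trans_eq ?_
    congr 1
    refine integral_congr_ae ?_
    filter_upwards [hbd] with x hx
    rw [if_pos hx]

/-- real version -/
theorem exists_weak_real {μ : Measure Ω} [IsProbabilityMeasure μ] (Z : ℕ → Ω → ℝ)
    (hZ : ∀ n, Measurable (Z n)) {C : ℝ} (hC : ∀ n x, |Z n x| ≤ C) :
    ∃ ψ : Ω → ℝ, Measurable ψ ∧ (∀ x, |ψ x| ≤ C) ∧ ∀ g : Ω → ℝ, Measurable g →
      (∃ K : ℝ, ∀ x, |g x| ≤ K) →
      Tendsto (fun n => ∫ x, g x * Z n x ∂μ) UU (𝓝 (∫ x, g x * ψ x ∂μ)) := by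
  obtain ⟨ψ, hψm, hψC, hψ⟩ := exists_weak (μ := μ) (fun n x => ((Z n x : ℝ) : ℂ))
    (fun n => Complex.measurable_ofReal.comp (hZ n)) (C := C) (fun n x => by
      rw [Complex.norm_real]; exact hC n x)
  refine ⟨fun x => (ψ x).re, Complex.measurable_re.comp hψm, fun x =>
    (Complex.abs_re_le_norm _).trans (hψC x), ?_⟩
  rintro g hg ⟨K, hK⟩
  have h1 := hψ (fun x => ((g x : ℝ) : ℂ)) (Complex.measurable_ofReal.comp hg)
    ⟨K, fun x => by rw [Complex.norm_real]; exact hK x⟩
  have h2 := (Complex.continuous_re.tendsto _).comp h1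
  refine (h2.congr fun n => ?_).trans_eq ?_
  · simp only [Function.comp]
    have : (fun x => ((g x : ℝ) : ℂ) * ((Z n x : ℝ) : ℂ)) = fun x => ((g x * Z n x : ℝ) : ℂ) := by
      funext x; push_cast; rfl
    rw [this, integral_complex_ofReal, Complex.ofReal_re]
  · congr 1
    have hint : Integrable (fun x => ((g x : ℝ) : ℂ) * ψ x) μ := by
      refine Integrable.of_bound
        ((Complex.measurable_ofReal.comp hg).mul hψm).aestronglyMeasurable (K * C)
        (Eventually.of_forall fun x => ?_)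
      rw [norm_mul, Complex.norm_real]
      have h3 := hK x
      have h4 := hψC x
      have h5 : 0 ≤ K := (abs_nonneg _).trans h3
      exact mul_le_mul h3 h4 (norm_nonneg _) h5
    have h3 := integral_re hint
    have h4 : ∀ x, RCLike.re (((g x : ℝ) : ℂ) * ψ x) = g x * (ψ x).re := by
      intro x
      simp
    simp_rw [h4] at h3
    rw [h3]; rfl

end Vale.Agent.P102.Ext
end
end

section

section

namespace Vale.Agent.P102.Ext

open MeasureTheory Filter Topology

set_option linter.unusedSectionVars false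

variable {Ω : Type*} [MeasurableSpace Ω]

/-- mixing of a higher order implies mixing of order two -/
theorem MixingOfOrder.two {μ : Measure Ω} [IsProbabilityMeasure μ] {T : Ω ≃ᵐ Ω} {m : ℕ}
    (hm : 2 ≤ m) (h : MixingOfOrder μ T m) : MixingOfOrder μ T 2 := by
  intro A hA ε hε
  obtain ⟨m', rfl⟩ : ∃ m', m = m' + 2 := ⟨m - 2, by omega⟩
  set A' : Fin (m' + 2) → Set Ω := fun i => if i = 0 then A 0 else if i = 1 then A 1 else Set.univ
    with hA'
  have h01 : (1 : Fin (m' + 2)) ≠ 0 := by simp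
  have hA'0 : A' 0 = A 0 := by simp [hA']
  have hA'1 : A' 1 = A 1 := by simp [hA']
  have hA'2 : ∀ i : Fin m', A' i.succ.succ = Set.univ := by
    intro i
    have n0 : (Fin.succ (Fin.succ i) : Fin (m' + 2)) ≠ 0 := Fin.succ_ne_zero _
    have n1 : (Fin.succ (Fin.succ i) : Fin (m' + 2)) ≠ 1 := by
      intro h
      have := congrArg Fin.val h
      simp at this
    simp only [hA', if_neg n0, if_neg n1]
  obtain ⟨N, hN⟩ := h A' (fun i => by
    simp only [hA']
    split_ifs
    · exact hA 0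
    · exact hA 1
    · exact MeasurableSet.univ) ε hε
  refine ⟨max N 0, fun t ht => ?_⟩
  set N' : ℤ := max N 0 with hN'
  have hN0 : 0 ≤ N' := le_max_right _ _
  have hNN : N ≤ N' := le_max_left _ _
  set t' : Fin (m' + 2) → ℤ := fun i => if i = 0 then t 0 else t 1 + (((i : ℕ) : ℤ) - 1) * N' with ht'
  have ht01 : N' ≤ t 1 - t 0 := ht 0 1 (by simp only [Fin.isValue, zero_lt_one])
  have hgap : ∀ i j : Fin (m' + 2), i < j → N ≤ t' j - t' i := by
    intro i j hij
    have hj : j ≠ 0 := by rintro rfl; simp at hij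
    have hj1 : (1 : ℤ) ≤ ((j : ℕ) : ℤ) := by
      have : (j : ℕ) ≠ 0 := fun h => hj (Fin.ext h)
      omega
    have hij' : ((i : ℕ) : ℤ) + 1 ≤ ((j : ℕ) : ℤ) := by exact_mod_cast hij
    simp only [ht', if_neg hj]
    split_ifs with hi
    · nlinarith only [hNN, ht01, hN0, hj1]
    · nlinarith only [hNN, hN0, hij']
  have key := hN t' hgap
  have e1 : (⋂ i, iter T (t' i) ⁻¹' A' i) = ⋂ i, iter T (t i) ⁻¹' A i := by
    ext x
    simp only [Set.mem_iInter, Set.mem_preimage]
    rw [Fin.forall_fin_succ, Fin.forall_fin_succ, Fin.forall_fin_two]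
    have s1 : (Fin.succ 0 : Fin (m' + 2)) = 1 := rfl
    rw [s1, hA'0, hA'1]
    have t0 : t' 0 = t 0 := by simp [ht']
    have t1 : t' 1 = t 1 := by simp only [ht', Fin.isValue, one_ne_zero, ↓reduceIte, Fin.coe_ofNat_eq_mod, Nat.one_mod, Nat.cast_one, sub_self, zero_mul, add_zero]
    rw [t0, t1]
    simp only [hA'2, Set.mem_univ, implies_true, and_true]
  have e2 : ∏ i, μ.real (A' i) = ∏ i, μ.real (A i) := by
    rw [Fin.prod_univ_succ, Fin.prod_univ_succ, Fin.prod_univ_two]
    have s1 : (Fin.succ 0 : Fin (m' + 2)) = 1 := rfl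
    rw [s1, hA'0, hA'1]
    simp only [Fin.isValue, hA'2, probReal_univ, Finset.prod_const_one, mul_one]
  rw [e1, e2] at key
  exact key

theorem mix2_pos {μ : Measure Ω} [IsProbabilityMeasure μ] {T : Ω ≃ᵐ Ω}
    (hT : MeasurePreserving T μ μ) (h : MixingOfOrder μ T 2) (f g : Ω → ℝ) (hf : Measurable f)
    (hg : Measurable g) (hfb : ∃ C : ℝ, ∀ x, |f x| ≤ C) (hgb : ∃ C : ℝ, ∀ x, |g x| ≤ C)
    (ε : ℝ) (hε : 0 < ε) : ∃ N : ℤ, ∀ a : ℤ, N ≤ a →
      |∫ x, f x * g (iter T a x) ∂μ - (∫ x, f x ∂μ) * ∫ x, g x ∂μ| < ε := by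
  by_contra hcon
  push Not at hcon
  choose a ha1 ha2 using fun n : ℕ => hcon (n : ℤ)
  have hat : Tendsto a atTop atTop := tendsto_atTop_mono ha1 tendsto_natCast_atTop_atTop
  have hgaps : Gaps (fun n (i : Fin 2) => if i = 0 then (0 : ℤ) else a n) := by
    intro i j hij
    have hi : i = 0 := by
      have := hij; have h1 := j.isLt; apply Fin.ext; simp; omega
    have hj : j = 1 := by
      have := hij; have h1 := j.isLt; apply Fin.ext; simp; omega
    subst hi hj
    simpa using hat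
  have h1 := h.tendsto_real hT hgaps (fun i => if i = 0 then f else g)
    (fun i => by split_ifs; exacts [hf, hg]) (fun i => by split_ifs; exacts [hfb, hgb])
  simp only [Fin.prod_univ_two, if_true] at h1
  have s1 : (1 : Fin 2) ≠ 0 := by simp
  simp only [if_neg s1, iter_zero] at h1
  rw [Metric.tendsto_atTop] at h1
  obtain ⟨n, hn⟩ := h1 ε hε
  have h2 := hn n le_rfl
  rw [Real.dist_eq] at h2
  exact absurd h2 (not_lt.2 (ha2 n))

theorem mix2 {μ : Measure Ω} [IsProbabilityMeasure μ] {T : Ω ≃ᵐ Ω}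
    (hT : MeasurePreserving T μ μ) (h : MixingOfOrder μ T 2) (f g : Ω → ℝ) (hf : Measurable f)
    (hg : Measurable g) (hfb : ∃ C : ℝ, ∀ x, |f x| ≤ C) (hgb : ∃ C : ℝ, ∀ x, |g x| ≤ C)
    {ι : Type*} {l : Filter ι} (a : ι → ℤ) (ha : Tendsto (fun i => |a i|) l atTop) :
    Tendsto (fun i => ∫ x, f x * g (iter T (a i) x) ∂μ) l (𝓝 ((∫ x, f x ∂μ) * ∫ x, g x ∂μ)) := by
  rw [Metric.tendsto_nhds]
  intro ε hε
  obtain ⟨N1, hN1⟩ := mix2_pos hT h f g hf hg hfb hgb ε hε
  obtain ⟨N2, hN2⟩ := mix2_pos hT h g f hg hf hgb hfb ε hε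
  filter_upwards [ha.eventually_ge_atTop (max N1 N2)] with i hi
  rw [Real.dist_eq]
  rcases le_or_gt 0 (a i) with h0 | h0
  · rw [abs_of_nonneg h0] at hi
    exact hN1 _ ((le_max_left _ _).trans hi)
  · rw [abs_of_neg h0] at hi
    have := hN2 _ ((le_max_right _ _).trans hi)
    have e : ∫ x, g x * f (iter T (-a i) x) ∂μ = ∫ x, f x * g (iter T (a i) x) ∂μ := by
      have h1 := integral_comp_iter hT (a i) (fun x => g x * f (iter T (-a i) x))
        (hg.mul (hf.comp (measurable_iter T _))).aestronglyMeasurable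
      rw [← h1]
      congr 1; funext x
      rw [iter_neg_apply, mul_comm]
    rw [e, mul_comm (∫ x, g x ∂μ)] at this
    exact this

/-- moving the shift to the other factor -/
theorem integral_mul_shift {μ : Measure Ω} {T : Ω ≃ᵐ Ω} (hT : MeasurePreserving T μ μ)
    (f g : Ω → ℝ) (hf : Measurable f) (hg : Measurable g) (a : ℤ) :
    ∫ x, f x * g (iter T a x) ∂μ = ∫ x, f (iter T (-a) x) * g x ∂μ := by
  have h1 := integral_comp_iter hT a (fun x => f (iter T (-a) x) * g x)
    ((hf.comp (measurable_iter T _)).mul hg).aestronglyMeasurable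
  rw [← h1]
  congr 1; funext x
  rw [iter_neg_apply]

/-- almost everywhere inequality from test functions -/
theorem ae_le_of_test {μ : Measure Ω} [IsProbabilityMeasure μ] {F G : Ω → ℝ}
    (hF : Integrable F μ) (hG : Integrable G μ)
    (h : ∀ g : Ω → ℝ, Measurable g → (∀ x, 0 ≤ g x) → (∀ x, g x ≤ 1) →
      ∫ x, g x * F x ∂μ ≤ ∫ x, g x * G x ∂μ) : ∀ᵐ x ∂μ, F x ≤ G x := by
  refine ae_le_of_forall_setIntegral_le hF hG fun A hA _ => ?_
  have h1 := h (A.indicator fun _ => 1) (measurable_const.indicator hA)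
    (fun x => Set.indicator_nonneg (fun _ _ => zero_le_one) x)
    (fun x => by by_cases hx : x ∈ A <;> simp [hx])
  have e : ∀ H : Ω → ℝ, ∫ x, A.indicator (fun _ => (1 : ℝ)) x * H x ∂μ = ∫ x in A, H x ∂μ := by
    intro H
    rw [← integral_indicator hA]
    congr 1; funext x
    by_cases hx : x ∈ A <;> simp [hx]
  rw [e, e] at h1
  exact h1

end Vale.Agent.P102.Ext
end
end

section

section

namespace Vale.Agent.P102.Ext

open MeasureTheory Filter Topology

set_option linter.unusedSectionVars false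

variable {Ω : Type*} [MeasurableSpace Ω]

/-- pointwise distance to one -/
noncomputable def pn (w : Additive (Ω → Circle)) (x : Ω) : ℝ := ‖ev w x - 1‖

theorem pn_nonneg (w : Additive (Ω → Circle)) (x : Ω) : 0 ≤ pn w x := norm_nonneg _

theorem pn_le_two (w : Additive (Ω → Circle)) (x : Ω) : pn w x ≤ 2 := by
  unfold pn
  refine (norm_sub_le _ _).trans ?_
  rw [norm_ev, norm_one]; norm_num

theorem pn_add (v w : Additive (Ω → Circle)) (x : Ω) : pn (v + w) x ≤ pn v x + pn w x := by
  unfold pn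
  rw [ev_add]
  have : ev v x * ev w x - 1 = (ev v x - 1) + ev v x * (ev w x - 1) := by ring
  rw [this]
  refine (norm_add_le _ _).trans ?_
  rw [norm_mul, norm_ev, one_mul]

theorem pn_neg (w : Additive (Ω → Circle)) (x : Ω) : pn (-w) x = pn w x := by
  unfold pn
  rw [ev_neg]
  have : (ev w x)⁻¹ - 1 = (ev w x)⁻¹ * (1 - ev w x) := by
    rw [mul_sub, inv_mul_cancel₀ (ev_ne_zero w x), mul_one]
  rw [this, norm_mul, norm_inv, norm_ev, inv_one, one_mul, norm_sub_rev]

theorem pn_sub (v w : Additive (Ω → Circle)) (x : Ω) : pn (v - w) x ≤ pn v x + pn w x := by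
  rw [sub_eq_add_neg]
  refine (pn_add _ _ _).trans ?_
  rw [pn_neg]

theorem pn_zero (x : Ω) : pn (0 : Additive (Ω → Circle)) x = 0 := by
  unfold pn; rw [ev_zero]; simp

theorem pn_shift (T : Ω ≃ᵐ Ω) (m : ℤ) (w : Additive (Ω → Circle)) (x : Ω) :
    pn (shiftEnd T m w) x = pn w (iter T m x) := rfl

theorem pn_unit (s : ℤˣ) (w : Additive (Ω → Circle)) (x : Ω) : pn ((s : ℤ) • w) x = pn w x := by
  rcases Int.units_eq_one_or s with h | h
  · rw [h]; simp
  · rw [h]; simp [pn_neg]

theorem pn_sum {ι : Type*} (s : Finset ι) (w : ι → Additive (Ω → Circle)) (x : Ω) :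
    pn (∑ i ∈ s, w i) x ≤ ∑ i ∈ s, pn (w i) x := by
  classical
  induction s using Finset.induction_on with
  | empty => simp [pn_zero]
  | insert a s ha ih =>
    rw [Finset.sum_insert ha, Finset.sum_insert ha]
    refine (pn_add _ _ _).trans ?_
    gcongr

theorem measurable_pn {w : Additive (Ω → Circle)} (hw : w ∈ measSub Ω) : Measurable (pn w) := by
  have h1 : Measurable (ev w) := hw
  exact (h1.sub_const 1).norm

theorem pn_sq (w : Additive (Ω → Circle)) (x : Ω) : pn w x ^ 2 = 2 * (1 - (ev w x).re) := by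
  unfold pn
  rw [← Complex.normSq_eq_norm_sq, Complex.normSq_sub]
  have h1 : Complex.normSq (ev w x) = 1 := by rw [Complex.normSq_eq_norm_sq, norm_ev]; simp
  rw [h1]; simp only [map_one, mul_one]; ring

theorem one_sub_re_le (w : Additive (Ω → Circle)) (x : Ω) : 1 - (ev w x).re ≤ pn w x := by
  have h1 := pn_sq w x
  have h2 := pn_le_two w x
  have h3 := pn_nonneg w x
  nlinarith

theorem pn_le_eta (w : Additive (Ω → Circle)) (x : Ω) {η : ℝ} (hη : 0 < η) :
    pn w x ≤ η / 2 + η⁻¹ * (1 - (ev w x).re) := by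
  have h1 := pn_sq w x
  have h2 : η⁻¹ * (1 - (ev w x).re) = pn w x ^ 2 / (2 * η) := by
    rw [h1]; field_simp
  rw [h2]
  have h3 : 0 ≤ (pn w x - η) ^ 2 / (2 * η) := by (clear * - hη; positivity)
  have h4 : (pn w x - η) ^ 2 / (2 * η) = pn w x ^ 2 / (2 * η) - pn w x + η / 2 := by
    field_simp; ring
  linarith only [h3, h4]

theorem ev_sub (v w : Additive (Ω → Circle)) (x : Ω) :
    ev (v - w) x = ev v x * (starRingEnd ℂ) (ev w x) := by
  rw [sub_eq_add_neg, ev_add, ev_neg, inv_ev]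

/-- signed sum of monomials -/
noncomputable def pol {ι : Type*} [Fintype ι] (s : ι → ℤˣ) (a : ι → ℤ) : LaurentPolynomial ℤ :=
  ∑ i, (s i : ℤ) • LaurentPolynomial.T (a i)

theorem rho_pol {ι : Type*} [Fintype ι] (T : Ω ≃ᵐ Ω) (s : ι → ℤˣ) (a : ι → ℤ)
    (w : Additive (Ω → Circle)) :
    rho T (pol s a) w = ∑ i, (s i : ℤ) • shiftEnd T (a i) w := by
  unfold pol
  rw [map_sum, LinearMap.sum_apply]
  refine Finset.sum_congr rfl fun i _ => ?_
  rw [map_zsmul, LinearMap.smul_apply, rho_T]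

theorem rho_comm (T : Ω ≃ᵐ Ω) (p q : LaurentPolynomial ℤ) (w : Additive (Ω → Circle)) :
    rho T p (rho T q w) = rho T q (rho T p w) := by
  rw [← rho_mul_apply, mul_comm, rho_mul_apply]

theorem pn_rho_pol {ι : Type*} [Fintype ι] (T : Ω ≃ᵐ Ω) (s : ι → ℤˣ) (a : ι → ℤ)
    (w : Additive (Ω → Circle)) (x : Ω) :
    pn (rho T (pol s a) w) x ≤ ∑ i, pn w (iter T (a i) x) := by
  rw [rho_pol]
  refine (pn_sum _ _ _).trans (le_of_eq ?_)
  exact Finset.sum_congr rfl fun i _ => by rw [pn_unit, pn_shift]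

theorem shiftEnd_zero (T : Ω ≃ᵐ Ω) (w : Additive (Ω → Circle)) : shiftEnd T 0 w = w := by
  apply ev_ext; intro x; rw [ev_shift, iter_zero]

theorem rho_pol_sub {ι : Type*} [Fintype ι] [DecidableEq ι] (T : Ω ≃ᵐ Ω) (s : ι → ℤˣ) (a : ι → ℤ)
    (i0 : ι) (hs : s i0 = 1) (ha : a i0 = 0) (w : Additive (Ω → Circle)) :
    rho T (pol s a) w - w = ∑ i ∈ Finset.univ.erase i0, (s i : ℤ) • shiftEnd T (a i) w := by
  rw [rho_pol, ← Finset.add_sum_erase Finset.univ _ (Finset.mem_univ i0), hs, ha, shiftEnd_zero]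
  simp only [Units.val_one, one_smul, Finset.mem_univ, Finset.sum_erase_eq_sub, add_sub_cancel_left]

theorem pn_rho_pol_sub {ι : Type*} [Fintype ι] [DecidableEq ι] (T : Ω ≃ᵐ Ω) (s : ι → ℤˣ)
    (a : ι → ℤ) (i0 : ι) (hs : s i0 = 1) (ha : a i0 = 0) (w : Additive (Ω → Circle)) (x : Ω) :
    pn (rho T (pol s a) w - w) x ≤ ∑ i ∈ Finset.univ.erase i0, pn w (iter T (a i) x) := by
  rw [rho_pol_sub T s a i0 hs ha]
  refine (pn_sum _ _ _).trans (le_of_eq ?_)
  exact Finset.sum_congr rfl fun i _ => by rw [pn_unit, pn_shift]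

theorem integrable_bdd {μ : Measure Ω} [IsProbabilityMeasure μ] {f : Ω → ℝ} (hf : Measurable f)
    {C : ℝ} (hC : ∀ x, |f x| ≤ C) : Integrable f μ :=
  Integrable.of_bound hf.aestronglyMeasurable C (Eventually.of_forall fun x => by
    rw [Real.norm_eq_abs]; exact hC x)

theorem integrable_bddC {μ : Measure Ω} [IsProbabilityMeasure μ] {f : Ω → ℂ} (hf : Measurable f)
    {C : ℝ} (hC : ∀ x, ‖f x‖ ≤ C) : Integrable f μ :=
  Integrable.of_bound hf.aestronglyMeasurable C (Eventually.of_forall hC)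

end Vale.Agent.P102.Ext
end
end

section

section

namespace Vale.Agent.P102.Ext

open MeasureTheory Filter Topology

set_option linter.unusedSectionVars false

variable {Ω : Type*} [MeasurableSpace Ω]

theorem diff_bound {ι : Type*} [Fintype ι] [DecidableEq ι] (T : Ω ≃ᵐ Ω) (s : ι → ℤˣ)
    (a b : ι → ℤ) (i0 : ι) (hs : s i0 = 1) (ha : a i0 = 0) (hb : b i0 = 0)
    (u : Additive (Ω → Circle)) (x : Ω) :
    pn (rho T (pol s b) u - rho T (pol s a) u) x ≤
      ∑ i ∈ Finset.univ.erase i0, pn (rho T (pol s a) u) (iter T (b i) x) +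
      ∑ i ∈ Finset.univ.erase i0, pn (rho T (pol s b) u) (iter T (a i) x) := by
  have e : rho T (pol s b) u - rho T (pol s a) u =
      (rho T (pol s b) (rho T (pol s a) u) - rho T (pol s a) u) -
      (rho T (pol s a) (rho T (pol s b) u) - rho T (pol s b) u) := by
    rw [rho_comm T (pol s b) (pol s a)]; abel
  rw [e]
  refine (pn_sub _ _ _).trans ?_
  exact add_le_add (pn_rho_pol_sub T s b i0 hs hb _ x) (pn_rho_pol_sub T s a i0 hs ha _ x)

theorem int_re {μ : Measure Ω} [IsProbabilityMeasure μ] (g : Ω → ℝ) (hg : Measurable g)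
    (hgb : ∃ C : ℝ, ∀ x, |g x| ≤ C) {w : Ω → ℂ} (hw : Measurable w) (hwb : ∀ x, ‖w x‖ ≤ 1) :
    ∫ x, g x * (1 - (w x).re) ∂μ = ∫ x, g x ∂μ - (∫ x, (g x : ℂ) * w x ∂μ).re := by
  obtain ⟨C, hC⟩ := hgb
  have hint : Integrable (fun x => ((g x : ℝ) : ℂ) * w x) μ := by
    refine integrable_bddC ((Complex.measurable_ofReal.comp hg).mul hw) (C := C * 1) fun x => ?_
    rw [norm_mul, Complex.norm_real]
    have h3 := hC x
    have h5 : 0 ≤ C := (abs_nonneg _).trans h3
    exact mul_le_mul h3 (hwb x) (norm_nonneg _) h5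
  have h3 := integral_re hint
  have h4 : ∀ x, RCLike.re (((g x : ℝ) : ℂ) * w x) = g x * (w x).re := by
    intro x
    simp
  simp_rw [h4] at h3
  have h5 : (∫ x, (g x : ℂ) * w x ∂μ).re = ∫ x, g x * (w x).re ∂μ := h3.symm
  rw [h5]
  have i1 : Integrable g μ := integrable_bdd hg hC
  have i2 : Integrable (fun x => g x * (w x).re) μ := by
    refine integrable_bdd (hg.mul (Complex.measurable_re.comp hw)) (C := C * 1) fun x => ?_
    rw [abs_mul]
    have h3 := hC x
    have h5 : 0 ≤ C := (abs_nonneg _).trans h3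
    exact mul_le_mul h3 ((Complex.abs_re_le_norm _).trans (hwb x)) (abs_nonneg _) h5
  rw [← integral_sub i1 i2]
  congr 1; funext x; ring

theorem claim1 {μ : Measure Ω} [IsProbabilityMeasure μ] {T : Ω ≃ᵐ Ω}
    (hT : MeasurePreserving T μ μ) (h2 : MixingOfOrder μ T 2)
    {ι : Type*} [Fintype ι] [DecidableEq ι] (i0 : ι) (s : ι → ℤˣ) (hs : s i0 = 1)
    (d : ℕ → ι → ℤ) (hd0 : ∀ j, d j i0 = 0)
    (hd : ∀ i, i ≠ i0 → Tendsto (fun j => |d j i|) atTop atTop)
    (u : Additive (Ω → Circle)) (hu : u ∈ measSub Ω) (ε : ℝ)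
    (hε : ∀ j, dd μ (rho T (pol s (d j)) u) ≤ ε)
    (ψ : Ω → ℂ) (hψm : Measurable ψ) (hψ1 : ∀ x, ‖ψ x‖ ≤ 1)
    (hψ : ∀ g : Ω → ℂ, Measurable g → (∃ K : ℝ, ∀ x, ‖g x‖ ≤ K) →
      Tendsto (fun n => ∫ x, g x * ev (rho T (pol s (d n)) u) x ∂μ) UU (𝓝 (∫ x, g x * ψ x ∂μ))) :
    ∀ᵐ x ∂μ, 1 - ‖ψ x‖ ^ 2 ≤ 2 * (Fintype.card ι : ℝ) * ε := by
  set Z : ℕ → Additive (Ω → Circle) := fun j => rho T (pol s (d j)) u with hZ
  have hZm : ∀ j, Z j ∈ measSub Ω := fun j => rho_mem T _ (shift_measSub T) _ u hu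
  have hε0 : 0 ≤ ε := (dd_nonneg μ _).trans (hε 0)
  set M : ℝ := (Fintype.card ι : ℝ) with hM
  have hcard : (((Finset.univ : Finset ι).erase i0).card : ℝ) ≤ M := by
    rw [hM]
    exact_mod_cast (Finset.card_le_univ _)
  obtain ⟨β, hβm, hβ2, hβ⟩ := exists_weak_real (μ := μ) (fun j => pn (Z j))
    (fun j => measurable_pn (hZm j)) (C := 2)
    (fun j x => by rw [abs_of_nonneg (pn_nonneg _ _)]; exact pn_le_two _ _)
  have hβint : ∫ x, β x ∂μ ≤ ε := by
    have h1 := hβ (fun _ => 1) measurable_const ⟨1, fun _ => by simp⟩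
    simp only [one_mul] at h1
    exact le_of_tendsto' h1 hε
  refine ae_le_of_test ?_ (integrable_const _) ?_
  · refine integrable_bdd (measurable_const.sub (hψm.norm.pow_const 2)) (C := 1) fun x => ?_
    have h1 := hψ1 x
    have h2 := norm_nonneg (ψ x)
    rw [abs_of_nonneg (by nlinarith only [h1, h2])]
    nlinarith only []
  intro g hg hg0 hg1
  have hgb : ∃ C : ℝ, ∀ x, |g x| ≤ C := ⟨1, fun x => by rw [abs_of_nonneg (hg0 x)]; exact hg1 x⟩
  have hgi : Integrable g μ := by
    obtain ⟨C, hC⟩ := hgb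
    exact integrable_bdd hg hC
  have hgI : 0 ≤ ∫ x, g x ∂μ := integral_nonneg hg0
  have hgc : Measurable (fun x => ((g x : ℝ) : ℂ)) := Complex.measurable_ofReal.comp hg
  have hconj : ∀ j, Measurable (fun x => (starRingEnd ℂ) (ev (Z j) x)) := fun j =>
    Complex.continuous_conj.measurable.comp (show Measurable (ev (Z j)) from hZm j)
  -- step (i)
  have hi : ∀ j, ∫ x, g x ∂μ - (∫ x, ((g x : ℂ) * (starRingEnd ℂ) (ev (Z j) x)) * ψ x ∂μ).re ≤
      M * ε * ∫ x, g x ∂μ + ∑ i ∈ Finset.univ.erase i0, ∫ x, g x * β (iter T (d j i) x) ∂μ := by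
    intro j
    have hlim1 : Tendsto (fun j' => ∫ x, g x ∂μ -
        (∫ x, ((g x : ℂ) * (starRingEnd ℂ) (ev (Z j) x)) * ev (Z j') x ∂μ).re) UU
        (𝓝 (∫ x, g x ∂μ - (∫ x, ((g x : ℂ) * (starRingEnd ℂ) (ev (Z j) x)) * ψ x ∂μ).re)) := by
      refine tendsto_const_nhds.sub ((Complex.continuous_re.tendsto _).comp
        (hψ _ (hgc.mul (hconj j)) ⟨1, fun x => ?_⟩))
      rw [norm_mul, RCLike.norm_conj, norm_ev, mul_one, Complex.norm_real, Real.norm_eq_abs,
        abs_of_nonneg (hg0 x)]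
      exact hg1 x
    have hlim2 : Tendsto (fun j' =>
        ∑ i ∈ Finset.univ.erase i0, ∫ x, g x * pn (Z j) (iter T (d j' i) x) ∂μ +
        ∑ i ∈ Finset.univ.erase i0, ∫ x, g x * pn (Z j') (iter T (d j i) x) ∂μ) UU
        (𝓝 (∑ i ∈ Finset.univ.erase i0, (∫ x, g x ∂μ) * ∫ x, pn (Z j) x ∂μ +
          ∑ i ∈ Finset.univ.erase i0, ∫ x, g x * β (iter T (d j i) x) ∂μ)) := by
      refine Tendsto.add (tendsto_finsetSum _ fun i hi => ?_) (tendsto_finsetSum _ fun i hi => ?_)
      · exact mix2 hT h2 g (pn (Z j)) hg (measurable_pn (hZm j)) hgb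
          ⟨2, fun x => by rw [abs_of_nonneg (pn_nonneg _ _)]; exact pn_le_two _ _⟩ _
          ((hd i (Finset.ne_of_mem_erase hi)).mono_left UU_le)
      · have := hβ (fun x => g (iter T (-(d j i)) x)) (hg.comp (measurable_iter T _)) (by
          obtain ⟨C, hC⟩ := hgb
          exact ⟨C, fun x => hC _⟩)
        refine (this.congr fun j' => ?_).trans_eq ?_
        · rw [integral_mul_shift hT g _ hg (measurable_pn (hZm j'))]
        · rw [integral_mul_shift hT g _ hg hβm]
    have hle : ∀ j', ∫ x, g x ∂μ -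
        (∫ x, ((g x : ℂ) * (starRingEnd ℂ) (ev (Z j) x)) * ev (Z j') x ∂μ).re ≤
        ∑ i ∈ Finset.univ.erase i0, ∫ x, g x * pn (Z j) (iter T (d j' i) x) ∂μ +
        ∑ i ∈ Finset.univ.erase i0, ∫ x, g x * pn (Z j') (iter T (d j i) x) ∂μ := by
      intro j'
      have hsm : Z j' - Z j ∈ measSub Ω := (measSub Ω).sub_mem (hZm j') (hZm j)
      have e1 : (∫ x, ((g x : ℂ) * (starRingEnd ℂ) (ev (Z j) x)) * ev (Z j') x ∂μ) =
          ∫ x, (g x : ℂ) * ev (Z j' - Z j) x ∂μ := by
        congr 1; funext x; rw [ev_sub]; ring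
      rw [e1, ← int_re g hg hgb (w := ev (Z j' - Z j)) hsm (fun x => (norm_ev _ x).le)]
      have hpnint : ∀ w ∈ measSub Ω, ∀ a : ℤ, Integrable (fun x => g x * pn w (iter T a x)) μ := by
        intro w hw a
        refine integrable_bdd (hg.mul ((measurable_pn hw).comp (measurable_iter T a))) (C := 1 * 2)
          fun x => ?_
        rw [abs_mul, abs_of_nonneg (hg0 x), abs_of_nonneg (pn_nonneg _ _)]
        exact mul_le_mul (hg1 x) (pn_le_two _ _) (pn_nonneg _ _) zero_le_one
      rw [← integral_finsetSum _ (fun i _ => hpnint _ (hZm j) _),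
        ← integral_finsetSum _ (fun i _ => hpnint _ (hZm j') _),
        ← integral_add (integrable_finsetSum _ (fun i _ => hpnint _ (hZm j) _))
          (integrable_finsetSum _ (fun i _ => hpnint _ (hZm j') _))]
      refine integral_mono ?_ (Integrable.add (integrable_finsetSum _ (fun i _ => hpnint _ (hZm j) _))
          (integrable_finsetSum _ (fun i _ => hpnint _ (hZm j') _))) fun x => ?_
      · refine integrable_bdd (hg.mul (measurable_const.sub
          (Complex.measurable_re.comp (show Measurable (ev (Z j' - Z j)) from hsm)))) (C := 1 * 2)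
          fun x => ?_
        rw [abs_mul, abs_of_nonneg (hg0 x)]
        refine mul_le_mul (hg1 x) ?_ (abs_nonneg _) zero_le_one
        have h1 := Complex.abs_re_le_norm (ev (Z j' - Z j) x)
        rw [norm_ev, abs_le] at h1
        rw [abs_le]
        constructor <;> linarith only [h1]
      · simp only
        rw [← Finset.mul_sum, ← Finset.mul_sum, ← mul_add]
        refine mul_le_mul_of_nonneg_left ?_ (hg0 x)
        exact (one_sub_re_le _ x).trans (diff_bound T s (d j) (d j') i0 hs (hd0 j) (hd0 j') u x)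
    refine (le_of_tendsto_of_tendsto' hlim1 hlim2 hle).trans ?_
    refine add_le_add ?_ le_rfl
    rw [Finset.sum_const, nsmul_eq_mul]
    have h3 : ∫ x, pn (Z j) x ∂μ ≤ ε := hε j
    have h4 : 0 ≤ ∫ x, pn (Z j) x ∂μ := integral_nonneg (pn_nonneg _)
    calc (((Finset.univ : Finset ι).erase i0).card : ℝ) * ((∫ x, g x ∂μ) * ∫ x, pn (Z j) x ∂μ)
        ≤ M * ((∫ x, g x ∂μ) * ε) := by (clear * - hcard h3 hgI h4; gcongr)
      _ = M * ε * ∫ x, g x ∂μ := by ring
  -- step (ii)
  have hL : Tendsto (fun j => ∫ x, g x ∂μ -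
      (∫ x, ((g x : ℂ) * (starRingEnd ℂ) (ev (Z j) x)) * ψ x ∂μ).re) UU
      (𝓝 (∫ x, g x ∂μ - (∫ x, ((g x : ℂ) * (starRingEnd ℂ) (ψ x)) * ψ x ∂μ).re)) := by
    refine tendsto_const_nhds.sub ?_
    have h1 := hψ (fun x => (g x : ℂ) * (starRingEnd ℂ) (ψ x))
      (hgc.mul (Complex.continuous_conj.measurable.comp hψm)) ⟨1, fun x => by
        rw [norm_mul, RCLike.norm_conj, Complex.norm_real, Real.norm_eq_abs, abs_of_nonneg (hg0 x)]
        exact mul_le_one₀ (hg1 x) (norm_nonneg _) (hψ1 x)⟩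
    refine ((Complex.continuous_re.tendsto _).comp h1).congr fun j => ?_
    simp only [Function.comp]
    rw [← Complex.conj_re, ← integral_conj]
    congr 2; funext x
    simp only [map_mul, Complex.conj_conj, Complex.conj_ofReal]
    ring
  have hR : Tendsto (fun j => M * ε * ∫ x, g x ∂μ +
      ∑ i ∈ Finset.univ.erase i0, ∫ x, g x * β (iter T (d j i) x) ∂μ) UU
      (𝓝 (M * ε * ∫ x, g x ∂μ + ∑ i ∈ Finset.univ.erase i0, (∫ x, g x ∂μ) * ∫ x, β x ∂μ)) := by
    refine tendsto_const_nhds.add (tendsto_finsetSum _ fun i hi => ?_)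
    exact mix2 hT h2 g β hg hβm hgb ⟨2, hβ2⟩ _ ((hd i (Finset.ne_of_mem_erase hi)).mono_left UU_le)
  have hfin := le_of_tendsto_of_tendsto' hL hR hi
  have e2 : (∫ x, ((g x : ℂ) * (starRingEnd ℂ) (ψ x)) * ψ x ∂μ).re = ∫ x, g x * ‖ψ x‖ ^ 2 ∂μ := by
    have : (fun x => ((g x : ℂ) * (starRingEnd ℂ) (ψ x)) * ψ x) =
        fun x => ((g x * ‖ψ x‖ ^ 2 : ℝ) : ℂ) := by
      funext x
      rw [mul_assoc, mul_comm ((starRingEnd ℂ) (ψ x)), Complex.mul_conj, Complex.normSq_eq_norm_sq]
      push_cast; ring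
    rw [this, integral_complex_ofReal, Complex.ofReal_re]
  rw [e2] at hfin
  have i3 : Integrable (fun x => g x * ‖ψ x‖ ^ 2) μ := by
    refine integrable_bdd (hg.mul (hψm.norm.pow_const 2)) (C := 1) fun x => ?_
    have h1 := hψ1 x
    have h2 := norm_nonneg (ψ x)
    rw [abs_mul, abs_of_nonneg (hg0 x), abs_of_nonneg (by (clear * -; positivity))]
    exact mul_le_one₀ (hg1 x) (by (clear * -; positivity)) (by nlinarith only [h1, h2])
  have e3 : ∫ x, g x * (1 - ‖ψ x‖ ^ 2) ∂μ = ∫ x, g x ∂μ - ∫ x, g x * ‖ψ x‖ ^ 2 ∂μ := by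
    rw [← integral_sub hgi i3]
    congr 1; funext x; ring
  rw [e3, integral_mul_const]
  refine hfin.trans ?_
  rw [Finset.sum_const, nsmul_eq_mul]
  have h5 : (((Finset.univ : Finset ι).erase i0).card : ℝ) * ((∫ x, g x ∂μ) * ∫ x, β x ∂μ) ≤
      M * ((∫ x, g x ∂μ) * ε) := by
    have h6 : (∫ x, g x ∂μ) * ∫ x, β x ∂μ ≤ (∫ x, g x ∂μ) * ε := by (clear * - hβint hgI; gcongr)
    have h7 : 0 ≤ (∫ x, g x ∂μ) * ε := by (clear * - hgI hε0; positivity)
    calc (((Finset.univ : Finset ι).erase i0).card : ℝ) * ((∫ x, g x ∂μ) * ∫ x, β x ∂μ)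
        ≤ (((Finset.univ : Finset ι).erase i0).card : ℝ) * ((∫ x, g x ∂μ) * ε) := by (clear * - h6; gcongr)
      _ ≤ M * ((∫ x, g x ∂μ) * ε) := by (clear * - hcard hgI hε0; gcongr)
  linarith

end Vale.Agent.P102.Ext
end
end

section

section

namespace Vale.Agent.P102.Ext

open MeasureTheory Filter Topology

set_option linter.unusedSectionVars false

variable {Ω : Type*} [MeasurableSpace Ω]

/-- the phase of a complex valued function -/
noncomputable def psT (ψ : Ω → ℂ) : Additive (Ω → Circle) :=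
  Additive.ofMul fun x => circ (ψ x / ‖ψ x‖)

theorem ev_psT (ψ : Ω → ℂ) (x : Ω) :
    ev (psT ψ) x = if ‖ψ x / ‖ψ x‖‖ = 1 then ψ x / ‖ψ x‖ else 1 :=
  coe_circ _

theorem psT_mem (ψ : Ω → ℂ) (hψ : Measurable ψ) : psT ψ ∈ measSub Ω := by
  change Measurable (ev (psT ψ))
  have : ev (psT ψ) = fun x => if ‖ψ x / ‖ψ x‖‖ = 1 then ψ x / ‖ψ x‖ else 1 := by
    funext x; exact ev_psT ψ x
  rw [this]
  have h1 : Measurable (fun x => ψ x / (‖ψ x‖ : ℂ)) :=
    hψ.div (Complex.measurable_ofReal.comp hψ.norm)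
  exact Measurable.ite (h1.norm (measurableSet_singleton 1)) h1 measurable_const

theorem re_psT (ψ : Ω → ℂ) (x : Ω) : (ψ x * (starRingEnd ℂ) (ev (psT ψ) x)).re = ‖ψ x‖ := by
  by_cases h0 : ψ x = 0
  · rw [h0]; simp
  · have h1 : ‖ψ x‖ ≠ 0 := norm_ne_zero_iff.2 h0
    have h2 : ‖ψ x / ‖ψ x‖‖ = 1 := by
      rw [norm_div, Complex.norm_real, norm_norm]; exact div_self h1
    rw [ev_psT, if_pos h2]
    have : ψ x * (starRingEnd ℂ) (ψ x / ‖ψ x‖) = ((‖ψ x‖ : ℝ) : ℂ) := by
      rw [map_div₀, Complex.conj_ofReal, mul_div_assoc', Complex.mul_conj,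
        Complex.normSq_eq_norm_sq]
      have h3 : ((‖ψ x‖ : ℝ) : ℂ) ≠ 0 := by exact_mod_cast h1
      push_cast
      field_simp
    rw [this, Complex.ofReal_re]

/-- closeness of `Z j` to the phase of its weak limit -/
theorem claimR {μ : Measure Ω} [IsProbabilityMeasure μ] (Z : ℕ → Additive (Ω → Circle))
    (hZm : ∀ j, Z j ∈ measSub Ω) (η K : ℝ) (hη : 0 < η) (hK : 2 * K ≤ η ^ 2)
    (ψ : Ω → ℂ) (hψm : Measurable ψ) (hψ1 : ∀ x, ‖ψ x‖ ≤ 1)
    (hψ : ∀ g : Ω → ℂ, Measurable g → (∃ K : ℝ, ∀ x, ‖g x‖ ≤ K) →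
      Tendsto (fun n => ∫ x, g x * ev (Z n) x ∂μ) UU (𝓝 (∫ x, g x * ψ x ∂μ)))
    (hψK : ∀ᵐ x ∂μ, 1 - ‖ψ x‖ ^ 2 ≤ K)
    (g : Ω → ℝ) (hg : Measurable g) (hg0 : ∀ x, 0 ≤ g x) (hg1 : ∀ x, g x ≤ 1) :
    ∃ (R : ℕ → ℝ) (L : ℝ), Tendsto R UU (𝓝 L) ∧ L ≤ η * ∫ x, g x ∂μ ∧
      ∀ j, ∫ x, g x * pn (Z j - psT ψ) x ∂μ ≤ R j := by
  have hgb : ∃ C : ℝ, ∀ x, |g x| ≤ C := ⟨1, fun x => by rw [abs_of_nonneg (hg0 x)]; exact hg1 x⟩
  have hgi : Integrable g μ := by
    obtain ⟨C, hC⟩ := hgb
    exact integrable_bdd hg hC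
  have hgI : 0 ≤ ∫ x, g x ∂μ := integral_nonneg hg0
  have hgc : Measurable (fun x => ((g x : ℝ) : ℂ)) := Complex.measurable_ofReal.comp hg
  have hps := psT_mem ψ hψm
  have hpsm : Measurable (ev (psT ψ)) := hps
  refine ⟨fun j => η / 2 * (∫ x, g x ∂μ) + η⁻¹ * (∫ x, g x ∂μ -
    (∫ x, ((g x : ℂ) * (starRingEnd ℂ) (ev (psT ψ) x)) * ev (Z j) x ∂μ).re),
    η / 2 * (∫ x, g x ∂μ) + η⁻¹ * (∫ x, g x ∂μ -
    (∫ x, ((g x : ℂ) * (starRingEnd ℂ) (ev (psT ψ) x)) * ψ x ∂μ).re), ?_, ?_, ?_⟩
  · refine tendsto_const_nhds.add (Tendsto.const_mul _ (tendsto_const_nhds.sub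
      ((Complex.continuous_re.tendsto _).comp (hψ _
        (hgc.mul (Complex.continuous_conj.measurable.comp hpsm)) ⟨1, fun x => ?_⟩))))
    rw [norm_mul, RCLike.norm_conj, norm_ev, mul_one, Complex.norm_real, Real.norm_eq_abs,
      abs_of_nonneg (hg0 x)]
    exact hg1 x
  · have e1 : (∫ x, ((g x : ℂ) * (starRingEnd ℂ) (ev (psT ψ) x)) * ψ x ∂μ) =
        ∫ x, (g x : ℂ) * (ψ x * (starRingEnd ℂ) (ev (psT ψ) x)) ∂μ := by
      congr 1; funext x; ring
    rw [e1, ← int_re g hg hgb (w := fun x => ψ x * (starRingEnd ℂ) (ev (psT ψ) x))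
      (hψm.mul (Complex.continuous_conj.measurable.comp hpsm)) (fun x => by
        rw [norm_mul, RCLike.norm_conj, norm_ev, mul_one]; exact hψ1 x)]
    simp_rw [re_psT]
    have h1 : ∫ x, g x * (1 - ‖ψ x‖) ∂μ ≤ ∫ x, g x * (η ^ 2 / 2) ∂μ := by
      refine integral_mono_ae ?_ (hgi.mul_const _) ?_
      · refine integrable_bdd (hg.mul (measurable_const.sub hψm.norm)) (C := 1) fun x => ?_
        have h1 := hψ1 x
        have h2 := norm_nonneg (ψ x)
        rw [abs_mul, abs_of_nonneg (hg0 x), abs_of_nonneg (by linarith)]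
        exact mul_le_one₀ (hg1 x) (by linarith) (by linarith)
      · filter_upwards [hψK] with x hx
        refine mul_le_mul_of_nonneg_left ?_ (hg0 x)
        have h1 := hψ1 x
        have h2 := norm_nonneg (ψ x)
        nlinarith only [hK, hx, h2]
    rw [integral_mul_const] at h1
    have h2 : η⁻¹ * ∫ x, g x * (1 - ‖ψ x‖) ∂μ ≤ η⁻¹ * ((∫ x, g x ∂μ) * (η ^ 2 / 2)) := by
      have := (inv_pos.2 hη).le
      gcongr
    have h3 : η⁻¹ * ((∫ x, g x ∂μ) * (η ^ 2 / 2)) = η / 2 * ∫ x, g x ∂μ := by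
      (clear * - hη; field_simp)
    linarith only [h2, h3]
  · intro j
    have hsm : Z j - psT ψ ∈ measSub Ω := (measSub Ω).sub_mem (hZm j) hps
    have e1 : (∫ x, ((g x : ℂ) * (starRingEnd ℂ) (ev (psT ψ) x)) * ev (Z j) x ∂μ) =
        ∫ x, (g x : ℂ) * ev (Z j - psT ψ) x ∂μ := by
      congr 1; funext x; rw [ev_sub]; ring
    simp only
    rw [e1, ← int_re g hg hgb (w := ev (Z j - psT ψ)) hsm (fun x => (norm_ev _ x).le)]
    have i1 : Integrable (fun x => g x * (1 - (ev (Z j - psT ψ) x).re)) μ := by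
      refine integrable_bdd (hg.mul (measurable_const.sub
        (Complex.measurable_re.comp (show Measurable (ev (Z j - psT ψ)) from hsm)))) (C := 1 * 2)
        fun x => ?_
      rw [abs_mul, abs_of_nonneg (hg0 x)]
      refine mul_le_mul (hg1 x) ?_ (abs_nonneg _) zero_le_one
      have h1 := Complex.abs_re_le_norm (ev (Z j - psT ψ) x)
      rw [norm_ev, abs_le] at h1
      rw [abs_le]
      constructor <;> linarith
    rw [← integral_const_mul, ← integral_const_mul, ← integral_add (hgi.const_mul _) (i1.const_mul _)]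
    refine integral_mono ?_ ((hgi.const_mul _).add (i1.const_mul _)) fun x => ?_
    · refine integrable_bdd (hg.mul (measurable_pn hsm)) (C := 1 * 2) fun x => ?_
      rw [abs_mul, abs_of_nonneg (hg0 x), abs_of_nonneg (pn_nonneg _ _)]
      exact mul_le_mul (hg1 x) (pn_le_two _ _) (pn_nonneg _ _) zero_le_one
    · simp only
      have h1 := pn_le_eta (Z j - psT ψ) x hη
      have h2 := mul_le_mul_of_nonneg_left h1 (hg0 x)
      calc g x * pn (Z j - psT ψ) x ≤ g x * (η / 2 + η⁻¹ * (1 - (ev (Z j - psT ψ) x).re)) := h2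
        _ = η / 2 * g x + η⁻¹ * (g x * (1 - (ev (Z j - psT ψ) x).re)) := by ring

theorem claim2 {μ : Measure Ω} [IsProbabilityMeasure μ] {T : Ω ≃ᵐ Ω}
    (hT : MeasurePreserving T μ μ) (h2 : MixingOfOrder μ T 2)
    {ι : Type*} [Fintype ι] [DecidableEq ι] (i0 : ι) (s : ι → ℤˣ) (hs : s i0 = 1)
    (d : ℕ → ι → ℤ) (hd0 : ∀ j, d j i0 = 0)
    (hd : ∀ i, i ≠ i0 → Tendsto (fun j => |d j i|) atTop atTop)
    (u : Additive (Ω → Circle)) (hu : u ∈ measSub Ω) (ε η K : ℝ) (hη : 0 < η)
    (hK : 2 * K ≤ η ^ 2)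
    (ψ : Ω → ℂ) (hψm : Measurable ψ) (hψ1 : ∀ x, ‖ψ x‖ ≤ 1)
    (hψ : ∀ g : Ω → ℂ, Measurable g → (∃ K : ℝ, ∀ x, ‖g x‖ ≤ K) →
      Tendsto (fun n => ∫ x, g x * ev (rho T (pol s (d n)) u) x ∂μ) UU (𝓝 (∫ x, g x * ψ x ∂μ)))
    (hψK : ∀ᵐ x ∂μ, 1 - ‖ψ x‖ ^ 2 ≤ K)
    (a : ι → ℤ) (ha : dd μ (rho T (pol s a) u) ≤ ε) :
    ∀ᵐ x ∂μ, pn (rho T (pol s a) (u - psT ψ)) x ≤ (Fintype.card ι : ℝ) * (η + ε) := by
  set Z : ℕ → Additive (Ω → Circle) := fun j => rho T (pol s (d j)) u with hZ
  have hZm : ∀ j, Z j ∈ measSub Ω := fun j => rho_mem T _ (shift_measSub T) _ u hu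
  have hps := psT_mem ψ hψm
  set M : ℝ := (Fintype.card ι : ℝ) with hM
  have hcard : (((Finset.univ : Finset ι).erase i0).card : ℝ) ≤ M := by
    rw [hM]
    exact_mod_cast (Finset.card_le_univ _)
  have hε0 : 0 ≤ ε := (dd_nonneg μ _).trans ha
  set W := rho T (pol s a) u with hW
  have hWm : W ∈ measSub Ω := rho_mem T _ (shift_measSub T) _ u hu
  have hVm : rho T (pol s a) (u - psT ψ) ∈ measSub Ω :=
    rho_mem T _ (shift_measSub T) _ _ ((measSub Ω).sub_mem hu hps)
  refine ae_le_of_test ?_ (integrable_const _) ?_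
  · exact integrable_bdd (measurable_pn hVm) (C := 2) fun x => by
      rw [abs_of_nonneg (pn_nonneg _ _)]; exact pn_le_two _ _
  intro g hg hg0 hg1
  have hgb : ∃ C : ℝ, ∀ x, |g x| ≤ C := ⟨1, fun x => by rw [abs_of_nonneg (hg0 x)]; exact hg1 x⟩
  have hgI : 0 ≤ ∫ x, g x ∂μ := integral_nonneg hg0
  choose R L hRL hL hR using fun i => claimR Z hZm η K hη hK ψ hψm hψ1 hψ hψK
    (fun x => g (iter T (-(a i)) x)) (hg.comp (measurable_iter T _)) (fun x => hg0 _) (fun x => hg1 _)
  have hgshift : ∀ i, ∫ x, g (iter T (-(a i)) x) ∂μ = ∫ x, g x ∂μ := fun i =>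
    integral_comp_iter hT _ g hg.aestronglyMeasurable
  have hpnint : ∀ w ∈ measSub Ω, ∀ a : ℤ, Integrable (fun x => g x * pn w (iter T a x)) μ := by
    intro w hw a
    refine integrable_bdd (hg.mul ((measurable_pn hw).comp (measurable_iter T a))) (C := 1 * 2)
      fun x => ?_
    rw [abs_mul, abs_of_nonneg (hg0 x), abs_of_nonneg (pn_nonneg _ _)]
    exact mul_le_mul (hg1 x) (pn_le_two _ _) (pn_nonneg _ _) zero_le_one
  have hlim : Tendsto (fun j => ∑ i, R i j +
      ∑ i ∈ Finset.univ.erase i0, ∫ x, g x * pn W (iter T (d j i) x) ∂μ) UU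
      (𝓝 (∑ i, L i + ∑ i ∈ Finset.univ.erase i0, (∫ x, g x ∂μ) * ∫ x, pn W x ∂μ)) := by
    refine Tendsto.add (tendsto_finsetSum _ fun i _ => hRL i) (tendsto_finsetSum _ fun i hi => ?_)
    exact mix2 hT h2 g (pn W) hg (measurable_pn hWm) hgb
      ⟨2, fun x => by rw [abs_of_nonneg (pn_nonneg _ _)]; exact pn_le_two _ _⟩ _
      ((hd i (Finset.ne_of_mem_erase hi)).mono_left UU_le)
  have hle : ∀ j, ∫ x, g x * pn (rho T (pol s a) (u - psT ψ)) x ∂μ ≤ ∑ i, R i j +
      ∑ i ∈ Finset.univ.erase i0, ∫ x, g x * pn W (iter T (d j i) x) ∂μ := by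
    intro j
    have hsm : Z j - psT ψ ∈ measSub Ω := (measSub Ω).sub_mem (hZm j) hps
    have e : rho T (pol s a) (u - psT ψ) = rho T (pol s a) (Z j - psT ψ) -
        (rho T (pol s (d j)) W - W) := by
      rw [hW, hZ, map_sub, map_sub, rho_comm T (pol s a) (pol s (d j))]
      abel
    have hpt : ∀ x, pn (rho T (pol s a) (u - psT ψ)) x ≤ ∑ i, pn (Z j - psT ψ) (iter T (a i) x) +
        ∑ i ∈ Finset.univ.erase i0, pn W (iter T (d j i) x) := by
      intro x
      rw [e]
      refine (pn_sub _ _ _).trans ?_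
      exact add_le_add (pn_rho_pol T s a _ x) (pn_rho_pol_sub T s (d j) i0 hs (hd0 j) W x)
    have h3 : ∀ i, ∫ x, g x * pn (Z j - psT ψ) (iter T (a i) x) ∂μ ≤ R i j := by
      intro i
      rw [integral_mul_shift hT g _ hg (measurable_pn hsm)]
      exact hR i j
    calc ∫ x, g x * pn (rho T (pol s a) (u - psT ψ)) x ∂μ
        ≤ ∫ x, (∑ i, g x * pn (Z j - psT ψ) (iter T (a i) x) +
          ∑ i ∈ Finset.univ.erase i0, g x * pn W (iter T (d j i) x)) ∂μ := by
          refine integral_mono ?_ ((integrable_finsetSum _ fun i _ => hpnint _ hsm _).add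
            (integrable_finsetSum _ fun i _ => hpnint _ hWm _)) fun x => ?_
          · refine integrable_bdd (hg.mul (measurable_pn hVm)) (C := 1 * 2) fun x => ?_
            rw [abs_mul, abs_of_nonneg (hg0 x), abs_of_nonneg (pn_nonneg _ _)]
            exact mul_le_mul (hg1 x) (pn_le_two _ _) (pn_nonneg _ _) zero_le_one
          · simp only
            rw [← Finset.mul_sum, ← Finset.mul_sum, ← mul_add]
            exact mul_le_mul_of_nonneg_left (hpt x) (hg0 x)
      _ = ∑ i, ∫ x, g x * pn (Z j - psT ψ) (iter T (a i) x) ∂μ +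
          ∑ i ∈ Finset.univ.erase i0, ∫ x, g x * pn W (iter T (d j i) x) ∂μ := by
          rw [integral_add (integrable_finsetSum _ fun i _ => hpnint _ hsm _)
            (integrable_finsetSum _ fun i _ => hpnint _ hWm _),
            integral_finsetSum _ (fun i _ => hpnint _ hsm _),
            integral_finsetSum _ (fun i _ => hpnint _ hWm _)]
      _ ≤ _ := by
          gcongr with i _
          exact h3 i
  have hfin := ge_of_tendsto' hlim hle
  rw [integral_mul_const]
  refine hfin.trans ?_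
  have h4 : ∑ i, L i ≤ M * (η * ∫ x, g x ∂μ) := by
    calc ∑ i, L i ≤ ∑ _i : ι, η * ∫ x, g x ∂μ := Finset.sum_le_sum fun i _ => by
          have := hL i
          rw [hgshift] at this
          exact this
      _ = M * (η * ∫ x, g x ∂μ) := by rw [Finset.sum_const, nsmul_eq_mul, Finset.card_univ]
  have h5 : ∑ i ∈ Finset.univ.erase i0, (∫ x, g x ∂μ) * ∫ x, pn W x ∂μ ≤
      M * ((∫ x, g x ∂μ) * ε) := by
    rw [Finset.sum_const, nsmul_eq_mul]
    have h3 : ∫ x, pn W x ∂μ ≤ ε := ha
    have h4 : 0 ≤ ∫ x, pn W x ∂μ := integral_nonneg (pn_nonneg _)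
    (clear * - hcard h3 hgI h4; gcongr)
  linarith

/-- the phase is close to one -/
theorem claim4 {μ : Measure Ω} [IsProbabilityMeasure μ] (Z : ℕ → Additive (Ω → Circle))
    (hZm : ∀ j, Z j ∈ measSub Ω) (ε η K : ℝ) (hη : 0 < η) (hK : 2 * K ≤ η ^ 2)
    (hZε : ∀ j, dd μ (Z j) ≤ ε)
    (ψ : Ω → ℂ) (hψm : Measurable ψ) (hψ1 : ∀ x, ‖ψ x‖ ≤ 1)
    (hψ : ∀ g : Ω → ℂ, Measurable g → (∃ K : ℝ, ∀ x, ‖g x‖ ≤ K) →
      Tendsto (fun n => ∫ x, g x * ev (Z n) x ∂μ) UU (𝓝 (∫ x, g x * ψ x ∂μ)))
    (hψK : ∀ᵐ x ∂μ, 1 - ‖ψ x‖ ^ 2 ≤ K) : dd μ (psT ψ) ≤ η + ε := by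
  have hps := psT_mem ψ hψm
  obtain ⟨R, L, hRL, hL, hR⟩ := claimR Z hZm η K hη hK ψ hψm hψ1 hψ hψK (fun _ => 1)
    measurable_const (fun _ => zero_le_one) (fun _ => le_rfl)
  have h1 : ∀ j, dd μ (psT ψ) - ε ≤ R j := by
    intro j
    have hsm : Z j - psT ψ ∈ measSub Ω := (measSub Ω).sub_mem (hZm j) hps
    have h2 := hR j
    simp only [one_mul] at h2
    have h3 : dd μ (psT ψ) ≤ dd μ (Z j - psT ψ) + dd μ (Z j) := by
      have e : psT ψ = Z j + -(Z j - psT ψ) := by abel
      have := dd_add (μ := μ) (hZm j) ((measSub Ω).neg_mem hsm)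
      rw [← e, dd_neg] at this
      linarith
    have h4 : dd μ (Z j - psT ψ) = ∫ x, pn (Z j - psT ψ) x ∂μ := rfl
    have h5 := hZε j
    linarith only [h2, h3, h4, h5]
  have h2 := ge_of_tendsto' hRL h1
  simp at hL
  linarith only [h2, hL]

end Vale.Agent.P102.Ext
end
end

section

section

namespace Vale.Agent.P102.Ext

open MeasureTheory Filter Topology

set_option linter.unusedSectionVars false

variable {Ω : Type*} [MeasurableSpace Ω]

/-- evaluation at a point -/
def evHom (x : Ω) : Additive (Ω → Circle) →+ Additive Circle where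
  toFun w := Additive.ofMul (Additive.toMul w x)
  map_zero' := rfl
  map_add' _ _ := rfl

theorem ev_eq_evHom (w : Additive (Ω → Circle)) (x : Ω) :
    ev w x = ((Additive.toMul (evHom x w) : Circle) : ℂ) := rfl

theorem evHom_shift (T : Ω ≃ᵐ Ω) (a : ℤ) (w : Additive (Ω → Circle)) (x : Ω) :
    evHom x (shiftEnd T a w) = evHom (iter T a x) w := rfl

theorem evHom_rho_pol {ι : Type*} [Fintype ι] (T : Ω ≃ᵐ Ω) (s : ι → ℤˣ) (a : ι → ℤ)
    (w : Additive (Ω → Circle)) (x : Ω) :
    evHom x (rho T (pol s a) w) = ∑ i, (s i : ℤ) • evHom (iter T (a i) x) w := by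
  rw [rho_pol, map_sum]
  exact Finset.sum_congr rfl fun i _ => by rw [map_zsmul, evHom_shift]

theorem expHom_rho_pol {μ : Measure Ω} {ι : Type*} [Fintype ι] {T : Ω ≃ᵐ Ω}
    (hT : MeasurePreserving T μ μ) (s : ι → ℤˣ) (a : ι → ℤ)
    (w : Additive (Ω → Circle)) (θ : Ω → ℝ) (h : ∀ᵐ x ∂μ, evHom x w = Circle.expHom (θ x)) :
    ∀ᵐ x ∂μ, evHom x (rho T (pol s a) w) =
      Circle.expHom (∑ i, ((s i : ℤ) : ℝ) * θ (iter T (a i) x)) := by
  have h1 : ∀ᵐ x ∂μ, ∀ i, evHom (iter T (a i) x) w = Circle.expHom (θ (iter T (a i) x)) := by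
    rw [ae_all_iff]; intro i
    exact (mp_iter T hT (a i)).quasiMeasurePreserving.ae h
  filter_upwards [h1] with x hx
  rw [evHom_rho_pol, map_sum]
  refine Finset.sum_congr rfl fun i _ => ?_
  rw [hx i, ← map_zsmul, zsmul_eq_mul]

/-- the angle -/
noncomputable def ang (κ : ℝ) (w : Additive (Ω → Circle)) (x : Ω) : ℝ :=
  if |Complex.arg (ev w x)| ≤ κ then Complex.arg (ev w x) else 0

theorem abs_ang_le {κ : ℝ} (hκ : 0 ≤ κ) (w : Additive (Ω → Circle)) (x : Ω) : |ang κ w x| ≤ κ := by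
  unfold ang
  split_ifs with h
  · exact h
  · simpa only [abs_zero] using hκ

theorem measurable_ang (κ : ℝ) {w : Additive (Ω → Circle)} (hw : w ∈ measSub Ω) :
    Measurable (ang κ w) := by
  have h1 : Measurable (fun x => Complex.arg (ev w x)) :=
    Complex.measurable_arg.comp (show Measurable (ev w) from hw)
  unfold ang
  exact Measurable.ite (measurableSet_le h1.abs measurable_const) h1 measurable_const

theorem abs_arg_le (w : Additive (Ω → Circle)) (x : Ω) :
    |Complex.arg (ev w x)| ≤ Real.pi / 2 * pn w x := by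
  set θ := Complex.arg (ev w x) with hθ
  have h1 : ev w x = Complex.exp (Complex.I * θ) := by
    have := Complex.norm_mul_exp_arg_mul_I (ev w x)
    rw [norm_ev] at this
    rw [mul_comm Complex.I, ← this]
    simp [hθ]
  have h2 : pn w x = 2 * |Real.sin (θ / 2)| := by
    unfold pn
    rw [h1, Complex.norm_exp_I_mul_ofReal_sub_one, Real.norm_eq_abs, abs_mul]
    simp
  have h3 : |θ / 2| ≤ Real.pi / 2 := by
    rw [abs_div, abs_two]
    have := Complex.abs_arg_le_pi (ev w x)
    rw [← hθ] at this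
    linarith only [this]
  have h4 := Real.mul_abs_le_abs_sin h3
  rw [h2]
  rw [abs_div, abs_two] at h4
  have hpi := Real.pi_pos
  have h5 : Real.pi * (2 / Real.pi * (|θ| / 2)) = |θ| := by field_simp
  calc |θ| = Real.pi * (2 / Real.pi * (|θ| / 2)) := h5.symm
    _ ≤ Real.pi * |Real.sin (θ / 2)| := by (clear * - h4; gcongr)
    _ = Real.pi / 2 * (2 * |Real.sin (θ / 2)|) := by ring

theorem evHom_eq_exp_ang {κ : ℝ} (w : Additive (Ω → Circle)) (x : Ω)
    (h : Real.pi / 2 * pn w x ≤ κ) : evHom x w = Circle.expHom (ang κ w x) := by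
  have h1 := (abs_arg_le w x).trans h
  unfold ang
  rw [if_pos h1]
  apply Additive.toMul.injective
  exact (Circle.exp_arg (Additive.toMul (evHom x w))).symm

theorem expHom_inj {a b : ℝ} (h : Circle.expHom a = Circle.expHom b) (ha : |a| < Real.pi)
    (hb : |b| < Real.pi) : a = b := by
  have h1 : Circle.exp a = Circle.exp b := Additive.ofMul.injective h
  rw [abs_lt] at ha hb
  have h2 := Circle.arg_exp ha.1 ha.2.le
  have h3 := Circle.arg_exp hb.1 hb.2.le
  rw [← h2, ← h3, h1]

/-- the function `exp (i τ)` -/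
noncomputable def tauT (τ : Ω → ℝ) : Additive (Ω → Circle) :=
  Additive.ofMul fun x => Circle.exp (τ x)

theorem evHom_tauT (τ : Ω → ℝ) (x : Ω) : evHom x (tauT τ) = Circle.expHom (τ x) := rfl

theorem ev_tauT (τ : Ω → ℝ) (x : Ω) : ev (tauT τ) x = Complex.exp (τ x * Complex.I) := by
  change ((Circle.exp (τ x) : Circle) : ℂ) = _
  rw [Circle.coe_exp]

theorem tauT_mem (τ : Ω → ℝ) (hτ : Measurable τ) : tauT τ ∈ measSub Ω := by
  change Measurable (ev (tauT τ))
  have : ev (tauT τ) = fun x => Complex.exp (τ x * Complex.I) := by funext x; exact ev_tauT τ x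
  rw [this]
  exact Complex.measurable_exp.comp ((Complex.measurable_ofReal.comp hτ).mul measurable_const)

theorem pn_tauT (τ : Ω → ℝ) (x : Ω) : pn (tauT τ) x ≤ |τ x| := by
  unfold pn
  rw [ev_tauT, mul_comm]
  have := Real.norm_exp_I_mul_ofReal_sub_one_le (x := τ x)
  rwa [Real.norm_eq_abs] at this

theorem const_of_evHom {μ : Measure Ω} {w : Additive (Ω → Circle)} {c : Additive Circle}
    (h : ∀ᵐ x ∂μ, evHom x w = c) : w ∈ constSub μ := by
  refine ⟨((Additive.toMul c : Circle) : ℂ), ?_⟩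
  filter_upwards [h] with x hx
  rw [ev_eq_evHom, hx]

end Vale.Agent.P102.Ext
end
end

section

section

namespace Vale.Agent.P102.Ext

open MeasureTheory Filter Topology

set_option linter.unusedSectionVars false

variable {Ω : Type*} [MeasurableSpace Ω]

/-- Stability: an approximate solution of a family of sparse relations is close to an exact
solution. -/
theorem stability {μ : Measure Ω} [IsProbabilityMeasure μ] {T : Ω ≃ᵐ Ω}
    (hT : MeasurePreserving T μ μ) (h2 : MixingOfOrder μ T 2)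
    {ι : Type*} [Fintype ι] [DecidableEq ι] (i0 : ι) (s : ι → ℤˣ) (hs : s i0 = 1)
    (d : ℕ → ι → ℤ) (hd0 : ∀ j, d j i0 = 0)
    (hd : ∀ i, i ≠ i0 → Tendsto (fun j => |d j i|) atTop atTop)
    (u : Additive (Ω → Circle)) (hu : u ∈ measSub Ω) (ε η : ℝ) (hη : 0 < η)
    (hε : ∀ j, dd μ (rho T (pol s (d j)) u) ≤ ε)
    (h4 : 4 * (Fintype.card ι : ℝ) * ε ≤ η ^ 2)
    (hsmall : (Fintype.card ι : ℝ) ^ 2 * (η + ε) < 2) :
    ∃ v ∈ measSub Ω, (∀ a : ι → ℤ, dd μ (rho T (pol s a) u) ≤ ε →
      rho T (pol s a) v ∈ constSub μ) ∧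
      dd μ (u - v) ≤ η + ε + Real.pi / 2 * ((Fintype.card ι : ℝ) * (η + ε)) := by
  set M : ℝ := (Fintype.card ι : ℝ) with hM
  have hM0 : 0 ≤ M := by rw [hM]; (clear * -; positivity)
  have hε0 : 0 ≤ ε := (dd_nonneg μ _).trans (hε 0)
  have hpi := Real.pi_pos
  set Z : ℕ → Additive (Ω → Circle) := fun j => rho T (pol s (d j)) u with hZ
  have hZm : ∀ j, Z j ∈ measSub Ω := fun j => rho_mem T _ (shift_measSub T) _ u hu
  obtain ⟨ψ, hψm, hψ1, hψ⟩ := exists_weak (μ := μ) (fun j => ev (Z j)) (fun j => hZm j) (C := 1)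
    (fun j x => (norm_ev _ x).le)
  have hψK : ∀ᵐ x ∂μ, 1 - ‖ψ x‖ ^ 2 ≤ 2 * M * ε :=
    claim1 hT h2 i0 s hs d hd0 hd u hu ε hε ψ hψm hψ1 hψ
  have hKη : 2 * (2 * M * ε) ≤ η ^ 2 := by linarith only [h4]
  have hps := psT_mem ψ hψm
  set u' : Additive (Ω → Circle) := u - psT ψ with hu'
  have hu'm : u' ∈ measSub Ω := (measSub Ω).sub_mem hu hps
  have hcl2 : ∀ a : ι → ℤ, dd μ (rho T (pol s a) u) ≤ ε →
      ∀ᵐ x ∂μ, pn (rho T (pol s a) u') x ≤ M * (η + ε) := fun a ha =>
    claim2 hT h2 i0 s hs d hd0 hd u hu ε η _ hη hKη ψ hψm hψ1 hψ hψK a ha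
  set κ : ℝ := Real.pi / 2 * (M * (η + ε)) with hκ
  have hκ0 : 0 ≤ κ := by rw [hκ]; (clear * - hη hε0; positivity)
  have hMκ : M * κ < Real.pi := by
    have : M * κ = Real.pi / 2 * (M ^ 2 * (η + ε)) := by rw [hκ]; ring
    rw [this]
    nlinarith only [hsmall, hpi]
  -- angles
  set θ : (ι → ℤ) → Ω → ℝ := fun a => ang κ (rho T (pol s a) u') with hθ
  have hθm : ∀ a, Measurable (θ a) := fun a =>
    measurable_ang κ (rho_mem T _ (shift_measSub T) _ _ hu'm)
  have hθκ : ∀ a x, |θ a x| ≤ κ := fun a x => abs_ang_le hκ0 _ x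
  have hθe : ∀ a : ι → ℤ, dd μ (rho T (pol s a) u) ≤ ε →
      ∀ᵐ x ∂μ, evHom x (rho T (pol s a) u') = Circle.expHom (θ a x) := by
    intro a ha
    filter_upwards [hcl2 a ha] with x hx
    refine evHom_eq_exp_ang _ x ?_
    rw [hκ]; (clear * - hx; gcongr)
  obtain ⟨τ, hτm, hτκ, hτ⟩ := exists_weak_real (μ := μ) (fun j => θ (d j)) (fun j => hθm _)
    (fun j x => hθκ _ x)
  have hsum_bd : ∀ (f : Ω → ℝ), (∀ x, |f x| ≤ κ) → ∀ (y : ι → Ω),
      |∑ i, ((s i : ℤ) : ℝ) * f (y i)| < Real.pi := by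
    intro f hf y
    refine lt_of_le_of_lt (Finset.abs_sum_le_sum_abs _ _) (lt_of_le_of_lt ?_ hMκ)
    calc ∑ i, |((s i : ℤ) : ℝ) * f (y i)| ≤ ∑ _i : ι, κ := Finset.sum_le_sum fun i _ => by
          rw [abs_mul]
          have : |((s i : ℤ) : ℝ)| = 1 := by
            rcases Int.units_eq_one_or (s i) with h | h <;> simp [h]
          rw [this, one_mul]; exact hf _
      _ = M * κ := by rw [Finset.sum_const, nsmul_eq_mul, Finset.card_univ]
  -- the linear identity
  have hlin : ∀ a : ι → ℤ, dd μ (rho T (pol s a) u) ≤ ε → ∀ j, ∀ᵐ x ∂μ,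
      ∑ i, ((s i : ℤ) : ℝ) * θ (d j) (iter T (a i) x) =
      ∑ i, ((s i : ℤ) : ℝ) * θ a (iter T (d j i) x) := by
    intro a ha j
    have h1 := expHom_rho_pol hT s a _ _ (hθe (d j) (hε j))
    have h3 := expHom_rho_pol hT s (d j) _ _ (hθe a ha)
    filter_upwards [h1, h3] with x hx1 hx2
    rw [rho_comm T (pol s a) (pol s (d j))] at hx1
    rw [hx1] at hx2
    exact expHom_inj hx2 (hsum_bd _ (hθκ _) _) (hsum_bd _ (hθκ _) _)
  -- the integrated identity
  have hkey : ∀ a : ι → ℤ, dd μ (rho T (pol s a) u) ≤ ε → ∃ C : ℝ, ∀ᵐ x ∂μ,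
      ∑ i, ((s i : ℤ) : ℝ) * τ (iter T (a i) x) = θ a x + C := by
    intro a ha
    set Cc : ℝ := ∑ i ∈ Finset.univ.erase i0, ((s i : ℤ) : ℝ) * ∫ x, θ a x ∂μ with hCc
    refine ⟨Cc, ?_⟩
    have hLm : Measurable fun x => ∑ i, ((s i : ℤ) : ℝ) * τ (iter T (a i) x) :=
      Finset.measurable_sum _ fun i _ => (hτm.comp (measurable_iter T _)).const_mul _
    have hRm : Measurable fun x => θ a x + Cc := (hθm a).add_const _
    have hLi : Integrable (fun x => ∑ i, ((s i : ℤ) : ℝ) * τ (iter T (a i) x)) μ :=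
      integrable_bdd hLm (C := Real.pi) fun x => (hsum_bd τ hτκ _).le
    have hRi : Integrable (fun x => θ a x + Cc) μ :=
      integrable_bdd hRm (C := κ + |Cc|) fun x =>
        (abs_add_le _ _).trans (add_le_add (hθκ _ x) le_rfl)
    have hgen : ∀ g : Ω → ℝ, Measurable g → (∀ x, 0 ≤ g x) → (∀ x, g x ≤ 1) →
        ∫ x, g x * ∑ i, ((s i : ℤ) : ℝ) * τ (iter T (a i) x) ∂μ = ∫ x, g x * (θ a x + Cc) ∂μ := by
      intro g hg hg0 hg1
      have hgb : ∃ C : ℝ, ∀ x, |g x| ≤ C :=
        ⟨1, fun x => by rw [abs_of_nonneg (hg0 x)]; exact hg1 x⟩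
      have hgi : Integrable g μ := by
        obtain ⟨C, hC⟩ := hgb
        exact integrable_bdd hg hC
      have hgint : ∀ (f : Ω → ℝ), Measurable f → (∀ x, |f x| ≤ κ) → ∀ b : ℤ,
          Integrable (fun x => g x * f (iter T b x)) μ := by
        intro f hf hfκ b
        refine integrable_bdd (hg.mul (hf.comp (measurable_iter T b))) (C := 1 * κ) fun x => ?_
        rw [abs_mul, abs_of_nonneg (hg0 x)]
        exact mul_le_mul (hg1 x) (hfκ _) (abs_nonneg _) zero_le_one
      have hexpand : ∀ (f : Ω → ℝ), Measurable f → (∀ x, |f x| ≤ κ) → ∀ b : ι → ℤ,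
          ∫ x, g x * ∑ i, ((s i : ℤ) : ℝ) * f (iter T (b i) x) ∂μ =
          ∑ i, ((s i : ℤ) : ℝ) * ∫ x, g x * f (iter T (b i) x) ∂μ := by
        intro f hf hfκ b
        have e : ∀ x, g x * ∑ i, ((s i : ℤ) : ℝ) * f (iter T (b i) x) =
            ∑ i, ((s i : ℤ) : ℝ) * (g x * f (iter T (b i) x)) := by
          intro x
          rw [Finset.mul_sum]
          exact Finset.sum_congr rfl fun i _ => by ring
        simp_rw [e]
        rw [integral_finsetSum _ fun i _ => (hgint f hf hfκ _).const_mul _]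
        exact Finset.sum_congr rfl fun i _ => integral_const_mul _ _
      -- left limit
      have hL : Tendsto (fun j => ∫ x, g x * ∑ i, ((s i : ℤ) : ℝ) * θ (d j) (iter T (a i) x) ∂μ) UU
          (𝓝 (∫ x, g x * ∑ i, ((s i : ℤ) : ℝ) * τ (iter T (a i) x) ∂μ)) := by
        rw [hexpand τ hτm hτκ a]
        have : Tendsto (fun j => ∑ i, ((s i : ℤ) : ℝ) * ∫ x, g x * θ (d j) (iter T (a i) x) ∂μ) UU
            (𝓝 (∑ i, ((s i : ℤ) : ℝ) * ∫ x, g x * τ (iter T (a i) x) ∂μ)) := by
          refine tendsto_finsetSum _ fun i _ => Tendsto.const_mul _ ?_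
          have h1 := hτ (fun x => g (iter T (-(a i)) x)) (hg.comp (measurable_iter T _)) (by
            obtain ⟨C, hC⟩ := hgb
            exact ⟨C, fun x => hC _⟩)
          refine (h1.congr fun j => ?_).trans_eq ?_
          · rw [integral_mul_shift hT g _ hg (hθm _)]
          · rw [integral_mul_shift hT g _ hg hτm]
        exact this.congr fun j => (hexpand _ (hθm _) (hθκ _) a).symm
      -- right limit
      have hR : Tendsto (fun j => ∫ x, g x * ∑ i, ((s i : ℤ) : ℝ) * θ a (iter T (d j i) x) ∂μ) UU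
          (𝓝 (∫ x, g x * (θ a x + Cc) ∂μ)) := by
        have e1 : ∫ x, g x * (θ a x + Cc) ∂μ = ∫ x, g x * θ a x ∂μ +
            ∑ i ∈ Finset.univ.erase i0, ((s i : ℤ) : ℝ) * ((∫ x, g x ∂μ) * ∫ x, θ a x ∂μ) := by
          have e2 : ∀ x, g x * (θ a x + Cc) = g x * θ a x + g x * Cc := fun x => by ring
          simp_rw [e2]
          have h1 := hgint (θ a) (hθm a) (hθκ a) 0
          simp only [iter_zero] at h1
          rw [integral_add h1 (hgi.mul_const _), integral_mul_const]
          congr 1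
          rw [hCc, Finset.mul_sum]
          exact Finset.sum_congr rfl fun i _ => by ring
        rw [e1]
        have e3 : ∀ j, ∫ x, g x * ∑ i, ((s i : ℤ) : ℝ) * θ a (iter T (d j i) x) ∂μ =
            ∫ x, g x * θ a x ∂μ + ∑ i ∈ Finset.univ.erase i0,
              ((s i : ℤ) : ℝ) * ∫ x, g x * θ a (iter T (d j i) x) ∂μ := by
          intro j
          rw [hexpand (θ a) (hθm a) (hθκ a) (d j),
            ← Finset.add_sum_erase Finset.univ _ (Finset.mem_univ i0), hs, hd0 j]
          simp only [Units.val_one, Int.cast_one, iter_zero, one_mul, Finset.mem_univ, Finset.sum_erase_eq_sub]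
        simp_rw [e3]
        refine tendsto_const_nhds.add (tendsto_finsetSum _ fun i hi => Tendsto.const_mul _ ?_)
        exact mix2 hT h2 g (θ a) hg (hθm a) hgb ⟨κ, hθκ a⟩ _
          ((hd i (Finset.ne_of_mem_erase hi)).mono_left UU_le)
      refine tendsto_nhds_unique hL (hR.congr fun j => ?_)
      refine (integral_congr_ae ?_).symm
      filter_upwards [hlin a ha j] with x hx
      rw [hx]
    have hle1 := ae_le_of_test hLi hRi fun g hg hg0 hg1 => (hgen g hg hg0 hg1).le
    have hle2 := ae_le_of_test hRi hLi fun g hg hg0 hg1 => (hgen g hg hg0 hg1).ge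
    filter_upwards [hle1, hle2] with x h1 h3
    exact le_antisymm h1 h3
  refine ⟨u' - tauT τ, (measSub Ω).sub_mem hu'm (tauT_mem τ hτm), ?_, ?_⟩
  · intro a ha
    obtain ⟨C, hC⟩ := hkey a ha
    have h1 := expHom_rho_pol hT s a (tauT τ) τ (Eventually.of_forall fun x => evHom_tauT τ x)
    refine const_of_evHom (c := Circle.expHom (-C)) ?_
    filter_upwards [hθe a ha, h1, hC] with x hx1 hx2 hx3
    rw [map_sub, map_sub, hx1, hx2, hx3, ← map_sub]
    congr 1; ring
  · have e : u - (u' - tauT τ) = psT ψ + tauT τ := by rw [hu']; abel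
    rw [e]
    refine (dd_add hps (tauT_mem τ hτm)).trans ?_
    have h1 : dd μ (psT ψ) ≤ η + ε :=
      claim4 Z hZm ε η _ hη hKη hε ψ hψm hψ1 hψ hψK
    have h3 : dd μ (tauT τ) ≤ κ := by
      have h5 : dd μ (tauT τ) = ∫ x, pn (tauT τ) x ∂μ := rfl
      rw [h5]
      have h6 : ∫ x, pn (tauT τ) x ∂μ ≤ ∫ _x, κ ∂μ := by
        refine integral_mono ?_ (integrable_const _) fun x => (pn_tauT τ x).trans (hτκ x)
        exact integrable_bdd (measurable_pn (tauT_mem τ hτm)) (C := 2) fun x => by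
          rw [abs_of_nonneg (pn_nonneg _ _)]; exact pn_le_two _ _
      simpa only [ge_iff_le, integral_const, probReal_univ, smul_eq_mul, one_mul] using h6
    exact add_le_add h1 h3

end Vale.Agent.P102.Ext
end
end

section

section

namespace Vale.Agent.P102.Ext

open MeasureTheory Filter Topology

set_option linter.unusedSectionVars false

variable {Ω : Type*} [MeasurableSpace Ω]

/-- the sign as a unit of the integers -/
def sg {k : ℕ} (σ : Equiv.Perm (Fin k)) : ℤˣ := Equiv.Perm.sign σ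

theorem det_monMat {k : ℕ} (t : ℕ → Fin k → ℤ) (n : Fin k → ℕ) :
    (monMat t n).det = pol sg (fun σ : Equiv.Perm (Fin k) => ∑ c, t (n c) (σ c)) := by
  classical
  rw [Matrix.det_apply]
  unfold pol
  refine Finset.sum_congr rfl fun σ _ => ?_
  have h : ∀ s : Finset (Fin k), ∏ i ∈ s, monMat t n (σ i) i =
      LaurentPolynomial.T (∑ c ∈ s, t (n c) (σ c)) := by
    intro s
    induction s using Finset.induction_on with
    | empty => simp
    | insert a s ha ih =>
      rw [Finset.prod_insert ha, Finset.sum_insert ha, LaurentPolynomial.T_add, ih]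
      rfl
  rw [h Finset.univ]
  rfl

theorem pol_shift {ι : Type*} [Fintype ι] (s : ι → ℤˣ) (a : ι → ℤ) (b : ℤ) :
    pol s (fun i => a i - b) = LaurentPolynomial.T (-b) * pol s a := by
  unfold pol
  rw [Finset.mul_sum]
  refine Finset.sum_congr rfl fun i _ => ?_
  rw [mul_smul_comm, ← LaurentPolynomial.T_add]
  congr 2; ring

theorem dd_elim {μ : Measure Ω} [IsProbabilityMeasure μ] {T : Ω ≃ᵐ Ω}
    (hT : MeasurePreserving T μ μ) {k : ℕ} (t : ℕ → Fin k → ℤ) (n : Fin k → ℕ)
    (u : Fin k → Additive (Ω → Circle)) (hu : ∀ i, u i ∈ measSub Ω) (δ : ℝ)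
    (hδ : ∀ c, dd μ (∑ i, shiftEnd T (t (n c) i) (u i)) ≤ δ) (l : Fin k) :
    dd μ (rho T (monMat t n).det (u l)) ≤
      (k : ℝ) * ((Fintype.card (Equiv.Perm (Fin k)) : ℝ) * δ) := by
  classical
  rw [← elim_identity]
  have hms : ∀ c, (∑ i, shiftEnd T (t (n c) i) (u i)) ∈ measSub Ω := fun c =>
    (measSub Ω).sum_mem fun i _ => shift_measSub T _ _ (hu i)
  refine (dd_sum _ _ fun c _ => rho_mem T _ (shift_measSub T) _ _ (hms c)).trans ?_
  have h2 : ∀ c ∈ (Finset.univ : Finset (Fin k)),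
      dd μ (rho T ((monMat t n).adjugate c l) (∑ i, shiftEnd T (t (n c) i) (u i))) ≤
        (Fintype.card (Equiv.Perm (Fin k)) : ℝ) * δ := by
    intro c _
    rw [Matrix.adjugate_apply]
    have h3 := dd_det (μ := μ) T hT ((monMat t n).updateRow l (Pi.single c 1)) (fun r c' => by
      by_cases hr : r = l
      · subst hr
        rw [Matrix.updateRow_self]
        by_cases hc' : c' = c
        · subst hc'; right; exact ⟨0, by simp⟩
        · left; simp [hc']
      · rw [Matrix.updateRow_ne hr]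
        right; exact ⟨_, rfl⟩) _ (hms c)
    refine h3.trans ?_
    have := hδ c
    gcongr
  refine (Finset.sum_le_card_nsmul _ _ _ h2).trans (le_of_eq ?_)
  rw [nsmul_eq_mul, Finset.card_univ, Fintype.card_fin]

/-- The set of polynomials making `v` constant. -/
def annC (μ : Measure Ω) {T : Ω ≃ᵐ Ω} (hT : MeasurePreserving T μ μ)
    (v : Additive (Ω → Circle)) : Ideal (LaurentPolynomial ℤ) where
  carrier := {p | rho T p v ∈ constSub μ}
  add_mem' := by
    intro p q hp hq
    change rho T (p + q) v ∈ constSub μ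
    rw [rho_add_apply]
    exact (constSub μ).add_mem hp hq
  zero_mem' := by
    change rho T 0 v ∈ constSub μ
    rw [map_zero]
    exact (constSub μ).zero_mem
  smul_mem' := by
    intro q p hp
    change rho T (q * p) v ∈ constSub μ
    rw [rho_mul_apply]
    exact rho_mem T _ (shift_constSub T hT) q _ hp

theorem mem_annC {μ : Measure Ω} {T : Ω ≃ᵐ Ω} (hT : MeasurePreserving T μ μ)
    (v : Additive (Ω → Circle)) (p : LaurentPolynomial ℤ) :
    p ∈ annC μ hT v ↔ rho T p v ∈ constSub μ := Iff.rfl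

/-- Universal gap for relations of unimodular functions, for a transformation which is mixing of
order two. -/
theorem unimodular_gap {μ : Measure Ω} [IsProbabilityMeasure μ] {T : Ω ≃ᵐ Ω}
    (hT : MeasurePreserving T μ μ) (h2 : MixingOfOrder μ T 2) {k : ℕ}
    (t : ℕ → Fin k → ℤ) (ht : Gaps t) (u : Fin k → Additive (Ω → Circle))
    (hu : ∀ i, u i ∈ measSub Ω) (ε η δ : ℝ) (hη : 0 < η)
    (h4 : 4 * (Fintype.card (Equiv.Perm (Fin k)) : ℝ) * ε ≤ η ^ 2)
    (hsmall : (Fintype.card (Equiv.Perm (Fin k)) : ℝ) ^ 2 * (η + ε) < 2)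
    (hδ : (k : ℝ) * ((Fintype.card (Equiv.Perm (Fin k)) : ℝ) * δ) ≤ ε)
    (hR : ∀ᶠ n in atTop, dd μ (∑ i, shiftEnd T (t n i) (u i)) ≤ δ) (l : Fin k) :
    ∃ c : ℂ, ‖c‖ = 1 ∧ ∫ x, ‖ev (u l) x - c‖ ∂μ ≤ η + ε + Real.pi / 2 *
      ((Fintype.card (Equiv.Perm (Fin k)) : ℝ) * (η + ε)) := by
  classical
  obtain ⟨N, hN⟩ := eventually_atTop.1 hR
  have hdet : ∀ n : Fin k → ℕ, (∀ c, N ≤ n c) → dd μ (rho T (monMat t n).det (u l)) ≤ ε :=
    fun n hn => (dd_elim hT t n u hu δ (fun c => hN _ (hn c)) l).trans hδ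
  choose nn hnn1 hnn2 using fun j : ℕ => exists_dominating t ht N (j : ℤ)
  set d : ℕ → Equiv.Perm (Fin k) → ℤ := fun j σ =>
    (∑ c, t (nn j c) (σ c)) - ∑ c, t (nn j c) c with hd
  have hdd : ∀ j, dd μ (rho T (pol sg (d j)) (u l)) ≤ ε := by
    intro j
    have e : pol sg (d j) = LaurentPolynomial.T (-(∑ c, t (nn j c) c)) * (monMat t (nn j)).det := by
      rw [det_monMat, ← pol_shift]
    rw [e, rho_mul_apply, rho_T,
      dd_shift T hT _ (rho_mem T _ (shift_measSub T) _ _ (hu l))]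
    exact hdet _ (hnn1 j)
  obtain ⟨v, hvm, hv1, hv2⟩ := stability hT h2 (1 : Equiv.Perm (Fin k)) sg
    (by simp [sg]) d (fun j => by simp only [hd, Equiv.Perm.coe_one, id_eq, sub_self]) (fun σ hσ => by
      refine tendsto_atTop_mono (f := fun j : ℕ => (j : ℤ)) (fun j => ?_)
        tendsto_natCast_atTop_atTop
      have := hnn2 j σ hσ
      simp only [hd]
      rw [abs_sub_comm]
      refine le_trans ?_ (le_abs_self _)
      linarith) (u l) (hu l) ε η hη hdd h4 hsmall
  have hone := algebra_main t ht (annC μ hT v) N (fun n hn => by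
      rw [mem_annC, det_monMat]
      refine hv1 _ ?_
      rw [← det_monMat]
      exact hdet n hn) (by
    intro a ha p hp
    rw [mem_annC] at hp ⊢
    refine const_of_shift_sub hT le_rfl h2 ha _ (rho_mem T _ (shift_measSub T) p _ hvm) ?_
    rw [rho_mul_apply, map_sub, LinearMap.sub_apply, rho_T, map_one, Module.End.one_apply] at hp
    exact hp)
  rw [mem_annC, map_one, Module.End.one_apply] at hone
  obtain ⟨c, hc⟩ := hone
  have hc1 : ‖c‖ = 1 := by
    obtain ⟨x, hx⟩ := hc.exists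
    rw [← hx, norm_ev]
  refine ⟨c, hc1, ?_⟩
  refine le_trans (le_of_eq ?_) hv2
  unfold dd
  refine integral_congr_ae ?_
  filter_upwards [hc] with x hx
  rw [ev_sub, hx]
  have h5 : c * (starRingEnd ℂ) c = 1 := by
    rw [Complex.mul_conj, Complex.normSq_eq_norm_sq, hc1]; simp
  have : ev (u l) x * (starRingEnd ℂ) c - 1 = (starRingEnd ℂ) c * (ev (u l) x - c) := by
    rw [mul_sub, mul_comm ((starRingEnd ℂ) c) c, h5]; ring
  rw [this, norm_mul, RCLike.norm_conj, hc1, one_mul]

end Vale.Agent.P102.Ext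
end
end

section

section

namespace Vale.Agent.P102.Ext

open MeasureTheory Filter Topology

set_option linter.unusedSectionVars false

variable {Ω : Type*} [MeasurableSpace Ω]

/-- the number of permutations -/
noncomputable def PP (k : ℕ) : ℝ := (Fintype.card (Equiv.Perm (Fin k)) : ℝ)

theorem one_le_PP (k : ℕ) : 1 ≤ PP k := by
  unfold PP
  exact_mod_cast Fintype.card_pos

noncomputable def gη (k : ℕ) : ℝ := 1 / (16 * PP k ^ 2)
noncomputable def gε (k : ℕ) : ℝ := gη k ^ 2 / (4 * PP k)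
noncomputable def gδ (k : ℕ) : ℝ := gε k / ((k + 1) * PP k)
noncomputable def gρ (k : ℕ) : ℝ := gδ k ^ 2 / (4 * (k + 1))

theorem gη_pos (k : ℕ) : 0 < gη k := by
  have := one_le_PP k
  unfold gη; positivity

theorem gη_le (k : ℕ) : gη k ≤ 1 / 16 := by
  have := one_le_PP k
  unfold gη
  apply one_div_le_one_div_of_le (by norm_num)
  nlinarith only [this]

theorem gε_pos (k : ℕ) : 0 < gε k := by
  have := one_le_PP k
  have := gη_pos k
  unfold gε; positivity

theorem gε_le (k : ℕ) : gε k ≤ gη k := by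
  have h1 := one_le_PP k
  have h2 := gη_pos k
  have h3 := gη_le k
  unfold gε
  rw [div_le_iff₀ (by positivity)]
  nlinarith

theorem gδ_pos (k : ℕ) : 0 < gδ k := by
  have := one_le_PP k
  have := gε_pos k
  unfold gδ; positivity

theorem gδ_le (k : ℕ) : gδ k ≤ gε k := by
  have h1 := one_le_PP k
  have h2 := gε_pos k
  unfold gδ
  apply div_le_self h2.le
  have : (0 : ℝ) ≤ k := by positivity
  nlinarith

theorem gρ_pos (k : ℕ) : 0 < gρ k := by
  have := gδ_pos k
  unfold gρ; positivity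

theorem gρ_le (k : ℕ) : gρ k ≤ 1 / 16 := by
  have h1 := gδ_pos k
  have h2 : gδ k ≤ 1 / 16 := (gδ_le k).trans ((gε_le k).trans (gη_le k))
  have h3 : (0 : ℝ) ≤ k := by positivity
  unfold gρ
  rw [div_le_iff₀ (by positivity)]
  nlinarith

/-- unimodular gap with explicit constants -/
theorem unimodular_gap_explicit {μ : Measure Ω} [IsProbabilityMeasure μ] {T : Ω ≃ᵐ Ω}
    (hT : MeasurePreserving T μ μ) (h2 : MixingOfOrder μ T 2) {k : ℕ}
    (t : ℕ → Fin k → ℤ) (ht : Gaps t) (u : Fin k → Additive (Ω → Circle))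
    (hu : ∀ i, u i ∈ measSub Ω)
    (hR : ∀ᶠ n in atTop, dd μ (∑ i, shiftEnd T (t n i) (u i)) ≤ gδ k) (l : Fin k) :
    2 / 3 ≤ ‖∫ x, ev (u l) x ∂μ‖ := by
  have hP := one_le_PP k
  have hη := gη_pos k
  have hη1 := gη_le k
  have hε := gε_pos k
  have hε1 := gε_le k
  have hPη : PP k ^ 2 * gη k = 1 / 16 := by
    unfold gη; field_simp
  have hPη1 : PP k * gη k ≤ 1 / 16 := by nlinarith only [hPη, hP]
  obtain ⟨c, hc1, hc⟩ := unimodular_gap hT h2 t ht u hu (gε k) (gη k) (gδ k) hη (by
      change 4 * PP k * gε k ≤ gη k ^ 2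
      unfold gε
      apply le_of_eq
      (clear * - hP hη; field_simp)) (by
      change PP k ^ 2 * (gη k + gε k) < 2
      nlinarith only [hPη, hε1]) (by
      change (k : ℝ) * (PP k * gδ k) ≤ gε k
      have : gδ k * ((k + 1) * PP k) = gε k := by
        unfold gδ; (clear * - hP hε; field_simp)
      have h3 := gδ_pos k
      nlinarith only [hε, this]) hR l
  have hint := integrable_ev (μ := μ) (hu l)
  have h1 : ‖∫ x, (ev (u l) x - c) ∂μ‖ ≤ ∫ x, ‖ev (u l) x - c‖ ∂μ := norm_integral_le_integral_norm _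
  rw [integral_sub hint (integrable_const _)] at h1
  simp only [integral_const, probReal_univ, one_smul] at h1
  have h3 : ‖c‖ - ‖∫ x, ev (u l) x ∂μ‖ ≤ ‖(∫ x, ev (u l) x ∂μ) - c‖ := by
    rw [norm_sub_rev]; exact norm_sub_norm_le _ _
  rw [hc1] at h3
  have h4 : gη k + gε k + Real.pi / 2 * (PP k * (gη k + gε k)) ≤ 1 / 3 := by
    have hpi := Real.pi_lt_d2
    have hpi0 := Real.pi_pos
    have h5 : PP k * (gη k + gε k) ≤ 1 / 8 * 1 := by nlinarith only [hε1, hPη1, hP]
    have h6 : Real.pi / 2 * (PP k * (gη k + gε k)) ≤ Real.pi / 2 * (1 / 8 * 1) := by (clear * - h5; gcongr)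
    nlinarith only [hη1, hε1, hpi, h6]
  have h7 : ∫ x, ‖ev (u l) x - c‖ ∂μ ≤ gη k + gε k + Real.pi / 2 * (PP k * (gη k + gε k)) := hc
  linarith only [h1, h3, h4, h7]

theorem norm_sub_psT (f : Ω → ℂ) (x : Ω) (h : ‖f x‖ ≤ 1) :
    ‖f x - ev (psT f) x‖ = 1 - ‖f x‖ := by
  by_cases h0 : f x = 0
  · rw [ev_psT, h0]; simp only [norm_zero, Complex.ofReal_zero, div_zero, zero_ne_one, ↓reduceIte, zero_sub, norm_neg, norm_one, sub_zero]
  · have h1 : ‖f x‖ ≠ 0 := norm_ne_zero_iff.2 h0
    have h2 : ‖f x / ‖f x‖‖ = 1 := by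
      rw [norm_div, Complex.norm_real, norm_norm]; exact div_self h1
    rw [ev_psT, if_pos h2]
    have h3 : ((‖f x‖ : ℝ) : ℂ) ≠ 0 := by exact_mod_cast h1
    have : f x - f x / ‖f x‖ = (f x / ‖f x‖) * (((‖f x‖ - 1 : ℝ)) : ℂ) := by
      push_cast; field_simp
    rw [this, norm_mul, h2, one_mul, Complex.norm_real, Real.norm_eq_abs, abs_sub_comm,
      abs_of_nonneg (by linarith only [h])]

theorem norm_sub_psT' (f : Ω → ℂ) (x : Ω) :
    ‖f x - ev (psT f) x‖ = |‖f x‖ - 1| := by
  by_cases h0 : f x = 0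
  · rw [ev_psT, h0]; simp only [norm_zero, Complex.ofReal_zero, div_zero, zero_ne_one, ↓reduceIte, zero_sub, norm_neg, norm_one, abs_neg, abs_one]
  · have h1 : ‖f x‖ ≠ 0 := norm_ne_zero_iff.2 h0
    have h2 : ‖f x / ‖f x‖‖ = 1 := by
      rw [norm_div, Complex.norm_real, norm_norm]; exact div_self h1
    rw [ev_psT, if_pos h2]
    have h3 : ((‖f x‖ : ℝ) : ℂ) ≠ 0 := by exact_mod_cast h1
    have : f x - f x / ‖f x‖ = (f x / ‖f x‖) * (((‖f x‖ - 1 : ℝ)) : ℂ) := by
      push_cast; field_simp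
    rw [this, norm_mul, h2, one_mul, Complex.norm_real, Real.norm_eq_abs]

/-- telescoping for products of numbers of modulus at most one -/
theorem norm_prod_sub_prod_le {ι : Type*} (s : Finset ι) (a b : ι → ℂ)
    (ha : ∀ i ∈ s, ‖a i‖ ≤ 1) (hb : ∀ i ∈ s, ‖b i‖ ≤ 1) :
    ‖∏ i ∈ s, a i - ∏ i ∈ s, b i‖ ≤ ∑ i ∈ s, ‖a i - b i‖ := by
  classical
  induction s using Finset.induction_on with
  | empty => simp
  | insert i s hi ih =>
    rw [Finset.prod_insert hi, Finset.prod_insert hi, Finset.sum_insert hi]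
    have h1 := ih (fun j hj => ha j (Finset.mem_insert_of_mem hj))
      (fun j hj => hb j (Finset.mem_insert_of_mem hj))
    have h2 : a i * ∏ j ∈ s, a j - b i * ∏ j ∈ s, b j =
        (a i - b i) * ∏ j ∈ s, a j + b i * (∏ j ∈ s, a j - ∏ j ∈ s, b j) := by ring
    rw [h2]
    refine (norm_add_le _ _).trans ?_
    rw [norm_mul, norm_mul]
    have h3 : ‖∏ j ∈ s, a j‖ ≤ 1 := by
      rw [norm_prod]
      exact Finset.prod_le_one (fun _ _ => norm_nonneg _) fun j hj =>
        ha j (Finset.mem_insert_of_mem hj)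
    have h4 := hb i (Finset.mem_insert_self i s)
    have h5 : ‖a i - b i‖ * ‖∏ j ∈ s, a j‖ ≤ ‖a i - b i‖ * 1 := by (clear * - h3; gcongr)
    have h6 : ‖b i‖ * ‖∏ j ∈ s, a j - ∏ j ∈ s, b j‖ ≤ 1 * ∑ j ∈ s, ‖a j - b j‖ := by (clear * - h4 h1; gcongr)
    linarith only [h5, h6]

end Vale.Agent.P102.Ext
end
end

section

section

namespace Vale.Agent.P102.Ext

open MeasureTheory Filter Topology

set_option linter.unusedSectionVars false

variable {Ω : Type*} [MeasurableSpace Ω]

theorem gapA_seq {μ : Measure Ω} [IsProbabilityMeasure μ] {T : Ω ≃ᵐ Ω}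
    (hT : MeasurePreserving T μ μ) (h2 : MixingOfOrder μ T 2) {k : ℕ}
    (t : ℕ → Fin k → ℤ) (ht : Gaps t) (f : Fin k → Ω → ℂ) (hf : ∀ i, Measurable (f i))
    (hf1 : ∀ i x, ‖f i x‖ ≤ 1)
    (hbig : ∀ n, 1 - gρ k ≤ ‖∫ x, ∏ i, f i (iter T (t n i) x) ∂μ‖) (l : Fin k) :
    1 / 2 < ‖∫ x, f l x ∂μ‖ := by
  have hρ := gρ_pos k
  have hρ1 := gρ_le k
  have hδ := gδ_pos k
  set u : Fin k → Additive (Ω → Circle) := fun i => psT (f i) with hu
  have hum : ∀ i, u i ∈ measSub Ω := fun i => psT_mem _ (hf i)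
  have humm : ∀ i, Measurable (ev (u i)) := hum
  have hfint : ∀ i, Integrable (f i) μ := fun i => integrable_bddC (hf i) (hf1 i)
  -- absolute values
  have habs : ∀ i, 1 - gρ k ≤ ∫ x, ‖f i x‖ ∂μ := by
    intro i
    refine (hbig 0).trans ((norm_integral_le_integral_norm _).trans ?_)
    have e : ∫ x, ‖f i x‖ ∂μ = ∫ x, ‖f i (iter T (t 0 i) x)‖ ∂μ :=
      (integral_comp_iter hT (t 0 i) (fun x => ‖f i x‖) (hf i).norm.aestronglyMeasurable).symm
    rw [e]
    refine integral_mono_of_nonneg (Eventually.of_forall fun _ => norm_nonneg _)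
      (integrable_bdd ((hf i).norm.comp (measurable_iter T _)) (C := 1) fun x => by
        rw [abs_norm]; exact hf1 i _) (Eventually.of_forall fun x => ?_)
    change ‖∏ i, f i (iter T (t 0 i) x)‖ ≤ ‖f i (iter T (t 0 i) x)‖
    rw [← Finset.mul_prod_erase Finset.univ _ (Finset.mem_univ i), norm_mul]
    have : ‖∏ j ∈ Finset.univ.erase i, f j (iter T (t 0 j) x)‖ ≤ 1 := by
      rw [norm_prod]
      exact Finset.prod_le_one (fun _ _ => norm_nonneg _) fun j _ => hf1 j _
    calc ‖f i (iter T (t 0 i) x)‖ * ‖∏ j ∈ Finset.univ.erase i, f j (iter T (t 0 j) x)‖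
        ≤ ‖f i (iter T (t 0 i) x)‖ * 1 := by (clear * - this; gcongr)
      _ = _ := mul_one _
  have hdist : ∀ i, ∫ x, ‖f i x - ev (u i) x‖ ∂μ ≤ gρ k := by
    intro i
    have e : ∀ x, ‖f i x - ev (u i) x‖ = 1 - ‖f i x‖ := fun x => norm_sub_psT (f i) x (hf1 i x)
    simp_rw [e]
    rw [integral_sub (integrable_const _) (hfint i).norm]
    simp only [integral_const, probReal_univ, one_smul]
    linarith only [habs i]
  -- correlations of the phases
  set z : ℕ → ℂ := fun n => ∫ x, ∏ i, ev (u i) (iter T (t n i) x) ∂μ with hz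
  have hintf : ∀ n, Integrable (fun x => ∏ i, f i (iter T (t n i) x)) μ := fun n =>
    integrable_prod_bdd Finset.univ (fun i x => f i (iter T (t n i) x))
      (fun i _ => (hf i).comp (measurable_iter T _)) (fun _ => 1) (fun i _ x => hf1 i _)
  have hintu : ∀ n, Integrable (fun x => ∏ i, ev (u i) (iter T (t n i) x)) μ := fun n =>
    integrable_prod_bdd Finset.univ (fun i x => ev (u i) (iter T (t n i) x))
      (fun i _ => (humm i).comp (measurable_iter T _)) (fun _ => 1) (fun i _ x => (norm_ev _ _).le)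
  have hzf : ∀ n, ‖(∫ x, ∏ i, f i (iter T (t n i) x) ∂μ) - z n‖ ≤ k * gρ k := by
    intro n
    simp only [hz]
    rw [← integral_sub (hintf n) (hintu n)]
    refine (norm_integral_le_integral_norm _).trans ?_
    have hi : ∀ i, Integrable (fun x => ‖f i (iter T (t n i) x) - ev (u i) (iter T (t n i) x)‖) μ :=
      fun i => integrable_bdd ((((hf i).sub (humm i)).norm).comp (measurable_iter T (t n i)))
        (C := 2) fun x => by
          simp only [abs_norm]
          refine (norm_sub_le _ _).trans ?_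
          rw [norm_ev]
          have := hf1 i (iter T (t n i) x)
          linarith only [this]
    calc ∫ x, ‖∏ i, f i (iter T (t n i) x) - ∏ i, ev (u i) (iter T (t n i) x)‖ ∂μ
        ≤ ∫ x, ∑ i, ‖f i (iter T (t n i) x) - ev (u i) (iter T (t n i) x)‖ ∂μ := by
          refine integral_mono ((hintf n).sub (hintu n)).norm
            (integrable_finsetSum _ fun i _ => hi i) fun x => ?_
          exact norm_prod_sub_prod_le Finset.univ _ _ (fun i _ => hf1 i _)
            (fun i _ => (norm_ev _ _).le)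
      _ = ∑ i, ∫ x, ‖f i (iter T (t n i) x) - ev (u i) (iter T (t n i) x)‖ ∂μ :=
          integral_finsetSum _ fun i _ => hi i
      _ ≤ ∑ _i : Fin k, gρ k := by
          refine Finset.sum_le_sum fun i _ => ?_
          have := integral_comp_iter hT (t n i) (fun x => ‖f i x - ev (u i) x‖)
            ((hf i).sub (humm i)).norm.aestronglyMeasurable
          rw [this]
          exact hdist i
      _ = k * gρ k := by rw [Finset.sum_const, nsmul_eq_mul, Finset.card_univ, Fintype.card_fin]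
  have hznorm : ∀ n, 1 - (k + 1) * gρ k ≤ ‖z n‖ := by
    intro n
    have h1 := hbig n
    have h3 := hzf n
    have h4 := norm_sub_norm_le (∫ x, ∏ i, f i (iter T (t n i) x) ∂μ) (z n)
    linarith only [h1, h3, h4]
  have hzbd : ∀ n, ‖z n‖ ≤ 1 := by
    intro n
    have := norm_integral_le_of_norm_le_const (μ := μ)
      (f := fun x => ∏ i, ev (u i) (iter T (t n i) x)) (C := 1)
      (Eventually.of_forall fun x => by
        rw [norm_prod]
        exact Finset.prod_le_one (fun _ _ => norm_nonneg _) fun j _ => (norm_ev _ _).le)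
    simpa only [ge_iff_le, probReal_univ, mul_one] using this
  obtain ⟨J, -, φ, hφ, hlim⟩ := (isCompact_closedBall (0 : ℂ) 1).tendsto_subseq
    (x := z) (fun n => mem_closedBall_zero_iff.2 (hzbd n))
  have hJ1 : 1 - (k + 1) * gρ k ≤ ‖J‖ := ge_of_tendsto' hlim.norm fun n => hznorm _
  have hkρ : ((k : ℝ) + 1) * gρ k = gδ k ^ 2 / 4 := by
    unfold gρ; (clear * - hδ; field_simp)
  have hδ1 : gδ k ≤ 1 / 16 := (gδ_le k).trans ((gε_le k).trans (gη_le k))
  have hJpos : 0 < ‖J‖ := by
    rw [hkρ] at hJ1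
    nlinarith only [hJ1, hδ1, hδ]
  -- normalising phase
  set cω : Additive (Ω → Circle) := psT (fun _ => (starRingEnd ℂ) J) with hcω
  have hcωm : cω ∈ measSub Ω := psT_mem _ measurable_const
  have hevc : ∀ x, ev cω x = (starRingEnd ℂ) J / ‖J‖ := by
    intro x
    rw [hcω, ev_psT, if_pos]
    · rw [RCLike.norm_conj]
    · rw [RCLike.norm_conj, norm_div, RCLike.norm_conj, Complex.norm_real, norm_norm]
      exact div_self hJpos.ne'
  set u' : Fin k → Additive (Ω → Circle) := fun i => if i = l then cω + u i else u i with hu'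
  have hu'm : ∀ i, u' i ∈ measSub Ω := by
    intro i
    simp only [hu']
    split_ifs
    · exact (measSub Ω).add_mem hcωm (hum i)
    · exact hum i
  have hsum : ∀ n, ∑ i, shiftEnd T (t n i) (u' i) = cω + ∑ i, shiftEnd T (t n i) (u i) := by
    intro n
    rw [← Finset.add_sum_erase Finset.univ _ (Finset.mem_univ l),
      ← Finset.add_sum_erase Finset.univ (fun i => shiftEnd T (t n i) (u i)) (Finset.mem_univ l)]
    have e1 : shiftEnd T (t n l) (u' l) = cω + shiftEnd T (t n l) (u l) := by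
      simp only [hu', if_true]
      rw [map_add]
      rfl
    have e2 : ∑ i ∈ Finset.univ.erase l, shiftEnd T (t n i) (u' i) =
        ∑ i ∈ Finset.univ.erase l, shiftEnd T (t n i) (u i) :=
      Finset.sum_congr rfl fun i hi => by
        simp only [hu', if_neg (Finset.ne_of_mem_erase hi)]
    rw [e1, e2, add_assoc]
  have hdd : ∀ n, dd μ (∑ i, shiftEnd T (t n i) (u' i)) ≤ gδ k / 2 + (gδ k)⁻¹ *
      (1 - ((starRingEnd ℂ) J / ‖J‖ * z n).re) := by
    intro n
    set w := ∑ i, shiftEnd T (t n i) (u' i) with hw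
    have hwm : w ∈ measSub Ω := (measSub Ω).sum_mem fun i _ => shift_measSub T _ _ (hu'm i)
    have e1 : dd μ w = ∫ x, pn w x ∂μ := rfl
    have e2 : (1 - ((starRingEnd ℂ) J / ‖J‖ * z n).re) = ∫ x, (1 - (ev w x).re) ∂μ := by
      have h1 := int_re (μ := μ) (fun _ => 1) measurable_const ⟨1, fun _ => by simp⟩ (w := ev w) hwm
        (fun x => (norm_ev _ x).le)
      simp only [one_mul, Complex.ofReal_one, integral_const, probReal_univ, smul_eq_mul,
        mul_one] at h1
      rw [h1]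
      congr 2
      simp only [hz]
      rw [← integral_const_mul]
      congr 1; funext x
      rw [hw, hsum, ev_add, hevc, ev_sum]
      rfl
    rw [e1, e2]
    have i1 : Integrable (fun x => 1 - (ev w x).re) μ :=
      (integrable_const 1).sub (integrable_bdd (Complex.measurable_re.comp
        (show Measurable (ev w) from hwm)) (C := 1) fun x => by
          have := Complex.abs_re_le_norm (ev w x)
          rw [norm_ev] at this; exact this)
    have i2 : Integrable (fun x => gδ k / 2 + (gδ k)⁻¹ * (1 - (ev w x).re)) μ :=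
      (integrable_const _).add (i1.const_mul _)
    have h3 : ∫ x, pn w x ∂μ ≤ ∫ x, (gδ k / 2 + (gδ k)⁻¹ * (1 - (ev w x).re)) ∂μ := by
      refine integral_mono ?_ i2 fun x => pn_le_eta w x hδ
      exact integrable_bdd (measurable_pn hwm) (C := 2) fun x => by
        rw [abs_of_nonneg (pn_nonneg _ _)]; exact pn_le_two _ _
    rw [integral_add (integrable_const _) (i1.const_mul _), integral_const_mul] at h3
    simpa only [ge_iff_le, integral_const, probReal_univ, smul_eq_mul, one_mul] using h3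
  have hlim2 : Tendsto (fun n => gδ k / 2 + (gδ k)⁻¹ *
      (1 - ((starRingEnd ℂ) J / ‖J‖ * z (φ n)).re)) atTop
      (𝓝 (gδ k / 2 + (gδ k)⁻¹ * (1 - ((starRingEnd ℂ) J / ‖J‖ * J).re))) := by
    refine tendsto_const_nhds.add (Tendsto.const_mul _ (tendsto_const_nhds.sub ?_))
    exact (Complex.continuous_re.tendsto _).comp (hlim.const_mul _)
  have hJre : ((starRingEnd ℂ) J / ‖J‖ * J).re = ‖J‖ := by
    have h3 : ((‖J‖ : ℝ) : ℂ) ≠ 0 := by exact_mod_cast hJpos.ne'
    have : (starRingEnd ℂ) J / ‖J‖ * J = ((‖J‖ : ℝ) : ℂ) := by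
      rw [div_mul_eq_mul_div, mul_comm ((starRingEnd ℂ) J), Complex.mul_conj,
        Complex.normSq_eq_norm_sq]
      push_cast
      field_simp
    rw [this, Complex.ofReal_re]
  rw [hJre] at hlim2
  have hlt : gδ k / 2 + (gδ k)⁻¹ * (1 - ‖J‖) < gδ k := by
    have h3 : 1 - ‖J‖ ≤ gδ k ^ 2 / 4 := by rw [← hkρ]; linarith only [hJ1]
    have h4 : (gδ k)⁻¹ * (1 - ‖J‖) ≤ (gδ k)⁻¹ * (gδ k ^ 2 / 4) := by
      have := (inv_pos.2 hδ).le
      (clear * - h3 hδ; gcongr)
    have h5 : (gδ k)⁻¹ * (gδ k ^ 2 / 4) = gδ k / 4 := by field_simp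
    linarith only [hδ, h4, h5]
  have hR : ∀ᶠ n in atTop, dd μ (∑ i, shiftEnd T (t (φ n) i) (u' i)) ≤ gδ k := by
    filter_upwards [hlim2.eventually_lt_const hlt] with n hn
    exact (hdd (φ n)).trans hn.le
  have hgaps' : Gaps (fun n => t (φ n)) := fun i j hij => (ht i j hij).comp hφ.tendsto_atTop
  have hfin := unimodular_gap_explicit hT h2 (fun n => t (φ n)) hgaps' u' hu'm hR l
  have e5 : ‖∫ x, ev (u' l) x ∂μ‖ = ‖∫ x, ev (u l) x ∂μ‖ := by
    have : ∀ x, ev (u' l) x = (starRingEnd ℂ) J / ‖J‖ * ev (u l) x := by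
      intro x
      simp only [hu', if_true]
      rw [ev_add, hevc]
    simp_rw [this]
    rw [integral_const_mul, norm_mul]
    have : ‖(starRingEnd ℂ) J / (‖J‖ : ℂ)‖ = 1 := by
      rw [norm_div, RCLike.norm_conj, Complex.norm_real, norm_norm]
      exact div_self hJpos.ne'
    rw [this, one_mul]
  rw [e5] at hfin
  have h6 : ‖(∫ x, f l x ∂μ) - ∫ x, ev (u l) x ∂μ‖ ≤ gρ k := by
    rw [← integral_sub (hfint l) (integrable_ev (hum l))]
    exact (norm_integral_le_integral_norm _).trans (hdist l)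
  have h7 : ‖∫ x, ev (u l) x ∂μ‖ - ‖∫ x, f l x ∂μ‖ ≤ gρ k := by
    have := norm_sub_norm_le (∫ x, ev (u l) x ∂μ) (∫ x, f l x ∂μ)
    rw [norm_sub_rev] at this
    linarith only [h6, this]
  linarith only [hρ1, hfin, h7]

/-- (A): for a transformation mixing of order two the correlations of any number of functions in
the unit ball, one of them with small mean, stay uniformly away from one. -/
theorem gapA (k : ℕ) {μ : Measure Ω} [IsProbabilityMeasure μ] {T : Ω ≃ᵐ Ω}
    (hT : MeasurePreserving T μ μ) (h2 : MixingOfOrder μ T 2)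
    (f : Fin k → Ω → ℂ) (hf : ∀ i, Measurable (f i))
    (hf1 : ∀ i x, ‖f i x‖ ≤ 1) (l : Fin k) (hl : ‖∫ x, f l x ∂μ‖ ≤ 1 / 2) :
    ∃ N : ℤ, ∀ t : Fin k → ℤ, (∀ i j, i < j → N ≤ t j - t i) →
      ‖∫ x, ∏ i, f i (iter T (t i) x) ∂μ‖ ≤ 1 - gρ k := by
  by_contra hcon
  push Not at hcon
  choose t ht1 ht2 using fun n : ℕ => hcon (n : ℤ)
  have hgaps : Gaps t := by
    intro i j hij
    exact tendsto_atTop_mono (fun n => ht1 n i j hij) tendsto_natCast_atTop_atTop
  have := gapA_seq hT h2 t hgaps f hf hf1 (fun n => (ht2 n).le) l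
  linarith only [hl, this]

end Vale.Agent.P102.Ext
end
end

section

section

namespace Vale.Agent.P102.Ext

open MeasureTheory Filter Topology

set_option linter.unusedSectionVars false

variable {Ω : Type*} [MeasurableSpace Ω]

/-- all gaps tend to infinity -/
def gapF (k : ℕ) : Filter (Fin k → ℤ) :=
  ⨅ N : ℤ, 𝓟 {t | ∀ i j : Fin k, i < j → N ≤ t j - t i}

theorem eventually_gapF {k : ℕ} {p : (Fin k → ℤ) → Prop} :
    (∀ᶠ t in gapF k, p t) ↔ ∃ N : ℤ, ∀ t : Fin k → ℤ, (∀ i j, i < j → N ≤ t j - t i) → p t := by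
  unfold gapF
  have hdir : Directed (· ≥ ·) fun N : ℤ => {t : Fin k → ℤ | ∀ i j : Fin k, i < j → N ≤ t j - t i} := by
    intro N1 N2
    refine ⟨max N1 N2, ?_, ?_⟩
    · intro t ht i j hij
      exact (le_max_left _ _).trans (ht i j hij)
    · intro t ht i j hij
      exact (le_max_right _ _).trans (ht i j hij)
  rw [(hasBasis_iInf_principal hdir).eventually_iff]
  simp only [true_and, Set.mem_ofPred_eq]

theorem MixingOfOrder.unif {μ : Measure Ω} [IsProbabilityMeasure μ] {T : Ω ≃ᵐ Ω}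
    (hT : MeasurePreserving T μ μ) {k : ℕ} (h : MixingOfOrder μ T k)
    (f : Fin k → Ω → ℂ) (hf : ∀ i, Measurable (f i))
    (hb : ∀ i, ∃ C : ℝ, ∀ x, ‖f i x‖ ≤ C) :
    Tendsto (fun t : Fin k → ℤ => ∫ x, ∏ i, f i (iter T (t i) x) ∂μ) (gapF k)
      (𝓝 (∏ i, ∫ x, f i x ∂μ)) := by
  rw [Metric.tendsto_nhds]
  intro ε hε
  rw [eventually_gapF]
  by_contra hcon
  push Not at hcon
  choose t ht1 ht2 using fun n : ℕ => hcon (n : ℤ)
  have hgaps : Gaps t := by
    intro i j hij
    exact tendsto_atTop_mono (fun n => ht1 n i j hij) tendsto_natCast_atTop_atTop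
  have := h.tendsto_fun hT hgaps f hf hb
  rw [Metric.tendsto_atTop] at this
  obtain ⟨n, hn⟩ := this ε hε
  exact absurd (hn n le_rfl) (not_lt.2 (ht2 n))

theorem MixingOfOrder.unif_real {μ : Measure Ω} [IsProbabilityMeasure μ] {T : Ω ≃ᵐ Ω}
    (hT : MeasurePreserving T μ μ) {k : ℕ} (h : MixingOfOrder μ T k)
    (f : Fin k → Ω → ℝ) (hf : ∀ i, Measurable (f i))
    (hb : ∀ i, ∃ C : ℝ, ∀ x, |f i x| ≤ C) :
    Tendsto (fun t : Fin k → ℤ => ∫ x, ∏ i, f i (iter T (t i) x) ∂μ) (gapF k)
      (𝓝 (∏ i, ∫ x, f i x ∂μ)) := by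
  rw [Metric.tendsto_nhds]
  intro ε hε
  rw [eventually_gapF]
  by_contra hcon
  push Not at hcon
  choose t ht1 ht2 using fun n : ℕ => hcon (n : ℤ)
  have hgaps : Gaps t := by
    intro i j hij
    exact tendsto_atTop_mono (fun n => ht1 n i j hij) tendsto_natCast_atTop_atTop
  have := h.tendsto_real hT hgaps f hf hb
  rw [Metric.tendsto_atTop] at this
  obtain ⟨n, hn⟩ := this ε hε
  exact absurd (hn n le_rfl) (not_lt.2 (ht2 n))

theorem tendsto_succAbove {m : ℕ} (j : Fin (m + 1)) :
    Tendsto (fun (t : Fin (m + 1) → ℤ) (i : Fin m) => t (j.succAbove i)) (gapF (m + 1)) (gapF m) := by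
  intro s hs
  have h1 : ∀ᶠ t in gapF m, t ∈ s := hs
  rw [eventually_gapF] at h1
  obtain ⟨N, hN⟩ := h1
  have : ∀ᶠ t in gapF (m + 1), (fun (i : Fin m) => t (j.succAbove i)) ∈ s := by
    rw [eventually_gapF]
    exact ⟨N, fun t ht => hN _ fun a b hab => ht _ _ (Fin.strictMono_succAbove j hab)⟩
  exact this

/-- weighted telescoping -/
theorem norm_prod_sub_prod_le' {ι : Type*} [DecidableEq ι] (s : Finset ι) (a b : ι → ℂ)
    (hb : ∀ i ∈ s, ‖b i‖ = 1) :
    ‖∏ i ∈ s, a i - ∏ i ∈ s, b i‖ ≤ ∑ i ∈ s, ‖a i - b i‖ * ∏ j ∈ s.erase i, max ‖a j‖ 1 := by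
  induction s using Finset.induction_on with
  | empty => simp only [Finset.prod_empty, sub_self, norm_zero, Finset.notMem_empty, not_false_eq_true, Finset.erase_eq_of_notMem, mul_one, Finset.sum_empty, Std.le_refl]
  | insert i s hi ih =>
    rw [Finset.prod_insert hi, Finset.prod_insert hi, Finset.sum_insert hi]
    have h1 := ih (fun j hj => hb j (Finset.mem_insert_of_mem hj))
    have h2 : a i * ∏ j ∈ s, a j - b i * ∏ j ∈ s, b j =
        (a i - b i) * ∏ j ∈ s, a j + b i * (∏ j ∈ s, a j - ∏ j ∈ s, b j) := by ring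
    rw [h2]
    refine (norm_add_le _ _).trans ?_
    rw [norm_mul, norm_mul, hb i (Finset.mem_insert_self i s), one_mul]
    refine add_le_add ?_ (h1.trans (Finset.sum_le_sum fun j hj => ?_))
    · rw [Finset.erase_insert hi, norm_prod]
      refine mul_le_mul_of_nonneg_left ?_ (norm_nonneg _)
      exact Finset.prod_le_prod (fun _ _ => norm_nonneg _) fun j _ => le_max_left _ _
    · refine mul_le_mul_of_nonneg_left ?_ (norm_nonneg _)
      have hji : j ≠ i := fun h => hi (h ▸ hj)
      have hsub : s.erase j ⊆ (insert i s).erase j := Finset.erase_subset_erase _ (Finset.subset_insert _ _)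
      exact Finset.prod_le_prod_of_subset_of_one_le hsub
        (fun _ _ => le_trans zero_le_one (le_max_right _ _)) fun _ _ _ => le_max_right _ _

end Vale.Agent.P102.Ext
end
end

section

section

namespace Vale.Agent.P102.Ext

open MeasureTheory Filter Topology

set_option linter.unusedSectionVars false

variable {Ω : Type*} [MeasurableSpace Ω]

noncomputable def gθ (m : ℕ) : ℝ := gρ (m + 1) / (2 * ((m + 1) * 2 ^ m))
noncomputable def gβ (m : ℕ) : ℝ := gθ m * gρ (m + 1) / (4 * (m + 1))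

theorem gθ_pos (m : ℕ) : 0 < gθ m := by
  have := gρ_pos (m + 1)
  unfold gθ; positivity

theorem gβ_pos (m : ℕ) : 0 < gβ m := by
  have := gρ_pos (m + 1)
  have := gθ_pos m
  unfold gβ; positivity

theorem gβ_le (m : ℕ) : gβ m ≤ gρ (m + 1) / 8 := by
  have h1 := gρ_pos (m + 1)
  have h2 := gρ_le (m + 1)
  have h3 := gθ_pos m
  have h4 : gθ m ≤ 1 / 2 := by
    unfold gθ
    rw [div_le_iff₀ (by positivity)]
    have h5 : (1 : ℝ) ≤ 2 ^ m := one_le_pow₀ (by norm_num)
    have h6 : (0 : ℝ) ≤ m := by positivity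
    nlinarith only [h2, h5]
  unfold gβ
  rw [div_le_iff₀ (by positivity)]
  have h6 : (0 : ℝ) ≤ m := by positivity
  have h7 : gθ m * gρ (m + 1) ≤ 1 / 2 * gρ (m + 1) := by gcongr
  have h8 : 0 ≤ gρ (m + 1) * m := by positivity
  linarith

theorem gβ_le_one (m : ℕ) : gβ m ≤ 1 / 128 := by
  have h1 := gβ_le m
  have h2 := gρ_le (m + 1)
  linarith

/-- two other indices -/
theorem exists_two_ne {m : ℕ} (hm : 2 ≤ m) (j : Fin (m + 1)) :
    ∃ l l' : Fin (m + 1), l ≠ l' ∧ l ≠ j ∧ l' ≠ j := by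
  have h1 : ({j} : Finset (Fin (m + 1))).card < (Finset.univ : Finset (Fin (m + 1))).card := by
    rw [Finset.card_univ, Fintype.card_fin, Finset.card_singleton]; omega
  obtain ⟨l, _, hl⟩ := Finset.exists_mem_notMem_of_card_lt_card h1
  simp only [Finset.mem_singleton] at hl
  have h2 : ({j, l} : Finset (Fin (m + 1))).card < (Finset.univ : Finset (Fin (m + 1))).card := by
    rw [Finset.card_univ, Fintype.card_fin]
    exact lt_of_le_of_lt Finset.card_le_two (by omega)
  obtain ⟨l', _, hl'⟩ := Finset.exists_mem_notMem_of_card_lt_card h2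
  simp only [Finset.mem_insert, Finset.mem_singleton, not_or] at hl'
  exact ⟨l, l', Ne.symm hl'.2, hl, hl'.1⟩

/-- limit of the correlations of `a_l ^ 2` and the other `a_i`, with `l'` left out -/
theorem drop_one_limit {μ : Measure Ω} [IsProbabilityMeasure μ] {T : Ω ≃ᵐ Ω}
    (hT : MeasurePreserving T μ μ) {m : ℕ} (hmix : MixingOfOrder μ T m)
    (a : Fin (m + 1) → Ω → ℝ) (ha : ∀ i, Measurable (a i)) (hb : ∀ i, ∃ C : ℝ, ∀ x, |a i x| ≤ C)
    (ha0 : ∀ i x, 0 ≤ a i x) (ha2 : ∀ i, ∫ x, a i x ^ 2 ∂μ = 1)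
    (ha1 : ∀ i, ∫ x, a i x ∂μ ≤ 1) (j l l' : Fin (m + 1)) (hll : l ≠ l') (hlj : l ≠ j)
    (hl'j : l' ≠ j) :
    ∃ L : ℝ, L ≤ ∫ x, a j x ∂μ ∧ Tendsto (fun t : Fin (m + 1) → ℤ =>
      ∫ x, a l (iter T (t l) x) ^ 2 * ∏ i ∈ (Finset.univ.erase l).erase l', a i (iter T (t i) x) ∂μ)
      (gapF (m + 1)) (𝓝 L) := by
  obtain ⟨b, hb'⟩ := Fin.exists_succAbove_eq hll
  obtain ⟨c, hc⟩ := Fin.exists_succAbove_eq (Ne.symm hl'j)
  have hbc : c ≠ b := by
    rintro rfl
    exact hlj (hb'.symm.trans hc)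
  set h : Fin m → Ω → ℝ := fun i x => if i = b then a (l'.succAbove i) x ^ 2 else a (l'.succAbove i) x
    with hh
  have hlim := (hmix.unif_real hT h (fun i => by
      simp only [hh]
      split_ifs
      · exact (ha _).pow_const 2
      · exact ha _) (fun i => by
      obtain ⟨C, hC⟩ := hb (l'.succAbove i)
      refine ⟨C ^ 2 + C, fun x => ?_⟩
      have h1 := hC x
      have h0 := (abs_nonneg _).trans h1
      simp only [hh]
      split_ifs
      · rw [abs_pow]
        have : |a (l'.succAbove i) x| ^ 2 ≤ C ^ 2 := by (clear * - h1; gcongr)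
        linarith only [h0, this]
      · nlinarith only [h1])).comp (tendsto_succAbove l')
  refine ⟨∏ i, ∫ x, h i x ∂μ, ?_, ?_⟩
  · have h0 : ∀ i, 0 ≤ ∫ x, h i x ∂μ := fun i => integral_nonneg fun x => by
      simp only [hh]
      split_ifs
      · (clear * -; positivity)
      · exact ha0 _ _
    have h1 : ∀ i, ∫ x, h i x ∂μ ≤ 1 := fun i => by
      simp only [hh]
      split_ifs
      · rw [ha2]
      · exact ha1 _
    rw [← Finset.mul_prod_erase Finset.univ _ (Finset.mem_univ c)]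
    have h2 : ∏ i ∈ Finset.univ.erase c, ∫ x, h i x ∂μ ≤ 1 :=
      Finset.prod_le_one (fun _ _ => h0 _) (fun _ _ => h1 _)
    have h3 : ∫ x, h c x ∂μ = ∫ x, a j x ∂μ := by
      simp only [hh, if_neg hbc, hc]
    calc (∫ x, h c x ∂μ) * ∏ i ∈ Finset.univ.erase c, ∫ x, h i x ∂μ ≤ (∫ x, h c x ∂μ) * 1 := by
          have := h0 c
          (clear * - h2 this; gcongr)
      _ = ∫ x, a j x ∂μ := by rw [mul_one, h3]
  · refine hlim.congr fun t => ?_
    simp only [Function.comp]
    congr 1; funext x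
    rw [← Finset.mul_prod_erase Finset.univ _ (Finset.mem_univ b)]
    simp only [hh, if_true, hb']
    congr 1
    have e1 : ∏ i ∈ Finset.univ.erase b, (if i = b then a (l'.succAbove i) (iter T (t (l'.succAbove i)) x) ^ 2
        else a (l'.succAbove i) (iter T (t (l'.succAbove i)) x)) =
        ∏ i ∈ Finset.univ.erase b, a (l'.succAbove i) (iter T (t (l'.succAbove i)) x) :=
      Finset.prod_congr rfl fun i hi => by rw [if_neg (Finset.ne_of_mem_erase hi)]
    rw [e1]
    have e2 : (Finset.univ.erase b).map (l'.succAboveEmb) =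
        (Finset.univ.erase l).erase l' := by
      ext i
      simp only [Finset.mem_map, Finset.mem_erase, Finset.mem_univ, and_true, ne_eq]
      constructor
      · rintro ⟨i', hi', rfl⟩
        refine ⟨Fin.succAbove_ne l' i', fun h => hi' ?_⟩
        have : l'.succAbove i' = l'.succAbove b := by
          rw [hb']; exact h
        exact Fin.succAbove_right_injective this
      · rintro ⟨h1, h2⟩
        obtain ⟨i', hi'⟩ := Fin.exists_succAbove_eq h1
        refine ⟨i', fun h => h2 ?_, hi'⟩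
        rw [← hi', h, hb']
    rw [← e2, Finset.prod_map]
    rfl

end Vale.Agent.P102.Ext
end
end

section

section

namespace Vale.Agent.P102.Ext

open MeasureTheory Filter Topology

set_option linter.unusedSectionVars false

variable {Ω : Type*} [MeasurableSpace Ω]

theorem prod_erase_eq_succAbove {m : ℕ} {R : Type*} [CommMonoid R] (l : Fin (m + 1))
    (F : Fin (m + 1) → R) : ∏ j ∈ Finset.univ.erase l, F j = ∏ i : Fin m, F (l.succAbove i) := by
  have e2 : (Finset.univ : Finset (Fin m)).map (l.succAboveEmb) = Finset.univ.erase l := by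
    ext i
    simp only [Finset.mem_map, Finset.mem_univ, true_and, Finset.mem_erase, and_true]
    constructor
    · rintro ⟨i', rfl⟩
      exact Fin.succAbove_ne l i'
    · intro h
      obtain ⟨i', hi'⟩ := Fin.exists_succAbove_eq h
      exact ⟨i', hi'⟩
  rw [← e2, Finset.prod_map]
  rfl

theorem gapB_norm {μ : Measure Ω} [IsProbabilityMeasure μ] {T : Ω ≃ᵐ Ω}
    (hT : MeasurePreserving T μ μ) {m : ℕ} (hm : 2 ≤ m) (hmix : MixingOfOrder μ T m)
    (g : Fin (m + 1) → Ω → ℂ) (hg : ∀ i, Measurable (g i)) (hb : ∀ i, ∃ C : ℝ, ∀ x, ‖g i x‖ ≤ C)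
    (hn : ∀ i, ∫ x, ‖g i x‖ ^ 2 ∂μ = 1) (l0 : Fin (m + 1)) (h0 : ∫ x, g l0 x ∂μ = 0) :
    ∀ᶠ t in gapF (m + 1), ‖∫ x, ∏ i, g i (iter T (t i) x) ∂μ‖ ≤ 1 - gβ m := by
  classical
  by_contra hcon
  set B : Set (Fin (m + 1) → ℤ) := {t | 1 - gβ m < ‖∫ x, ∏ i, g i (iter T (t i) x) ∂μ‖} with hB
  have hfreq : ∃ᶠ t in gapF (m + 1), t ∈ B := by
    rw [Filter.Frequently]
    intro h
    apply hcon
    filter_upwards [h] with t ht
    exact not_lt.1 ht
  set FF : Filter (Fin (m + 1) → ℤ) := gapF (m + 1) ⊓ 𝓟 B with hFF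
  have hne : FF.NeBot := frequently_iff_neBot.1 hfreq
  have hFle : FF ≤ gapF (m + 1) := inf_le_left
  have hFB : ∀ᶠ t in FF, t ∈ B := by
    rw [hFF]; exact eventually_inf_principal.2 (Eventually.of_forall fun _ h => h)
  choose C hC using hb
  have hC0 : ∀ i, 0 ≤ C i := by
    intro i
    obtain ⟨x⟩ : Nonempty Ω := nonempty_of_isProbabilityMeasure μ
    exact (norm_nonneg _).trans (hC i x)
  set a : Fin (m + 1) → Ω → ℝ := fun i x => ‖g i x‖ with ha
  have ham : ∀ i, Measurable (a i) := fun i => (hg i).norm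
  have ha0 : ∀ i x, 0 ≤ a i x := fun i x => norm_nonneg _
  have haC : ∀ i x, |a i x| ≤ C i := fun i x => by rw [abs_of_nonneg (ha0 i x)]; exact hC i x
  have haC' : ∀ i x, a i x ≤ C i := hC
  have hai : ∀ i, Integrable (a i) μ := fun i => integrable_bdd (ham i) (haC i)
  have hai2 : ∀ i, Integrable (fun x => a i x ^ 2) μ := fun i =>
    integrable_bdd ((ham i).pow_const 2) (C := C i ^ 2) fun x => by
      rw [abs_pow]
      have := haC i x
      (clear * - this; gcongr)
  have ha1 : ∀ i, ∫ x, a i x ∂μ ≤ 1 := by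
    intro i
    have h1 := sq_integral_norm_le (μ := μ) (g i) (hg i) (hC i)
    rw [hn i] at h1
    have h2 : 0 ≤ ∫ x, ‖g i x‖ ∂μ := integral_nonneg fun _ => norm_nonneg _
    have h3 : ∫ x, a i x ∂μ = ∫ x, ‖g i x‖ ∂μ := rfl
    rw [h3]
    nlinarith only [h1]
  have hintg : ∀ t : Fin (m + 1) → ℤ, Integrable (fun x => ∏ i, g i (iter T (t i) x)) μ := fun t =>
    integrable_prod_bdd Finset.univ (fun i x => g i (iter T (t i) x))
      (fun i _ => (hg i).comp (measurable_iter T _)) C (fun i _ x => hC i _)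
  -- step 1
  have step1 : ∀ j, 1 - gβ m ≤ ∫ x, a j x ∂μ := by
    intro j
    obtain ⟨l, l', hll, hlj, hl'j⟩ := exists_two_ne hm j
    obtain ⟨L, hL1, hL⟩ := drop_one_limit hT hmix a ham (fun i => ⟨C i, haC i⟩) ha0 hn ha1 j l l'
      hll hlj hl'j
    obtain ⟨L', hL1', hL'⟩ := drop_one_limit hT hmix a ham (fun i => ⟨C i, haC i⟩) ha0 hn ha1 j l' l
      (Ne.symm hll) hl'j hlj
    have hlim := ((hL.add hL').const_mul (1 / 2)).mono_left hFle
    have hbd : ∀ᶠ t in FF, 1 - gβ m ≤ 1 / 2 *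
        (∫ x, a l (iter T (t l) x) ^ 2 * ∏ i ∈ (Finset.univ.erase l).erase l', a i (iter T (t i) x) ∂μ +
        ∫ x, a l' (iter T (t l') x) ^ 2 * ∏ i ∈ (Finset.univ.erase l').erase l, a i (iter T (t i) x) ∂μ) := by
      filter_upwards [hFB] with t ht
      refine (le_of_lt ht).trans ((norm_integral_le_integral_norm _).trans ?_)
      have hRm : ∀ (s : Finset (Fin (m + 1))), Measurable fun x => ∏ i ∈ s, a i (iter T (t i) x) :=
        fun s => Finset.measurable_prod _ fun i _ => (ham i).comp (measurable_iter T _)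
      have hRb : ∀ (s : Finset (Fin (m + 1))) x, |∏ i ∈ s, a i (iter T (t i) x)| ≤ ∏ i ∈ s, C i := by
        intro s x
        rw [Finset.abs_prod]
        exact Finset.prod_le_prod (fun _ _ => abs_nonneg _) fun i _ => haC i _
      have hI : ∀ (q : Fin (m + 1)) (s : Finset (Fin (m + 1))),
          Integrable (fun x => a q (iter T (t q) x) ^ 2 * ∏ i ∈ s, a i (iter T (t i) x)) μ := by
        intro q s
        refine integrable_bdd ((((ham q).comp (measurable_iter T _)).pow_const 2).mul (hRm s))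
          (C := C q ^ 2 * ∏ i ∈ s, C i) fun x => ?_
        rw [abs_mul, abs_pow]
        have h1 := haC q (iter T (t q) x)
        have h2 := hRb s x
        have h3 : 0 ≤ C q ^ 2 := by (clear * -; positivity)
        (clear * - h1 h2; gcongr)
      rw [← integral_add (hI _ _) (hI _ _), ← integral_const_mul]
      refine integral_mono (hintg t).norm (((hI _ _).add (hI _ _)).const_mul _) fun x => ?_
      simp only
      rw [norm_prod, ← Finset.mul_prod_erase Finset.univ _ (Finset.mem_univ l),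
        ← Finset.mul_prod_erase (Finset.univ.erase l) _
          (Finset.mem_erase.2 ⟨Ne.symm hll, Finset.mem_univ l'⟩),
        Finset.erase_right_comm (a := l') (b := l)]
      set R := ∏ i ∈ (Finset.univ.erase l).erase l', a i (iter T (t i) x) with hR
      have hR0 : 0 ≤ R := Finset.prod_nonneg fun i _ => ha0 i _
      change a l (iter T (t l) x) * (a l' (iter T (t l') x) * R) ≤ 1 / 2 *
        (a l (iter T (t l) x) ^ 2 * R + a l' (iter T (t l') x) ^ 2 * R)
      nlinarith only [mul_nonneg (sq_nonneg (a l (iter T (t l) x) - a l' (iter T (t l') x))) hR0]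
    have := le_of_tendsto_of_tendsto tendsto_const_nhds hlim hbd
    linarith only [hL1, hL1', this]
  -- step 2
  have step2 : ∀ i, ∫ x, (a i x - 1) ^ 2 ∂μ ≤ 2 * gβ m := by
    intro i
    have e : ∀ x, (a i x - 1) ^ 2 = a i x ^ 2 - (2 * a i x - 1) := fun x => by ring
    simp_rw [e]
    have i1 : Integrable (fun x => 2 * a i x) μ := (hai i).const_mul 2
    have i2 : Integrable (fun x => 2 * a i x - 1) μ := i1.sub (integrable_const _)
    rw [integral_sub (hai2 i) i2, integral_sub i1 (integrable_const _), integral_const_mul]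
    have h1 : ∫ x, a i x ^ 2 ∂μ = 1 := hn i
    rw [h1]
    simp only [integral_const, probReal_univ, one_smul]
    linarith only [step1 i]
  set u : Fin (m + 1) → Additive (Ω → Circle) := fun i => psT (g i) with hu
  have hum : ∀ i, u i ∈ measSub Ω := fun i => psT_mem _ (hg i)
  have humm : ∀ i, Measurable (ev (u i)) := hum
  have hdist : ∀ i x, ‖g i x - ev (u i) x‖ = |a i x - 1| := fun i x => norm_sub_psT' (g i) x
  have hgβ := gβ_pos m
  have hgβ1 := gβ_le m
  have hgρ := gρ_pos (m + 1)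
  have hgθ := gθ_pos m
  -- the means of the phases
  have hmean : ‖∫ x, ev (u l0) x ∂μ‖ ≤ 1 / 2 := by
    have h1 : (∫ x, ‖g l0 x - ev (u l0) x‖ ∂μ) ^ 2 ≤ 2 * gβ m := by
      refine (sq_integral_norm_le (μ := μ) (fun x => g l0 x - ev (u l0) x) ((hg l0).sub (humm l0))
        (C := C l0 + 1) fun x => ?_).trans ?_
      · refine (norm_sub_le _ _).trans ?_
        rw [norm_ev]
        have := hC l0 x
        linarith only [this]
      · have : ∀ x, ‖g l0 x - ev (u l0) x‖ ^ 2 = (a l0 x - 1) ^ 2 := fun x => by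
          rw [hdist, sq_abs]
        simp_rw [this]
        exact step2 l0
    have h2 : ‖(∫ x, g l0 x ∂μ) - ∫ x, ev (u l0) x ∂μ‖ ≤ ∫ x, ‖g l0 x - ev (u l0) x‖ ∂μ := by
      rw [← integral_sub (integrable_bddC (hg l0) (hC l0)) (integrable_ev (hum l0))]
      exact norm_integral_le_integral_norm _
    rw [h0, zero_sub, norm_neg] at h2
    have h3 := gβ_le_one m
    have h4 : 0 ≤ ∫ x, ‖g l0 x - ev (u l0) x‖ ∂μ := integral_nonneg fun _ => norm_nonneg _
    nlinarith only [h1, h2, h3]
  have hA : ∀ᶠ t in FF, ‖∫ x, ∏ i, ev (u i) (iter T (t i) x) ∂μ‖ ≤ 1 - gρ (m + 1) := by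
    refine Eventually.filter_mono hFle ?_
    rw [eventually_gapF]
    exact gapA (m + 1) hT (hmix.two hm) (fun i => ev (u i)) humm (fun i x => (norm_ev _ x).le) l0 hmean
  -- the difference
  set Mx : Fin (m + 1) → Ω → ℝ := fun i x => max (a i x) 1 with hMx
  have hMm : ∀ i, Measurable (Mx i) := fun i => (ham i).max measurable_const
  have hM1 : ∀ i x, 1 ≤ Mx i x := fun i x => le_max_right _ _
  have hMC : ∀ i x, |Mx i x| ≤ C i + 1 := by
    intro i x
    rw [abs_of_nonneg (zero_le_one.trans (hM1 i x))]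
    exact max_le (by linarith only [haC' i x]) (by linarith only [hC0 i])
  have hM2i : ∀ i, Integrable (fun x => Mx i x ^ 2) μ := fun i =>
    integrable_bdd ((hMm i).pow_const 2) (C := (C i + 1) ^ 2) fun x => by
      rw [abs_pow]
      have := hMC i x
      (clear * - this; gcongr)
  have hM2 : ∀ i, ∫ x, Mx i x ^ 2 ∂μ ≤ 2 := by
    intro i
    have h1 : ∫ x, Mx i x ^ 2 ∂μ ≤ ∫ x, (a i x ^ 2 + 1) ∂μ := by
      refine integral_mono (hM2i i) ((hai2 i).add (integrable_const _)) fun x => ?_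
      simp only [hMx]
      rcases le_total (a i x) 1 with h | h
      · rw [max_eq_right h]; nlinarith only []
      · rw [max_eq_left h]; linarith only []
    rw [integral_add (hai2 i) (integrable_const _)] at h1
    have h2 : ∫ x, a i x ^ 2 ∂μ = 1 := hn i
    rw [h2] at h1
    simp only [integral_const, probReal_univ, one_smul] at h1
    linarith only [h1]
  set D : (Fin (m + 1) → ℤ) → ℝ := fun t => ∑ l, (1 / 2 * ((gθ m)⁻¹ * ∫ x, (a l x - 1) ^ 2 ∂μ +
    gθ m * ∫ x, ∏ i : Fin m, Mx (l.succAbove i) (iter T (t (l.succAbove i)) x) ^ 2 ∂μ)) with hD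
  have hDlim : Tendsto D FF (𝓝 (∑ l, (1 / 2 * ((gθ m)⁻¹ * ∫ x, (a l x - 1) ^ 2 ∂μ +
      gθ m * ∏ i : Fin m, ∫ x, Mx (l.succAbove i) x ^ 2 ∂μ)))) := by
    refine (tendsto_finsetSum _ fun l _ => Tendsto.const_mul _ (tendsto_const_nhds.add
      (Tendsto.const_mul _ ?_))).mono_left hFle
    exact (hmix.unif_real hT (fun i x => Mx (l.succAbove i) x ^ 2)
      (fun i => (hMm _).pow_const 2) (fun i => ⟨(C (l.succAbove i) + 1) ^ 2, fun x => by
        rw [abs_pow]
        have := hMC (l.succAbove i) x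
        (clear * - this; gcongr)⟩)).comp (tendsto_succAbove l)
  have hDle : ∑ l : Fin (m + 1), (1 / 2 * ((gθ m)⁻¹ * ∫ x, (a l x - 1) ^ 2 ∂μ +
      gθ m * ∏ i : Fin m, ∫ x, Mx (l.succAbove i) x ^ 2 ∂μ)) ≤ gρ (m + 1) / 2 := by
    have h1 : ∀ l : Fin (m + 1), (1 / 2 * ((gθ m)⁻¹ * ∫ x, (a l x - 1) ^ 2 ∂μ +
        gθ m * ∏ i : Fin m, ∫ x, Mx (l.succAbove i) x ^ 2 ∂μ)) ≤
        1 / 2 * ((gθ m)⁻¹ * (2 * gβ m) + gθ m * 2 ^ m) := by
      intro l
      have h2 := step2 l
      have h3 : ∏ i : Fin m, ∫ x, Mx (l.succAbove i) x ^ 2 ∂μ ≤ 2 ^ m := by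
        calc ∏ i : Fin m, ∫ x, Mx (l.succAbove i) x ^ 2 ∂μ ≤ ∏ _i : Fin m, (2 : ℝ) :=
              Finset.prod_le_prod (fun i _ => integral_nonneg fun _ => sq_nonneg _)
                fun i _ => hM2 _
          _ = 2 ^ m := by rw [Finset.prod_const, Finset.card_univ, Fintype.card_fin]
      have h4 := (inv_pos.2 hgθ).le
      (clear * - h2 hgθ h3; gcongr)
    refine (Finset.sum_le_card_nsmul _ _ _ fun l _ => h1 l).trans (le_of_eq ?_)
    rw [nsmul_eq_mul, Finset.card_univ, Fintype.card_fin]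
    have e1 : (gθ m)⁻¹ * (2 * gβ m) = gρ (m + 1) / (2 * (m + 1)) := by
      unfold gβ
      field_simp
      ring
    have e2 : gθ m * 2 ^ m = gρ (m + 1) / (2 * (m + 1)) := by
      unfold gθ
      field_simp
    rw [e1, e2]
    push_cast
    field_simp
    ring
  have hdiff : ∀ t : Fin (m + 1) → ℤ, ‖(∫ x, ∏ i, g i (iter T (t i) x) ∂μ) -
      ∫ x, ∏ i, ev (u i) (iter T (t i) x) ∂μ‖ ≤ D t := by
    intro t
    have hintu : Integrable (fun x => ∏ i, ev (u i) (iter T (t i) x)) μ :=
      integrable_prod_bdd Finset.univ (fun i x => ev (u i) (iter T (t i) x))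
        (fun i _ => (humm i).comp (measurable_iter T _)) (fun _ => 1)
        (fun i _ x => (norm_ev _ _).le)
    rw [← integral_sub (hintg t) hintu]
    refine (norm_integral_le_integral_norm _).trans ?_
    have hi1 : ∀ l, Integrable (fun x => (a l (iter T (t l) x) - 1) ^ 2) μ := by
      intro l
      refine integrable_bdd ((((ham l).comp (measurable_iter T _)).sub_const 1).pow_const 2)
        (C := (C l + 1) ^ 2) fun x => ?_
      rw [abs_pow]
      have : |a l (iter T (t l) x) - 1| ≤ C l + 1 := by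
        rw [abs_le]
        constructor
        · linarith only [ha0 l (iter T (t l) x), hC0 l]
        · linarith only [haC' l (iter T (t l) x)]
      (clear * - this; gcongr)
    have hi2 : ∀ l : Fin (m + 1), Integrable (fun x => ∏ i : Fin m,
        Mx (l.succAbove i) (iter T (t (l.succAbove i)) x) ^ 2) μ := by
      intro l
      refine integrable_bdd (Finset.measurable_prod _ fun i _ =>
        ((hMm _).comp (measurable_iter T _)).pow_const 2)
        (C := ∏ i : Fin m, (C (l.succAbove i) + 1) ^ 2) fun x => ?_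
      rw [Finset.abs_prod]
      refine Finset.prod_le_prod (fun _ _ => abs_nonneg _) fun i _ => ?_
      rw [abs_pow]
      have := hMC (l.succAbove i) (iter T (t (l.succAbove i)) x)
      (clear * - this; gcongr)
    have hi3 : ∀ l : Fin (m + 1), Integrable (fun x => 1 / 2 * ((gθ m)⁻¹ * (a l (iter T (t l) x) - 1) ^ 2
        + gθ m * ∏ i : Fin m, Mx (l.succAbove i) (iter T (t (l.succAbove i)) x) ^ 2)) μ := fun l =>
      (((hi1 l).const_mul _).add ((hi2 l).const_mul _)).const_mul _
    calc ∫ x, ‖∏ i, g i (iter T (t i) x) - ∏ i, ev (u i) (iter T (t i) x)‖ ∂μ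
        ≤ ∫ x, ∑ l, 1 / 2 * ((gθ m)⁻¹ * (a l (iter T (t l) x) - 1) ^ 2
        + gθ m * ∏ i : Fin m, Mx (l.succAbove i) (iter T (t (l.succAbove i)) x) ^ 2) ∂μ := by
          refine integral_mono ((hintg t).sub hintu).norm (integrable_finsetSum _ fun l _ => hi3 l)
            fun x => ?_
          refine (norm_prod_sub_prod_le' Finset.univ _ _ (fun i _ => norm_ev _ _)).trans ?_
          refine Finset.sum_le_sum fun l _ => ?_
          rw [hdist, prod_erase_eq_succAbove l (fun j => max ‖g j (iter T (t j) x)‖ 1),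
            Finset.prod_pow]
          change |a l (iter T (t l) x) - 1| * (∏ i : Fin m,
            Mx (l.succAbove i) (iter T (t (l.succAbove i)) x)) ≤ _
          set X := |a l (iter T (t l) x) - 1| with hX
          set Y := ∏ i : Fin m, Mx (l.succAbove i) (iter T (t (l.succAbove i)) x) with hY
          have e1 : (a l (iter T (t l) x) - 1) ^ 2 = X ^ 2 := by rw [hX, sq_abs]
          rw [e1]
          have h3 : 0 ≤ (gθ m)⁻¹ * (X - gθ m * Y) ^ 2 := by
            have := (inv_pos.2 hgθ).le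
            (clear * - hgθ; positivity)
          have h4 : (gθ m)⁻¹ * (X - gθ m * Y) ^ 2 = (gθ m)⁻¹ * X ^ 2 - 2 * (X * Y) + gθ m * Y ^ 2 := by
            field_simp; ring
          linarith only [h3, h4]
      _ = D t := by
          rw [integral_finsetSum _ fun l _ => hi3 l]
          refine Finset.sum_congr rfl fun l _ => ?_
          rw [integral_const_mul, integral_add ((hi1 l).const_mul _) ((hi2 l).const_mul _),
            integral_const_mul, integral_const_mul]
          have := integral_comp_iter hT (t l) (fun x => (a l x - 1) ^ 2)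
            (((ham l).sub_const 1).pow_const 2).aestronglyMeasurable
          rw [this]
  have hfinal : ∀ᶠ t in FF, 1 - gβ m ≤ 1 - gρ (m + 1) + D t := by
    filter_upwards [hFB, hA] with t ht1 ht2
    have h1 := hdiff t
    have h3 := norm_sub_norm_le (∫ x, ∏ i, g i (iter T (t i) x) ∂μ)
      (∫ x, ∏ i, ev (u i) (iter T (t i) x) ∂μ)
    have h4 : 1 - gβ m < ‖∫ x, ∏ i, g i (iter T (t i) x) ∂μ‖ := ht1
    linarith only [ht2, h1, h3, h4]
  have hlast := le_of_tendsto_of_tendsto tendsto_const_nhds (tendsto_const_nhds.add hDlim) hfinal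
  linarith only [hgβ, hgβ1, hDle, hlast]

end Vale.Agent.P102.Ext
end
end

section

section

namespace Vale.Agent.P102.Ext

open MeasureTheory Filter Topology

set_option linter.unusedSectionVars false

variable {Ω : Type*} [MeasurableSpace Ω]

/-- the gap for mean zero functions -/
theorem gapB_zero {μ : Measure Ω} [IsProbabilityMeasure μ] {T : Ω ≃ᵐ Ω}
    (hT : MeasurePreserving T μ μ) {m : ℕ} (hm : 2 ≤ m) (hmix : MixingOfOrder μ T m)
    (F : Fin (m + 1) → Ω → ℂ) (hF : ∀ i, Measurable (F i)) (hb : ∀ i, ∃ C : ℝ, ∀ x, ‖F i x‖ ≤ C)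
    (h0 : ∀ i, ∫ x, F i x ∂μ = 0) :
    ∀ᶠ t in gapF (m + 1), ‖∫ x, ∏ i, F i (iter T (t i) x) ∂μ‖ ≤
      (1 - gβ m) * ∏ i, Real.sqrt (∫ x, ‖F i x‖ ^ 2 ∂μ) := by
  choose C hC using hb
  have hsqint : ∀ i, Integrable (fun x => ‖F i x‖ ^ 2) μ := fun i =>
    integrable_bdd ((hF i).norm.pow_const 2) (C := C i ^ 2) fun x => by
      rw [abs_pow, abs_norm]
      have := hC i x
      gcongr
  set a : Fin (m + 1) → ℝ := fun i => Real.sqrt (∫ x, ‖F i x‖ ^ 2 ∂μ) with ha
  have ha0 : ∀ i, 0 ≤ a i := fun i => Real.sqrt_nonneg _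
  have hasq : ∀ i, a i ^ 2 = ∫ x, ‖F i x‖ ^ 2 ∂μ := fun i =>
    Real.sq_sqrt (integral_nonneg fun _ => by (clear * -; positivity))
  have hβ1 := gβ_le_one m
  by_cases hz : ∃ i, a i = 0
  · obtain ⟨i, hi⟩ := hz
    have h1 : ∫ x, ‖F i x‖ ^ 2 ∂μ = 0 := by rw [← hasq, hi]; simp
    have h2 := (integral_eq_zero_iff_of_nonneg (fun x => by (clear * -; positivity)) (hsqint i)).1 h1
    have h3 : ∀ᵐ x ∂μ, F i x = 0 := by
      filter_upwards [h2] with x hx
      have : ‖F i x‖ ^ 2 = 0 := by simpa using hx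
      simpa using this
    refine Eventually.of_forall fun t => ?_
    have h4 : ∫ x, ∏ i, F i (iter T (t i) x) ∂μ = 0 := by
      have : ∀ᵐ x ∂μ, ∏ i, F i (iter T (t i) x) = 0 := by
        filter_upwards [(mp_iter T hT (t i)).quasiMeasurePreserving.ae h3] with x hx
        exact Finset.prod_eq_zero (Finset.mem_univ i) hx
      rw [integral_congr_ae this]; simp
    rw [h4, norm_zero]
    have : 0 ≤ 1 - gβ m := by linarith only [hβ1]
    exact mul_nonneg this (Finset.prod_nonneg fun i _ => ha0 i)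
  · push Not at hz
    have hapos : ∀ i, 0 < a i := fun i => lt_of_le_of_ne (ha0 i) (Ne.symm (hz i))
    set g : Fin (m + 1) → Ω → ℂ := fun i x => ((a i)⁻¹ : ℂ) * F i x with hg
    have hgm : ∀ i, Measurable (g i) := fun i => (hF i).const_mul _
    have hgb : ∀ i, ∃ C : ℝ, ∀ x, ‖g i x‖ ≤ C := fun i => ⟨(a i)⁻¹ * C i, fun x => by
      simp only [hg, norm_mul, norm_inv, Complex.norm_real, Real.norm_eq_abs, abs_of_pos (hapos i)]
      have := hC i x
      have h1 := (inv_pos.2 (hapos i)).le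
      (clear * - this; gcongr)⟩
    have hgnorm : ∀ i, ∫ x, ‖g i x‖ ^ 2 ∂μ = 1 := by
      intro i
      have e : ∀ x, ‖g i x‖ ^ 2 = ((a i)⁻¹) ^ 2 * ‖F i x‖ ^ 2 := by
        intro x
        simp only [hg, norm_mul, norm_inv, Complex.norm_real, Real.norm_eq_abs,
          abs_of_pos (hapos i)]
        ring
      simp_rw [e]
      rw [integral_const_mul, ← hasq i]
      have := (hapos i).ne'
      field_simp
    have hg0 : ∀ i, ∫ x, g i x ∂μ = 0 := by
      intro i
      simp only [hg]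
      rw [integral_const_mul, h0 i, mul_zero]
    have hmain := gapB_norm hT hm hmix g hgm hgb hgnorm 0 (hg0 0)
    filter_upwards [hmain] with t ht
    have e : ∫ x, ∏ i, g i (iter T (t i) x) ∂μ = ((∏ i, (a i : ℂ)))⁻¹ *
        ∫ x, ∏ i, F i (iter T (t i) x) ∂μ := by
      simp only [hg]
      rw [← integral_const_mul]
      congr 1; funext x
      rw [Finset.prod_mul_distrib, Finset.prod_inv_distrib]
    rw [e, norm_mul, norm_inv, norm_prod] at ht
    have e2 : ∏ i, ‖(a i : ℂ)‖ = ∏ i, a i :=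
      Finset.prod_congr rfl fun i _ => by
        rw [Complex.norm_real, Real.norm_eq_abs, abs_of_pos (hapos i)]
    rw [e2] at ht
    have hPpos : 0 < ∏ i, a i := Finset.prod_pos fun i _ => hapos i
    have h5 := mul_le_mul_of_nonneg_left ht hPpos.le
    rw [← mul_assoc, mul_inv_cancel₀ hPpos.ne', one_mul] at h5
    rw [mul_comm (1 - gβ m)]
    exact h5

/-- sub-products have the expected limits -/
theorem sub_limit {μ : Measure Ω} [IsProbabilityMeasure μ] {T : Ω ≃ᵐ Ω}
    (hT : MeasurePreserving T μ μ) {m : ℕ} (hmix : MixingOfOrder μ T m)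
    (F : Fin (m + 1) → Ω → ℂ) (hF : ∀ i, Measurable (F i)) (hb : ∀ i, ∃ C : ℝ, ∀ x, ‖F i x‖ ≤ C)
    (s : Finset (Fin (m + 1))) (hs : s ≠ Finset.univ) :
    Tendsto (fun t : Fin (m + 1) → ℤ => ∫ x, ∏ i ∈ s, F i (iter T (t i) x) ∂μ) (gapF (m + 1))
      (𝓝 (∏ i ∈ s, ∫ x, F i x ∂μ)) := by
  classical
  obtain ⟨j, hj⟩ : ∃ j, j ∉ s := by
    by_contra h
    push Not at h
    exact hs (Finset.eq_univ_of_forall h)
  set h : Fin m → Ω → ℂ := fun i => if j.succAbove i ∈ s then F (j.succAbove i) else fun _ => 1 with hh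
  have hlim := (hmix.unif hT h (fun i => by
      simp only [hh]
      split_ifs
      · exact hF _
      · exact measurable_const) (fun i => by
      simp only [hh]
      split_ifs
      · exact hb _
      · exact ⟨1, fun x => by simp⟩)).comp (tendsto_succAbove j)
  have hprod : ∀ G : Fin (m + 1) → ℂ, ∏ i ∈ s, G i =
      ∏ i : Fin m, if j.succAbove i ∈ s then G (j.succAbove i) else 1 := by
    intro G
    have e1 := prod_erase_eq_succAbove j (fun i => if i ∈ s then G i else 1)
    rw [← e1]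
    rw [← Finset.prod_filter]
    congr 1
    ext i
    simp only [Finset.mem_filter, Finset.mem_erase, Finset.mem_univ, and_true]
    constructor
    · intro hi
      exact ⟨fun h => hj (h ▸ hi), hi⟩
    · exact fun h => h.2
  refine (hlim.congr fun t => ?_).trans_eq ?_
  · simp only [Function.comp]
    congr 1; funext x
    rw [hprod (fun i => F i (iter T (t i) x))]
    refine Finset.prod_congr rfl fun i _ => ?_
    simp only [hh]
    split_ifs <;> rfl
  · congr 1
    rw [hprod (fun i => ∫ x, F i x ∂μ)]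
    refine Finset.prod_congr rfl fun i _ => ?_
    simp only [hh]
    split_ifs
    · rfl
    · simp

/-- the gap for general bounded functions -/
theorem gapB_fun {μ : Measure Ω} [IsProbabilityMeasure μ] {T : Ω ≃ᵐ Ω}
    (hT : MeasurePreserving T μ μ) {m : ℕ} (hm : 2 ≤ m) (hmix : MixingOfOrder μ T m)
    (f : Fin (m + 1) → Ω → ℂ) (hf : ∀ i, Measurable (f i)) (hb : ∀ i, ∃ C : ℝ, ∀ x, ‖f i x‖ ≤ C)
    (ε : ℝ) (hε : 0 < ε) :
    ∀ᶠ t in gapF (m + 1), ‖(∫ x, ∏ i, f i (iter T (t i) x) ∂μ) - ∏ i, ∫ x, f i x ∂μ‖ ≤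
      (1 - gβ m) * (∏ i, Real.sqrt (∫ x, ‖f i x - ∫ y, f i y ∂μ‖ ^ 2 ∂μ)) + ε := by
  classical
  set c : Fin (m + 1) → ℂ := fun i => ∫ y, f i y ∂μ with hc
  set F : Fin (m + 1) → Ω → ℂ := fun i x => f i x - c i with hF
  have hFm : ∀ i, Measurable (F i) := fun i => (hf i).sub_const _
  have hFb : ∀ i, ∃ C : ℝ, ∀ x, ‖F i x‖ ≤ C := fun i => by
    obtain ⟨C, hC⟩ := hb i
    exact ⟨C + ‖c i‖, fun x => (norm_sub_le _ _).trans (by have := hC x; (clear * - this; gcongr))⟩
  have hF0 : ∀ i, ∫ x, F i x ∂μ = 0 := by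
    intro i
    obtain ⟨C, hC⟩ := hb i
    simp only [hF]
    rw [integral_sub (integrable_bddC (hf i) hC) (integrable_const _)]
    simp [hc]
  have h1 := gapB_zero hT hm hmix F hFm hFb hF0
  choose C hC using hFb
  have hint : ∀ (t : Fin (m + 1) → ℤ) (s : Finset (Fin (m + 1))),
      Integrable (fun x => ∏ i ∈ s, F i (iter T (t i) x)) μ := fun t s =>
    integrable_prod_bdd s (fun i x => F i (iter T (t i) x))
      (fun i _ => (hFm i).comp (measurable_iter T _)) C (fun i _ x => hC i _)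
  have hexp : ∀ t : Fin (m + 1) → ℤ, ∫ x, ∏ i, f i (iter T (t i) x) ∂μ =
      ∑ s ∈ (Finset.univ : Finset (Fin (m + 1))).powerset,
        (∫ x, ∏ i ∈ s, F i (iter T (t i) x) ∂μ) * ∏ i ∈ Finset.univ \ s, c i := by
    intro t
    have e : ∀ x, ∏ i, f i (iter T (t i) x) =
        ∑ s ∈ (Finset.univ : Finset (Fin (m + 1))).powerset,
          (∏ i ∈ s, F i (iter T (t i) x)) * ∏ i ∈ Finset.univ \ s, c i := by
      intro x
      rw [← Finset.prod_add]
      refine Finset.prod_congr rfl fun i _ => ?_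
      simp only [hF]; ring
    simp_rw [e]
    rw [integral_finsetSum _ fun s _ => (hint t s).mul_const _]
    exact Finset.sum_congr rfl fun s _ => integral_mul_const _ _
  have hlim : Tendsto (fun t : Fin (m + 1) → ℤ => (∫ x, ∏ i, f i (iter T (t i) x) ∂μ) -
      ∫ x, ∏ i, F i (iter T (t i) x) ∂μ) (gapF (m + 1)) (𝓝 (∏ i, c i)) := by
    have h2 : Tendsto (fun t : Fin (m + 1) → ℤ =>
        ∑ s ∈ (Finset.univ : Finset (Fin (m + 1))).powerset.erase Finset.univ,
        (∫ x, ∏ i ∈ s, F i (iter T (t i) x) ∂μ) * ∏ i ∈ Finset.univ \ s, c i) (gapF (m + 1))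
        (𝓝 (∑ s ∈ (Finset.univ : Finset (Fin (m + 1))).powerset.erase Finset.univ,
        (∏ i ∈ s, ∫ x, F i x ∂μ) * ∏ i ∈ Finset.univ \ s, c i)) :=
      tendsto_finsetSum _ fun s hs => (sub_limit hT hmix F hFm (fun i => ⟨C i, hC i⟩) s
        (Finset.ne_of_mem_erase hs)).mul_const _
    have h3 : ∑ s ∈ (Finset.univ : Finset (Fin (m + 1))).powerset.erase Finset.univ,
        (∏ i ∈ s, ∫ x, F i x ∂μ) * ∏ i ∈ Finset.univ \ s, c i = ∏ i, c i := by
      rw [Finset.sum_eq_single ∅]
      · simp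
      · intro s _ hs0
        obtain ⟨i, hi⟩ := Finset.nonempty_iff_ne_empty.2 hs0
        rw [Finset.prod_eq_zero hi (hF0 i), zero_mul]
      · intro h
        exfalso
        apply h
        refine Finset.mem_erase.2 ⟨?_, Finset.empty_mem_powerset _⟩
        intro h5
        have : (0 : Fin (m + 1)) ∈ (∅ : Finset (Fin (m + 1))) := by rw [h5]; exact Finset.mem_univ _
        simp only [Finset.notMem_empty] at this
    rw [h3] at h2
    refine h2.congr fun t => ?_
    rw [hexp t, ← Finset.add_sum_erase _ _ (Finset.mem_powerset_self Finset.univ)]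
    simp only [Finset.powerset_univ, Finset.mem_univ, Finset.sum_erase_eq_sub, sdiff_self, Finset.bot_eq_empty, Finset.prod_empty, mul_one, add_sub_cancel]
  have h4 : ∀ᶠ t in gapF (m + 1), ‖((∫ x, ∏ i, f i (iter T (t i) x) ∂μ) -
      ∫ x, ∏ i, F i (iter T (t i) x) ∂μ) - ∏ i, c i‖ < ε := by
    have := (tendsto_iff_norm_sub_tendsto_zero.1 hlim)
    exact this.eventually_lt_const hε
  filter_upwards [h1, h4] with t ht1 ht4
  have e : (∫ x, ∏ i, f i (iter T (t i) x) ∂μ) - ∏ i, c i =
      (∫ x, ∏ i, F i (iter T (t i) x) ∂μ) + (((∫ x, ∏ i, f i (iter T (t i) x) ∂μ) -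
      ∫ x, ∏ i, F i (iter T (t i) x) ∂μ) - ∏ i, c i) := by ring
  rw [e]
  refine (norm_add_le _ _).trans (add_le_add ht1 ht4.le)

/-- the gap for sets -/
theorem gapB_set {μ : Measure Ω} [IsProbabilityMeasure μ] {T : Ω ≃ᵐ Ω}
    (hT : MeasurePreserving T μ μ) {m : ℕ} (hm : 2 ≤ m) (hmix : MixingOfOrder μ T m)
    (A : Fin (m + 1) → Set Ω) (hA : ∀ i, MeasurableSet (A i)) (ε : ℝ) (hε : 0 < ε) :
    ∀ᶠ t in gapF (m + 1), |μ.real (⋂ i, iter T (t i) ⁻¹' A i) - ∏ i, μ.real (A i)| ≤
      (1 - gβ m) * (∏ i, Real.sqrt (μ.real (A i) * (1 - μ.real (A i)))) + ε := by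
  have h := gapB_fun hT hm hmix (fun i => (A i).indicator fun _ => (1 : ℂ))
    (fun i => measurable_const.indicator (hA i)) (fun i => ⟨1, fun x => by
      by_cases hx : x ∈ A i <;> simp [hx]⟩) ε hε
  have hmean : ∀ i, ∫ x, (A i).indicator (fun _ => (1 : ℂ)) x ∂μ = ((μ.real (A i) : ℝ) : ℂ) := by
    intro i
    rw [integral_indicator_const _ (hA i)]; simp
  have hvar : ∀ i, ∫ x, ‖(A i).indicator (fun _ => (1 : ℂ)) x - ((μ.real (A i) : ℝ) : ℂ)‖ ^ 2 ∂μ =
      μ.real (A i) * (1 - μ.real (A i)) := by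
    intro i
    have e : ∀ x, ‖(A i).indicator (fun _ => (1 : ℂ)) x - ((μ.real (A i) : ℝ) : ℂ)‖ ^ 2 =
        (A i).indicator (fun _ => 1 - 2 * μ.real (A i)) x + μ.real (A i) ^ 2 := by
      intro x
      by_cases hx : x ∈ A i
      · rw [Set.indicator_of_mem hx, Set.indicator_of_mem hx]
        have : (1 : ℂ) - ((μ.real (A i) : ℝ) : ℂ) = ((1 - μ.real (A i) : ℝ) : ℂ) := by push_cast; rfl
        rw [this, Complex.norm_real, Real.norm_eq_abs, sq_abs]; ring
      · rw [Set.indicator_of_notMem hx, Set.indicator_of_notMem hx, zero_sub, norm_neg,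
          Complex.norm_real, Real.norm_eq_abs, sq_abs]; ring
    simp_rw [e]
    rw [integral_add ((integrable_const _).indicator (hA i)) (integrable_const _),
      integral_indicator_const _ (hA i)]
    simp only [smul_eq_mul, integral_const, probReal_univ, one_mul]
    ring
  filter_upwards [h] with t ht
  have e1 : (fun x => ∏ i, (A i).indicator (fun _ => (1 : ℂ)) (iter T (t i) x)) =
      (⋂ i, iter T (t i) ⁻¹' A i).indicator (fun _ => (1 : ℂ)) := by
    funext x
    by_cases hx : x ∈ ⋂ i, iter T (t i) ⁻¹' A i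
    · rw [Set.indicator_of_mem hx]
      rw [Set.mem_iInter] at hx
      refine Finset.prod_eq_one fun i _ => ?_
      exact Set.indicator_of_mem (show iter T (t i) x ∈ A i from hx i) _
    · rw [Set.indicator_of_notMem hx]
      rw [Set.mem_iInter, not_forall] at hx
      obtain ⟨i, hi⟩ := hx
      refine Finset.prod_eq_zero (Finset.mem_univ i) ?_
      exact Set.indicator_of_notMem (show iter T (t i) x ∉ A i from hi) _
  have e2 : ∫ x, ∏ i, (A i).indicator (fun _ => (1 : ℂ)) (iter T (t i) x) ∂μ =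
      ((μ.real (⋂ i, iter T (t i) ⁻¹' A i) : ℝ) : ℂ) := by
    rw [e1, integral_indicator_const _ (MeasurableSet.iInter fun i => (measurable_iter T _) (hA i))]
    simp
  have e3 : ∏ i, ∫ x, (A i).indicator (fun _ => (1 : ℂ)) x ∂μ = ((∏ i, μ.real (A i) : ℝ) : ℂ) := by
    push_cast
    exact Finset.prod_congr rfl fun i _ => hmean i
  rw [e2, e3, ← Complex.ofReal_sub, Complex.norm_real, Real.norm_eq_abs] at ht
  refine ht.trans (le_of_eq ?_)
  congr 2
  refine Finset.prod_congr rfl fun i _ => ?_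
  rw [← hvar i]
  simp_rw [hmean i]

end Vale.Agent.P102.Ext
end
end
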